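/-
ROW 125 CONDITIONAL CHAIN, leaf B1 (group Ball).  Blueprint: Claimed/Agent/R125/Main.lean.  Definitions: Defs.lean.
Rules for the solver: keep the statements; helper names start with `B1_`; you may use every theorem of the imported
files (some still have sorry); edit only this file.

GROUP SKETCH.
Row 125 chain, file Ball: almost surely, passage times inside balls of radius `δ n` around the `n`-th point of ANY
deterministic sequence are at most `C δ n` for large `n`.   (blueprint: Main.lean)

Proof.  `K` from `upper_tail`.  Fix a centre `y` and a radius `r ≥ 1`.  For `n1 (z - y) ≤ r` the L-path from `y` to `z`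
uses edges of the row segment `H = {((i, y.2), false) : y.1 - r ≤ i < y.1 + r}` and of the column segment
`V_a = {((a, j), true) : y.2 - r ≤ j < y.2 + r}`, `a = z.1`, `|a - y.1| ≤ r`  (`LE_subset`).  Each has `2 r` edges.  So
`P(∃ z, n1 (z-y) ≤ r, T(y,z) > 4 K r) ≤ P(∑_H ≥ K 2r) + ∑_a P(∑_{V_a} ≥ K 2r) ≤ (2 r + 2) exp(-2 r)`.
With `r = ⌊δ n⌋₊` this is summable in `n`; Borel-Cantelli (`measure_limsup_atTop_eq_zero` / `ae_eventually_notMem`).
If `r = 0` then `z = y` and `T = 0`.  Constant: `C = 4 K`  (`4 K r ≤ 4 K δ n`).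
-/
import Claimed.Agent.R125.Path

set_option autoImplicit false

open MeasureTheory ProbabilityTheory Filter Set
open scoped Topology
open Claims.C0214 Claims.C0214.PlanarFPP Claims.C0214.GammaFPP

namespace Claimed.Agent.R125

variable {Ω : Type} [MeasurableSpace Ω] {P : Measure Ω} {τ : Edge → Ω → ℝ} {ν : Measure ℝ}
variable {w : Edge → ℝ} {μ : Plane → ℝ}

/-! ### leaf B1 (deterministic) -/

theorem LE_subset (y z : Vertex) (r : ℕ) (h : n1 (z - y) ≤ r) :
    LE y z ⊆ rowE y r ∪ colE y r z.1 := by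
  have h1 : ((z.1 - y.1).natAbs : ℤ) + ((z.2 - y.2).natAbs : ℤ) ≤ r := by
    have : (z - y).1.natAbs + (z - y).2.natAbs ≤ r := h
    have h2 : (z - y).1 = z.1 - y.1 := rfl
    have h3 : (z - y).2 = z.2 - y.2 := rfl
    rw [h2, h3] at this
    exact_mod_cast this
  intro e he
  unfold LE at he
  unfold rowE colE
  rw [Finset.mem_union] at he ⊢
  rcases he with he | he
  · left
    rw [Finset.mem_image] at he ⊢
    obtain ⟨i, hi, rfl⟩ := he
    refine ⟨i, ?_, rfl⟩
    rw [Finset.mem_Ico] at hi ⊢
    obtain ⟨hi1, hi2⟩ := hi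
    rcases le_total y.1 z.1 with hyz | hyz
    · rw [min_eq_left hyz] at hi1
      rw [max_eq_right hyz] at hi2
      omega
    · rw [min_eq_right hyz] at hi1
      rw [max_eq_left hyz] at hi2
      omega
  · right
    rw [Finset.mem_image] at he ⊢
    obtain ⟨j, hj, rfl⟩ := he
    refine ⟨j, ?_, rfl⟩
    rw [Finset.mem_Ico] at hj ⊢
    obtain ⟨hj1, hj2⟩ := hj
    rcases le_total y.2 z.2 with hyz | hyz
    · rw [min_eq_left hyz] at hj1
      rw [max_eq_right hyz] at hj2
      omega
    · rw [min_eq_right hyz] at hj1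
      rw [max_eq_left hyz] at hj2
      omega

theorem card_rowE (y : Vertex) (r : ℕ) : (rowE y r).card = 2 * r := by
  unfold rowE
  rw [Finset.card_image_of_injective]
  · rw [Int.card_Ico]
    have : y.1 + (r : ℤ) - (y.1 - r) = ((2 * r : ℕ) : ℤ) := by push_cast; ring
    rw [this, Int.toNat_natCast]
  · intro a b hab
    simpa using hab

theorem card_colE (y : Vertex) (r : ℕ) (a : ℤ) : (colE y r a).card = 2 * r := by
  unfold colE
  rw [Finset.card_image_of_injective]
  · rw [Int.card_Ico]
    have : y.2 + (r : ℤ) - (y.2 - r) = ((2 * r : ℕ) : ℤ) := by push_cast; ring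
    rw [this, Int.toNat_natCast]
  · intro b c hbc
    simpa using hbc

theorem T_le_row_col {w : Edge → ℝ} (hw : NN w) (y z : Vertex) (r : ℕ) (h : n1 (z - y) ≤ r) :
    T w y z ≤ ∑ e ∈ rowE y r, w e + ∑ e ∈ colE y r z.1, w e := by
  classical
  calc T w y z ≤ ∑ e ∈ LE y z, w e := T_le_sum_LE hw y z
    _ ≤ ∑ e ∈ rowE y r ∪ colE y r z.1, w e :=
        Finset.sum_le_sum_of_subset_of_nonneg (LE_subset y z r h) (fun e _ _ => hw e)
    _ ≤ ∑ e ∈ rowE y r, w e + ∑ e ∈ colE y r z.1, w e := by
        rw [← Finset.sum_union_inter]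
        exact le_add_of_nonneg_right (Finset.sum_nonneg (fun e _ => hw e))

end Claimed.Agent.R125
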