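/-
ROW 125 CONDITIONAL CHAIN, leaf B2 (group Ball).  Blueprint: Claimed/Agent/R125/Main.lean.  Definitions: Defs.lean.
Rules for the solver: keep the statements; helper names start with `B2_`; you may use every theorem of the imported
files (some still have sorry); edit only this file.

GROUP SKETCH.
Row 125 chain, file Ball: almost surely, passage times inside balls of radius `δ n` around the `n`-th point of ANY
deterministic sequence are at most `C δ n` for large `n`.   (blueprint: Main.lean)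

Proof.  `K` from `upper_tail`.  Fix a centre `y` and a radius `r ≥ 1`.  For `n1 (z - y) ≤ r` the L-path from `y` to `z`
uses edges of the row segment `H = {((i, y.2), false) : y.1 - r ≤ i < y.1 + r}` and of the column segment
`V_a = {((a, j), true) : y.2 - r ≤ j < y.2 + r}`, `a = z.1`, `|a - y.1| ≤ r`  (`LE_subset`).  Each has `2 r` edges.  So
`P(∃ z, n1 (z-y) ≤ r, T(y,z) > 4 K r) ≤ P(∑_H ≥ K 2r) + ∑_a P(∑_{V_a} ≥ K 2r) ≤ (2 r + 2) exp(-2 r)`.
With `r = ⌊δ n⌋₊` this is summable in `n`; Borel-Cantelli (`measure_limsup_atTop_eq_zero` / `ae_eventually_notMem`).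
If `r = 0` then `z = y` and `T = 0`.  Constant: `C = 4 K`  (`4 K r ≤ 4 K δ n`).
-/
import Claimed.Agent.R125.B1
import Claimed.Agent.R125.Law

set_option autoImplicit false

open MeasureTheory ProbabilityTheory Filter Set
open scoped Topology
open Claims.C0214 Claims.C0214.PlanarFPP Claims.C0214.GammaFPP

namespace Claimed.Agent.R125

variable {Ω : Type} [MeasurableSpace Ω] {P : Measure Ω} {τ : Edge → Ω → ℝ} {ν : Measure ℝ}
variable {w : Edge → ℝ} {μ : Plane → ℝ}

/-! ### leaf B2 (one ball) -/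

theorem ball_prob (h : IidEnvironment ν P τ) (hν : NiceLaw ν) :
    ∃ K : ℝ, 0 < K ∧ ∀ (y : Vertex) (r : ℕ),
      P.real {ω | ∃ z : Vertex, n1 (z - y) ≤ r ∧ 4 * K * r < T (env τ ω) y z} ≤
        (2 * r + 2) * Real.exp (-(2 * r : ℝ)) := by
  obtain ⟨K, hK, hT⟩ := upper_tail h hν
  have hprob := h.probability
  refine ⟨K, hK, fun y r => ?_⟩
  set N : Set Ω := {ω | ¬ NN (env τ ω)} with hN
  have hN0 : P.real N = 0 := by
    have h0 : P N = 0 := ae_iff.1 (ae_NN h hν)
    simp [Measure.real, h0]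
  set R : Set Ω := {ω | K * ((2 * r : ℕ) : ℝ) ≤ ∑ e ∈ rowE y r, τ e ω} with hR
  set Cc : ℤ → Set Ω := fun a => {ω | K * ((2 * r : ℕ) : ℝ) ≤ ∑ e ∈ colE y r a, τ e ω} with hC
  have hsub : {ω | ∃ z : Vertex, n1 (z - y) ≤ r ∧ 4 * K * r < T (env τ ω) y z} ⊆
      N ∪ (R ∪ ⋃ a ∈ Finset.Icc (y.1 - r) (y.1 + r), Cc a) := by
    intro ω hω
    obtain ⟨z, hz, hlt⟩ := hω
    by_cases hNN : NN (env τ ω)
    · right
      have h1 := T_le_row_col hNN y z r hz
      by_contra hcon
      rw [Set.mem_union, not_or] at hcon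
      obtain ⟨hc1, hc2⟩ := hcon
      have hz1 : z.1 ∈ Finset.Icc (y.1 - r) (y.1 + r) := by
        rw [Finset.mem_Icc]
        have h2 : (z - y).1 = z.1 - y.1 := rfl
        unfold n1 at hz
        rw [h2] at hz
        omega
      have hc2' : ω ∉ Cc z.1 := fun hmem => hc2 (Set.mem_biUnion hz1 hmem)
      have hc1' : ∑ e ∈ rowE y r, τ e ω < K * ((2 * r : ℕ) : ℝ) := not_le.1 hc1
      have hc2'' : ∑ e ∈ colE y r z.1, τ e ω < K * ((2 * r : ℕ) : ℝ) := not_le.1 hc2'
      push_cast at hc1' hc2''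
      have h3 : ∑ e ∈ rowE y r, env τ ω e = ∑ e ∈ rowE y r, τ e ω := rfl
      have h4 : ∑ e ∈ colE y r z.1, env τ ω e = ∑ e ∈ colE y r z.1, τ e ω := rfl
      rw [h3, h4] at h1
      linarith
    · left; exact hNN
  have hRb : P.real R ≤ Real.exp (-(2 * r : ℝ)) := by
    have := hT (rowE y r) (2 * r) (card_rowE y r).le
    push_cast at this
    simpa [hR] using this
  have hCb : ∀ a, P.real (Cc a) ≤ Real.exp (-(2 * r : ℝ)) := by
    intro a
    have := hT (colE y r a) (2 * r) (card_colE y r a).le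
    push_cast at this
    simpa [hC] using this
  have hcard : ((Finset.Icc (y.1 - r) (y.1 + r)).card : ℝ) = 2 * r + 1 := by
    rw [Int.card_Icc]
    have h5 : (y.1 + (r : ℤ) + 1 - (y.1 - r)).toNat = 2 * r + 1 := by omega
    rw [h5]
    push_cast
    ring
  calc P.real {ω | ∃ z : Vertex, n1 (z - y) ≤ r ∧ 4 * K * r < T (env τ ω) y z}
      ≤ P.real (N ∪ (R ∪ ⋃ a ∈ Finset.Icc (y.1 - r) (y.1 + r), Cc a)) := measureReal_mono hsub
    _ ≤ P.real N + P.real (R ∪ ⋃ a ∈ Finset.Icc (y.1 - r) (y.1 + r), Cc a) :=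
        measureReal_union_le _ _
    _ ≤ P.real N + (P.real R + P.real (⋃ a ∈ Finset.Icc (y.1 - r) (y.1 + r), Cc a)) := by
        gcongr
        exact measureReal_union_le _ _
    _ ≤ 0 + (Real.exp (-(2 * r : ℝ)) +
          ∑ a ∈ Finset.Icc (y.1 - r) (y.1 + r), Real.exp (-(2 * r : ℝ))) := by
        rw [hN0]
        gcongr
        exact (measureReal_biUnion_finset_le _ _).trans (Finset.sum_le_sum fun a _ => hCb a)
    _ = (2 * r + 2) * Real.exp (-(2 * r : ℝ)) := by
        rw [Finset.sum_const, nsmul_eq_mul, hcard]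
        ring

end Claimed.Agent.R125
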