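/-
ROW 125 CONDITIONAL CHAIN, leaf B3 (group Ball).  Blueprint: Claimed/Agent/R125/Main.lean.  Definitions: Defs.lean.
Rules for the solver: keep the statements; helper names start with `B3_`; you may use every theorem of the imported
files (some still have sorry); edit only this file.

GROUP SKETCH.
Row 125 chain, file Ball: almost surely, passage times inside balls of radius `δ n` around the `n`-th point of ANY
deterministic sequence are at most `C δ n` for large `n`.   (blueprint: Main.lean)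

Proof.  `K` from `upper_tail`.  Fix a centre `y` and a radius `r ≥ 1`.  For `n1 (z - y) ≤ r` the L-path from `y` to `z`
uses edges of the row segment `H = {((i, y.2), false) : y.1 - r ≤ i < y.1 + r}` and of the column segment
`V_a = {((a, j), true) : y.2 - r ≤ j < y.2 + r}`, `a = z.1`, `|a - y.1| ≤ r`  (`LE_subset`).  Each has `2 r` edges.  So
`P(∃ z, n1 (z-y) ≤ r, T(y,z) > 4 K r) ≤ P(∑_H ≥ K 2r) + ∑_a P(∑_{V_a} ≥ K 2r) ≤ (2 r + 2) exp(-2 r)`.
With `r = ⌊δ n⌋₊` this is summable in `n`; Borel-Cantelli (`measure_limsup_atTop_eq_zero` / `ae_eventually_notMem`).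
If `r = 0` then `z = y` and `T = 0`.  Constant: `C = 4 K`  (`4 K r ≤ 4 K δ n`).
-/
import Claimed.Agent.R125.B2

set_option autoImplicit false

open MeasureTheory ProbabilityTheory Filter Set
open scoped Topology
open Claims.C0214 Claims.C0214.PlanarFPP Claims.C0214.GammaFPP

namespace Claimed.Agent.R125

variable {Ω : Type} [MeasurableSpace Ω] {P : Measure Ω} {τ : Edge → Ω → ℝ} {ν : Measure ℝ}
variable {w : Edge → ℝ} {μ : Plane → ℝ}

/-! ### leaf B3 (Borel-Cantelli) -/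

theorem B3_summable (δ : ℝ) (hδ : 0 < δ) :
    Summable (fun n : ℕ => (2 * (⌊δ * n⌋₊ : ℝ) + 2) * Real.exp (-(2 * (⌊δ * n⌋₊ : ℝ)))) := by
  have h1 := Real.summable_pow_mul_exp_neg_nat_mul 1 (r := 2 * δ) (by positivity)
  have h0 := Real.summable_pow_mul_exp_neg_nat_mul 0 (r := 2 * δ) (by positivity)
  have hs : Summable (fun n : ℕ => (2 * δ * Real.exp 2) * ((n : ℝ) ^ 1 * Real.exp (-(2 * δ) * n))
      + (2 * Real.exp 2) * ((n : ℝ) ^ 0 * Real.exp (-(2 * δ) * n))) :=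
    (h1.mul_left _).add (h0.mul_left _)
  refine Summable.of_nonneg_of_le (fun n => by positivity) (fun n => ?_) hs
  have hn : (0 : ℝ) ≤ δ * n := by positivity
  have hfl : (⌊δ * n⌋₊ : ℝ) ≤ δ * n := Nat.floor_le hn
  have hfl2 : δ * n - 1 < (⌊δ * n⌋₊ : ℝ) := Nat.sub_one_lt_floor _
  have he : Real.exp (-(2 * (⌊δ * n⌋₊ : ℝ))) ≤ Real.exp 2 * Real.exp (-(2 * δ) * n) := by
    rw [← Real.exp_add]
    apply Real.exp_le_exp.mpr
    nlinarith
  calc (2 * (⌊δ * n⌋₊ : ℝ) + 2) * Real.exp (-(2 * (⌊δ * n⌋₊ : ℝ)))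
      ≤ (2 * (δ * n) + 2) * (Real.exp 2 * Real.exp (-(2 * δ) * n)) := by
        apply mul_le_mul _ he (Real.exp_pos _).le (by positivity)
        linarith
    _ = _ := by ring

theorem ball_bound (h : IidEnvironment ν P τ) (hν : NiceLaw ν) :
    ∃ C : ℝ, 0 < C ∧ ∀ (y : ℕ → Vertex) (δ : ℝ), 0 < δ →
      ∀ᵐ ω ∂P, ∀ᶠ n : ℕ in atTop, ∀ z : Vertex, (n1 (z - y n) : ℝ) ≤ δ * n →
        T (env τ ω) (y n) z ≤ C * δ * n := by
  obtain ⟨K, hK, hP⟩ := ball_prob h hν
  have := h.probability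
  refine ⟨4 * K, by positivity, fun y δ hδ => ?_⟩
  set A : ℕ → Set Ω := fun n =>
    {ω | ∃ z : Vertex, n1 (z - y n) ≤ ⌊δ * n⌋₊ ∧ 4 * K * (⌊δ * n⌋₊ : ℝ) < T (env τ ω) (y n) z}
    with hA
  have hsum : ∑' n, P (A n) ≠ ⊤ := by
    have hle : ∀ n, P (A n) ≤ ENNReal.ofReal
        ((2 * (⌊δ * n⌋₊ : ℝ) + 2) * Real.exp (-(2 * (⌊δ * n⌋₊ : ℝ)))) := by
      intro n
      rw [← ofReal_measureReal (μ := P) (s := A n)]
      exact ENNReal.ofReal_le_ofReal (hP (y n) ⌊δ * n⌋₊)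
    refine ne_top_of_le_ne_top ?_ (ENNReal.tsum_le_tsum hle)
    exact (B3_summable δ hδ).tsum_ofReal_ne_top
  have hbc := ae_eventually_notMem hsum
  filter_upwards [hbc] with ω hω
  filter_upwards [hω] with n hn z hz
  have hn0 : (0 : ℝ) ≤ δ * n := by positivity
  have hz' : n1 (z - y n) ≤ ⌊δ * n⌋₊ := Nat.le_floor hz
  by_contra hcon
  push Not at hcon
  apply hn
  refine ⟨z, hz', lt_of_le_of_lt ?_ hcon⟩
  have hfl : (⌊δ * n⌋₊ : ℝ) ≤ δ * n := Nat.floor_le hn0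
  calc 4 * K * (⌊δ * n⌋₊ : ℝ) ≤ 4 * K * (δ * n) := by
        apply mul_le_mul_of_nonneg_left hfl (by positivity)
    _ = 4 * K * δ * n := by ring

end Claimed.Agent.R125
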