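/-
ROW 125 CONDITIONAL CHAIN, leaf C1 (group Convex).  Blueprint: Claimed/Agent/R125/Main.lean.  Definitions: Defs.lean.
Rules for the solver: keep the statements; helper names start with `C1_`; you may use every theorem of the imported
files (some still have sorry); edit only this file.

GROUP SKETCH.
Row 125 chain, file Convex: planar convex analysis.  `μ : Plane → ℝ` satisfies `TimeConstantNorm μ` (a norm on the plane).
No probability here.   (blueprint: Main.lean)
-/
import Claimed.Agent.R125.Defs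

set_option autoImplicit false

open MeasureTheory ProbabilityTheory Filter Set
open scoped Topology
open Claims.C0214 Claims.C0214.PlanarFPP Claims.C0214.GammaFPP

namespace Claimed.Agent.R125

variable {Ω : Type} [MeasurableSpace Ω] {P : Measure Ω} {τ : Edge → Ω → ℝ} {ν : Measure ℝ}
variable {w : Edge → ℝ} {μ : Plane → ℝ}

/-! ### leaf C1: elementary facts on norms -/

theorem tcn_convexOn (hμ : TimeConstantNorm μ) : ConvexOn ℝ univ μ := by
  refine ⟨convex_univ, ?_⟩
  intro x _ y _ a b ha hb _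
  calc μ (a • x + b • y) ≤ μ (a • x) + μ (b • y) := hμ.triangle _ _
    _ = a • μ x + b • μ y := by
      rw [hμ.homogeneous, hμ.homogeneous, abs_of_nonneg ha, abs_of_nonneg hb]
      simp [smul_eq_mul]

theorem tcn_pos (hμ : TimeConstantNorm μ) {v : Plane} (hv : v ≠ 0) : 0 < μ v := by
  rcases lt_or_eq_of_le (hμ.nonneg v) with h | h
  · exact h
  · exact absurd ((hμ.zero_iff v).1 h.symm) hv

theorem C1_decomp (v : Plane) :
    v = (v 0) • (EuclideanSpace.single (0 : Fin 2) (1 : ℝ)) +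
      (v 1) • (EuclideanSpace.single (1 : Fin 2) (1 : ℝ)) := by
  ext i
  fin_cases i <;> simp

theorem C1_coord_le (v : Plane) (i : Fin 2) : |v i| ≤ ‖v‖ := by
  have := EuclideanSpace.norm_eq v
  have h2 : ‖v i‖ ^ 2 ≤ ∑ j, ‖v j‖ ^ 2 :=
    Finset.single_le_sum (f := fun j => ‖v j‖ ^ 2) (fun j _ => by positivity) (Finset.mem_univ i)
  rw [this]
  have h3 : |v i| = Real.sqrt (‖v i‖ ^ 2) := by
    rw [Real.sqrt_sq (norm_nonneg _), Real.norm_eq_abs]
  rw [h3]
  exact Real.sqrt_le_sqrt h2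

theorem C1_bound (hμ : TimeConstantNorm μ) (v : Plane) :
    μ v ≤ (μ (EuclideanSpace.single (0 : Fin 2) (1 : ℝ)) +
      μ (EuclideanSpace.single (1 : Fin 2) (1 : ℝ))) * ‖v‖ := by
  have h0 := hμ.nonneg (EuclideanSpace.single (0 : Fin 2) (1 : ℝ))
  have h1 := hμ.nonneg (EuclideanSpace.single (1 : Fin 2) (1 : ℝ))
  calc μ v = μ ((v 0) • (EuclideanSpace.single (0 : Fin 2) (1 : ℝ)) +
      (v 1) • (EuclideanSpace.single (1 : Fin 2) (1 : ℝ))) := by rw [← C1_decomp v]
    _ ≤ μ ((v 0) • (EuclideanSpace.single (0 : Fin 2) (1 : ℝ))) +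
        μ ((v 1) • (EuclideanSpace.single (1 : Fin 2) (1 : ℝ))) := hμ.triangle _ _
    _ = |v 0| * μ (EuclideanSpace.single (0 : Fin 2) (1 : ℝ)) +
        |v 1| * μ (EuclideanSpace.single (1 : Fin 2) (1 : ℝ)) := by
      rw [hμ.homogeneous, hμ.homogeneous]
    _ ≤ ‖v‖ * μ (EuclideanSpace.single (0 : Fin 2) (1 : ℝ)) +
        ‖v‖ * μ (EuclideanSpace.single (1 : Fin 2) (1 : ℝ)) :=
      add_le_add (mul_le_mul_of_nonneg_right (C1_coord_le v 0) h0)
        (mul_le_mul_of_nonneg_right (C1_coord_le v 1) h1)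
    _ = _ := by ring

/-- `μ v ≤ |v 0| μ e₀ + |v 1| μ e₁ ≤ C ‖v‖` and the triangle inequality -/
theorem tcn_lipschitz (hμ : TimeConstantNorm μ) : ∃ C : NNReal, LipschitzWith C μ := by
  have h0 := hμ.nonneg (EuclideanSpace.single (0 : Fin 2) (1 : ℝ))
  have h1 := hμ.nonneg (EuclideanSpace.single (1 : Fin 2) (1 : ℝ))
  refine ⟨Real.toNNReal (μ (EuclideanSpace.single (0 : Fin 2) (1 : ℝ)) +
      μ (EuclideanSpace.single (1 : Fin 2) (1 : ℝ))), ?_⟩
  apply LipschitzWith.of_le_add_mul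
  intro x y
  have h := hμ.triangle y (x - y)
  have h' : y + (x - y) = x := by abel
  rw [h'] at h
  have hb := C1_bound hμ (x - y)
  rw [dist_eq_norm]
  rw [Real.coe_toNNReal _ (add_nonneg h0 h1)]
  linarith

theorem tcn_continuous (hμ : TimeConstantNorm μ) : Continuous μ := by
  obtain ⟨C, hC⟩ := tcn_lipschitz hμ
  exact hC.continuous

end Claimed.Agent.R125
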