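/-
ROW 125 CONDITIONAL CHAIN, leaf C10 (group Convex).  Blueprint: Claimed/Agent/R125/Main.lean.  Definitions: Defs.lean.
Rules for the solver: keep the statements; helper names start with `C10_`; you may use every theorem of the imported
files (some still have sorry); edit only this file.

GROUP SKETCH.
Row 125 chain, file Convex: planar convex analysis.  `μ : Plane → ℝ` satisfies `TimeConstantNorm μ` (a norm on the plane).
No probability here.   (blueprint: Main.lean)
-/
import Claimed.Agent.R125.C9

set_option autoImplicit false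

open MeasureTheory ProbabilityTheory Filter Set
open scoped Topology
open Claims.C0214 Claims.C0214.PlanarFPP Claims.C0214.GammaFPP

namespace Claimed.Agent.R125

variable {Ω : Type} [MeasurableSpace Ω] {P : Measure Ω} {τ : Edge → Ω → ℝ} {ν : Measure ℝ}
variable {w : Edge → ℝ} {μ : Plane → ℝ}

/-! ### leaf C10: unique supporting line.  Existence: `G = fderiv μ v`.  Uniqueness: if `G ≠ 0` and `G z ≤ G v` on the ball then
`G v > 0` and `(G v)⁻¹ • G` is a normalised support, so it equals the one of C9 and the line is `{z | ℓ z = 1}`. -/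

theorem tcn_unique_line (hμ : TimeConstantNorm μ) (hd : DifferentiableAwayFromOrigin μ) (v : Plane)
    (hv : μ v = 1) : ∃! L : Set Plane, ∃ G : Plane →L[ℝ] ℝ, G ≠ 0 ∧ (∀ z, μ z ≤ 1 → G z ≤ G v) ∧
      L = {z | G z = G v} := by
  obtain ⟨ℓ, ⟨hℓv, hℓle⟩, huniq⟩ := tcn_unique_support hμ hd v hv
  have hnorm : ∀ u : Plane, u ≠ 0 → μ ((μ u)⁻¹ • u) = 1 := by
    intro u hu
    have hpos : 0 < μ u := by
      rcases lt_or_eq_of_le (hμ.nonneg u) with h | h
      · exact h
      · exact absurd ((hμ.zero_iff u).1 h.symm) hu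
    rw [hμ.homogeneous, abs_of_pos (inv_pos.2 hpos), inv_mul_cancel₀ hpos.ne']
  have hposμ : ∀ u : Plane, u ≠ 0 → 0 < μ u := by
    intro u hu
    rcases lt_or_eq_of_le (hμ.nonneg u) with h | h
    · exact h
    · exact absurd ((hμ.zero_iff u).1 h.symm) hu
  refine ⟨{z | ℓ z = ℓ v}, ⟨ℓ, ?_, ?_, rfl⟩, ?_⟩
  · intro h0
    rw [h0] at hℓv
    simp at hℓv
  · intro z hz
    rw [hℓv]
    exact (hℓle z).trans hz
  · rintro L ⟨G, hG0, hGle, rfl⟩
    -- `G v > 0`
    have hGv : 0 < G v := by
      obtain ⟨u, hu⟩ : ∃ u, G u ≠ 0 := by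
        by_contra hcon
        push_neg at hcon
        exact hG0 (ContinuousLinearMap.ext (by simpa using hcon))
      obtain ⟨u', hu'⟩ : ∃ u', 0 < G u' := by
        rcases lt_or_gt_of_ne hu with h | h
        · exact ⟨-u, by simpa using h⟩
        · exact ⟨u, h⟩
      have hu0 : u' ≠ 0 := by
        rintro rfl
        simp at hu'
      have h1 := hGle _ (hnorm u' hu0).le
      have h2 : 0 < G ((μ u')⁻¹ • u') := by
        rw [map_smul, smul_eq_mul]
        exact mul_pos (inv_pos.2 (hposμ u' hu0)) hu'
      exact h2.trans_le h1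
    have hℓ' : (G v)⁻¹ • G = ℓ := by
      apply huniq
      refine ⟨?_, ?_⟩
      · simp [hGv.ne']
      · intro u
        by_cases hu0 : u = 0
        · subst hu0
          simpa using hμ.nonneg 0
        · have h1 := hGle _ (hnorm u hu0).le
          rw [map_smul, smul_eq_mul] at h1
          have hp := hposμ u hu0
          have h2 : G u ≤ μ u * G v := by
            have := mul_le_mul_of_nonneg_left h1 hp.le
            rwa [← mul_assoc, mul_inv_cancel₀ hp.ne', one_mul] at this
          show ((G v)⁻¹ • G) u ≤ μ u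
          rw [ContinuousLinearMap.smul_apply, smul_eq_mul, inv_mul_le_iff₀ hGv]
          linarith [h2, mul_comm (μ u) (G v)]
    ext z
    simp only [Set.mem_setOf_eq]
    rw [hℓv, ← hℓ', ContinuousLinearMap.smul_apply, smul_eq_mul]
    constructor
    · intro h
      rw [h, inv_mul_cancel₀ hGv.ne']
    · intro h
      have := congrArg (fun t => G v * t) h
      simpa [← mul_assoc, hGv.ne'] using this

end Claimed.Agent.R125
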