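/-
ROW 125 CONDITIONAL CHAIN, leaf C2 (group Convex).  Blueprint: Claimed/Agent/R125/Main.lean.  Definitions: Defs.lean.
Rules for the solver: keep the statements; helper names start with `C2_`; you may use every theorem of the imported
files (some still have sorry); edit only this file.

GROUP SKETCH.
Row 125 chain, file Convex: planar convex analysis.  `μ : Plane → ℝ` satisfies `TimeConstantNorm μ` (a norm on the plane).
No probability here.   (blueprint: Main.lean)
-/
import Claimed.Agent.R125.Defs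

set_option autoImplicit false

open MeasureTheory ProbabilityTheory Filter Set
open scoped Topology
open Claims.C0214 Claims.C0214.PlanarFPP Claims.C0214.GammaFPP

namespace Claimed.Agent.R125

variable {Ω : Type} [MeasurableSpace Ω] {P : Measure Ω} {τ : Edge → Ω → ℝ} {ν : Measure ℝ}
variable {w : Edge → ℝ} {μ : Plane → ℝ}

/-! ### leaf C2: one variable.  For convex `φ` the slopes `(φ s - φ 0)/s` are monotone in `s`; `d₊ = inf_{s>0}`, `d₋ = sup_{s<0}`,
`d₋ ≤ d₊`, and `(φ s + φ (-s) - 2 φ 0)/s ≥ d₊ - d₋ ≥ 0`.  So the hypothesis gives `d₊ = d₋`. -/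

theorem hasDerivAt_of_symm_diff (φ : ℝ → ℝ) (hφ : ConvexOn ℝ univ φ)
    (h : Tendsto (fun s : ℝ => (φ s + φ (-s) - 2 * φ 0) / s) (𝓝[>] 0) (𝓝 0)) :
    ∃ d : ℝ, HasDerivAt φ d 0 := by
  have h0 : (0 : ℝ) ∈ interior (univ : Set ℝ) := by simp
  have hR := hφ.hasDerivWithinAt_rightDeriv_of_mem_interior h0
  have hL := hφ.hasDerivWithinAt_leftDeriv_of_mem_interior h0
  set dR := derivWithin φ (Ioi 0) 0 with hdR
  set dL := derivWithin φ (Iio 0) 0 with hdL
  have hLR : dL ≤ dR := hφ.leftDeriv_le_rightDeriv_of_mem_interior h0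
  have hge : ∀ s : ℝ, 0 < s → dR - dL ≤ (φ s + φ (-s) - 2 * φ 0) / s := by
    intro s hs
    have h1 : dR ≤ slope φ 0 s :=
      hφ.le_slope_of_hasDerivWithinAt_Ioi (mem_univ _) (mem_univ _) hs hR
    have h2 : slope φ (-s) 0 ≤ dL :=
      hφ.slope_le_of_hasDerivWithinAt_Iio (mem_univ _) (mem_univ _) (by linarith) hL
    rw [slope_def_field] at h1 h2
    have e : (φ s + φ (-s) - 2 * φ 0) / s = (φ s - φ 0) / (s - 0) - (φ 0 - φ (-s)) / (0 - -s) := by
      have hs' : s ≠ 0 := hs.ne'
      simp only [sub_zero, zero_sub, neg_neg]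
      field_simp
      ring
    rw [e]
    linarith
  have hle : dR - dL ≤ 0 := by
    refine ge_of_tendsto h ?_
    filter_upwards [self_mem_nhdsWithin] with s hs
    exact hge s hs
  have heq : dL = dR := le_antisymm hLR (by linarith)
  refine ⟨dR, ?_⟩
  rw [heq] at hL
  have hU := (hL.Iic_of_Iio).union (hR.Ici_of_Ioi)
  rw [Iic_union_Ici] at hU
  exact hasDerivWithinAt_univ.mp hU

end Claimed.Agent.R125
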