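/-
ROW 125 CONDITIONAL CHAIN, leaf C3 (group Convex).  Blueprint: Claimed/Agent/R125/Main.lean.  Definitions: Defs.lean.
Rules for the solver: keep the statements; helper names start with `C3_`; you may use every theorem of the imported
files (some still have sorry); edit only this file.

GROUP SKETCH.
Row 125 chain, file Convex: planar convex analysis.  `μ : Plane → ℝ` satisfies `TimeConstantNorm μ` (a norm on the plane).
No probability here.   (blueprint: Main.lean)
-/
import Claimed.Agent.R125.Defs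

set_option autoImplicit false

open MeasureTheory ProbabilityTheory Filter Set
open scoped Topology
open Claims.C0214 Claims.C0214.PlanarFPP Claims.C0214.GammaFPP

namespace Claimed.Agent.R125

variable {Ω : Type} [MeasurableSpace Ω] {P : Measure Ω} {τ : Edge → Ω → ℝ} {ν : Measure ℝ}
variable {w : Edge → ℝ} {μ : Plane → ℝ}

/-! ### leaf C3: two variables.  `ℓ` = the linear form with `ℓ v = a`, `ℓ u = b` (`v, u` is a basis).
`h z = f (p + z) - f p - ℓ z` is convex, `h 0 = 0`, `h (s v) = o(s)`, `h (s u) = o(s)`.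
For `z = α v + β u`:  `h z ≤ (h (2 α v) + h (2 β u))/2 = o(|α| + |β|)`  and  `h z ≥ - h (-z)`. -/

theorem C3_det_ne (v u : Plane) (hv : v ≠ 0) (hvu : ∀ c : ℝ, u ≠ c • v) :
    v 0 * u 1 - v 1 * u 0 ≠ 0 := by
  intro h0
  by_cases h00 : v 0 = 0
  · have h1 : v 1 ≠ 0 := by
      intro h1
      apply hv
      ext i
      fin_cases i
      · simpa using h00
      · simpa using h1
    apply hvu (u 1 / v 1)
    have hu0 : u 0 = 0 := by
      rw [h00] at h0
      have : v 1 * u 0 = 0 := by linarith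
      rcases mul_eq_zero.mp this with h | h
      · exact absurd h h1
      · exact h
    ext i
    fin_cases i
    · show u 0 = ((u 1 / v 1) • v) 0
      rw [PiLp.smul_apply, smul_eq_mul, h00, hu0, mul_zero]
    · show u 1 = ((u 1 / v 1) • v) 1
      rw [PiLp.smul_apply, smul_eq_mul]
      field_simp
  · apply hvu (u 0 / v 0)
    ext i
    fin_cases i
    · show u 0 = ((u 0 / v 0) • v) 0
      rw [PiLp.smul_apply, smul_eq_mul]
      field_simp
    · show u 1 = ((u 0 / v 0) • v) 1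
      rw [PiLp.smul_apply, smul_eq_mul]
      field_simp
      linarith

theorem C3_coords (v u : Plane) (hv : v ≠ 0) (hvu : ∀ c : ℝ, u ≠ c • v) :
    ∃ α β : Plane →L[ℝ] ℝ, (∀ z, z = α z • v + β z • u) ∧ α v = 1 ∧ β v = 0 ∧ α u = 0 ∧ β u = 1 := by
  have hD := C3_det_ne v u hv hvu
  set D : ℝ := v 0 * u 1 - v 1 * u 0 with hDdef
  let p0 : Plane →L[ℝ] ℝ := EuclideanSpace.proj (0 : Fin 2)
  let p1 : Plane →L[ℝ] ℝ := EuclideanSpace.proj (1 : Fin 2)
  have hp0 : ∀ z : Plane, p0 z = z 0 := fun z => rfl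
  have hp1 : ∀ z : Plane, p1 z = z 1 := fun z => rfl
  refine ⟨(u 1 / D) • p0 - (u 0 / D) • p1, (v 0 / D) • p1 - (v 1 / D) • p0, ?_, ?_, ?_, ?_, ?_⟩
  · intro z
    ext i
    fin_cases i
    · show z 0 = _
      simp only [_root_.sub_apply, _root_.smul_apply, hp0, hp1, smul_eq_mul,
        PiLp.add_apply, PiLp.smul_apply]
      show z 0 = (u 1 / D * z 0 - u 0 / D * z 1) * v 0 + (v 0 / D * z 1 - v 1 / D * z 0) * u 0
      field_simp
      rw [hDdef]; ring
    · show z 1 = _
      simp only [_root_.sub_apply, _root_.smul_apply, hp0, hp1, smul_eq_mul,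
        PiLp.add_apply, PiLp.smul_apply]
      show z 1 = (u 1 / D * z 0 - u 0 / D * z 1) * v 1 + (v 0 / D * z 1 - v 1 / D * z 0) * u 1
      field_simp
      rw [hDdef]; ring
  · simp only [_root_.sub_apply, _root_.smul_apply, hp0, hp1, smul_eq_mul]
    field_simp
    rw [hDdef]; ring
  · simp only [_root_.sub_apply, _root_.smul_apply, hp0, hp1, smul_eq_mul]
    field_simp
    ring
  · simp only [_root_.sub_apply, _root_.smul_apply, hp0, hp1, smul_eq_mul]
    field_simp
    ring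
  · simp only [_root_.sub_apply, _root_.smul_apply, hp0, hp1, smul_eq_mul]
    field_simp
    rw [hDdef]

theorem hasFDerivAt_of_two_dirs (f : Plane → ℝ) (hf : ConvexOn ℝ univ f) (p v u : Plane)
    (hv : v ≠ 0) (hvu : ∀ c : ℝ, u ≠ c • v) (a b : ℝ)
    (ha : HasDerivAt (fun s : ℝ => f (p + s • v)) a 0)
    (hb : HasDerivAt (fun s : ℝ => f (p + s • u)) b 0) :
    ∃ ℓ : Plane →L[ℝ] ℝ, HasFDerivAt f ℓ p := by
  obtain ⟨α, β, hz, hαv, hβv, hαu, hβu⟩ := C3_coords v u hv hvu
  refine ⟨a • α + b • β, ?_⟩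
  set ℓ : Plane →L[ℝ] ℝ := a • α + b • β with hℓ
  have hℓv : ℓ v = a := by simp [hℓ, hαv, hβv]
  have hℓu : ℓ u = b := by simp [hℓ, hαu, hβu]
  set h : Plane → ℝ := fun z => f (p + z) - f p - ℓ z with hh
  -- midpoint convexity of h
  have hmid : ∀ x y : Plane, h ((1 / 2 : ℝ) • x + (1 / 2 : ℝ) • y) ≤ (h x + h y) / 2 := by
    intro x y
    have h1 := hf.2 (mem_univ (p + x)) (mem_univ (p + y)) (by norm_num : (0 : ℝ) ≤ 1 / 2)
      (by norm_num : (0 : ℝ) ≤ 1 / 2) (by norm_num : (1 / 2 : ℝ) + 1 / 2 = 1)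
    have h2 : (1 / 2 : ℝ) • (p + x) + (1 / 2 : ℝ) • (p + y)
        = p + ((1 / 2 : ℝ) • x + (1 / 2 : ℝ) • y) := by
      have : p = (1 / 2 : ℝ) • p + (1 / 2 : ℝ) • p := by
        rw [← add_smul]; norm_num
      conv_rhs => rw [this]
      simp only [smul_add]
      abel
    rw [h2] at h1
    simp only [hh, map_add, map_smul, smul_eq_mul] at h1 ⊢
    linarith
  have h0 : h 0 = 0 := by simp [hh]
  -- one-dimensional little-o
  have g1 : (fun s : ℝ => h (s • v)) =o[𝓝 0] fun s : ℝ => s := by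
    have := ha.isLittleO
    simp only [sub_zero, zero_smul, add_zero, smul_eq_mul] at this
    refine this.congr_left ?_
    intro s
    simp only [hh, map_smul, smul_eq_mul, hℓv]
  have g2 : (fun s : ℝ => h (s • u)) =o[𝓝 0] fun s : ℝ => s := by
    have := hb.isLittleO
    simp only [sub_zero, zero_smul, add_zero, smul_eq_mul] at this
    refine this.congr_left ?_
    intro s
    simp only [hh, map_smul, smul_eq_mul, hℓu]
  rw [hasFDerivAt_iff_isLittleO_nhds_zero]
  show h =o[𝓝 0] fun z : Plane => z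
  rw [Asymptotics.isLittleO_iff]
  intro c hc
  set C : ℝ := ‖α‖ + ‖β‖ + 1 with hC
  have hCpos : 0 < C := by positivity
  have hε : 0 < c / C := div_pos hc hCpos
  have e1 := (Asymptotics.isLittleO_iff.mp g1) hε
  have e2 := (Asymptotics.isLittleO_iff.mp g2) hε
  have tα : Tendsto (fun z : Plane => 2 * α z) (𝓝 0) (𝓝 0) := by
    have : Continuous fun z : Plane => 2 * α z := by fun_prop
    simpa using this.tendsto 0
  have tβ : Tendsto (fun z : Plane => 2 * β z) (𝓝 0) (𝓝 0) := by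
    have : Continuous fun z : Plane => 2 * β z := by fun_prop
    simpa using this.tendsto 0
  have tα' : Tendsto (fun z : Plane => 2 * α (-z)) (𝓝 0) (𝓝 0) := by
    have : Continuous fun z : Plane => 2 * α (-z) := by fun_prop
    simpa using this.tendsto 0
  have tβ' : Tendsto (fun z : Plane => 2 * β (-z)) (𝓝 0) (𝓝 0) := by
    have : Continuous fun z : Plane => 2 * β (-z) := by fun_prop
    simpa using this.tendsto 0
  -- upper bound for h at a point, from the two one-dimensional bounds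
  have key : ∀ z : Plane, ‖h ((2 * α z) • v)‖ ≤ c / C * ‖2 * α z‖ →
      ‖h ((2 * β z) • u)‖ ≤ c / C * ‖2 * β z‖ → h z ≤ c * ‖z‖ := by
    intro z k1 k2
    have hzz : z = (1 / 2 : ℝ) • ((2 * α z) • v) + (1 / 2 : ℝ) • ((2 * β z) • u) := by
      rw [smul_smul, smul_smul]
      have e : (1 / 2 : ℝ) * (2 * α z) = α z := by ring
      have e' : (1 / 2 : ℝ) * (2 * β z) = β z := by ring
      rw [e, e']
      exact hz z
    have m := hmid ((2 * α z) • v) ((2 * β z) • u)
    rw [← hzz] at m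
    have k1' := (Real.norm_eq_abs _ ▸ k1 : |h ((2 * α z) • v)| ≤ c / C * ‖2 * α z‖)
    have k2' := (Real.norm_eq_abs _ ▸ k2 : |h ((2 * β z) • u)| ≤ c / C * ‖2 * β z‖)
    have n1 : ‖2 * α z‖ ≤ 2 * (‖α‖ * ‖z‖) := by
      rw [norm_mul]; simpa using (mul_le_mul_of_nonneg_left (α.le_opNorm z) (by norm_num : (0 : ℝ) ≤ 2))
    have n2 : ‖2 * β z‖ ≤ 2 * (‖β‖ * ‖z‖) := by
      rw [norm_mul]; simpa using (mul_le_mul_of_nonneg_left (β.le_opNorm z) (by norm_num : (0 : ℝ) ≤ 2))
    have s1 : h ((2 * α z) • v) ≤ c / C * (2 * (‖α‖ * ‖z‖)) :=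
      (le_abs_self _).trans (k1'.trans (mul_le_mul_of_nonneg_left n1 hε.le))
    have s2 : h ((2 * β z) • u) ≤ c / C * (2 * (‖β‖ * ‖z‖)) :=
      (le_abs_self _).trans (k2'.trans (mul_le_mul_of_nonneg_left n2 hε.le))
    have s3 : h z ≤ c / C * ((‖α‖ + ‖β‖) * ‖z‖) := by nlinarith
    have s4 : c / C * ((‖α‖ + ‖β‖) * ‖z‖) ≤ c * ‖z‖ := by
      have : c / C * (‖α‖ + ‖β‖) ≤ c := by
        rw [div_mul_eq_mul_div, div_le_iff₀ hCpos]
        have : ‖α‖ + ‖β‖ ≤ C := by rw [hC]; linarith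
        exact mul_le_mul_of_nonneg_left this hc.le
      calc c / C * ((‖α‖ + ‖β‖) * ‖z‖) = (c / C * (‖α‖ + ‖β‖)) * ‖z‖ := by ring
        _ ≤ c * ‖z‖ := mul_le_mul_of_nonneg_right this (norm_nonneg _)
    exact s3.trans s4
  filter_upwards [tα.eventually e1, tβ.eventually e2, tα'.eventually e1, tβ'.eventually e2]
    with z k1 k2 k3 k4
  have up := key z k1 k2
  have up' := key (-z) k3 k4
  rw [norm_neg] at up'
  have m := hmid z (-z)
  have hzero : (1 / 2 : ℝ) • z + (1 / 2 : ℝ) • (-z) = 0 := by simp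
  rw [hzero, h0] at m
  rw [Real.norm_eq_abs, abs_le]
  constructor <;> linarith

end Claimed.Agent.R125
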