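/-
ROW 125 CONDITIONAL CHAIN, leaf C4 (group Convex).  Blueprint: Claimed/Agent/R125/Main.lean.  Definitions: Defs.lean.
Rules for the solver: keep the statements; helper names start with `C4_`; you may use every theorem of the imported
files (some still have sorry); edit only this file.

GROUP SKETCH.
Row 125 chain, file Convex: planar convex analysis.  `μ : Plane → ℝ` satisfies `TimeConstantNorm μ` (a norm on the plane).
No probability here.   (blueprint: Main.lean)
-/
import Claimed.Agent.R125.C1
import Claimed.Agent.R125.C2
import Claimed.Agent.R125.C3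

set_option autoImplicit false

open MeasureTheory ProbabilityTheory Filter Set
open scoped Topology
open Claims.C0214 Claims.C0214.PlanarFPP Claims.C0214.GammaFPP

namespace Claimed.Agent.R125

variable {Ω : Type} [MeasurableSpace Ω] {P : Measure Ω} {τ : Edge → Ω → ℝ} {ν : Measure ℝ}
variable {w : Edge → ℝ} {μ : Plane → ℝ}

/-! ### leaf C4: no corner => differentiable  (C2 in the direction `w`; in the direction `v`: `μ (v + s v) = (1 + s) μ v` near `s = 0`; C3) -/

theorem differentiable_of_noCorner (hμ : TimeConstantNorm μ) (h : NoCorner μ) :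
    DifferentiableAwayFromOrigin μ := by
  intro v hv
  obtain ⟨w, hw, hT⟩ := h v hv
  have hconv := tcn_convexOn hμ
  have hφ : ConvexOn ℝ univ (fun s : ℝ => μ (v + s • w)) := by
    refine ⟨convex_univ, ?_⟩
    intro x _ y _ a b ha hb hab
    have h1 : v + (a • x + b • y) • w = a • (v + x • w) + b • (v + y • w) := by
      have : v = (a + b) • v := by rw [hab, one_smul]
      conv_lhs => rw [this]
      simp only [smul_eq_mul, add_smul, smul_add, mul_smul]
      abel
    have h2 := hconv.2 (mem_univ (v + x • w)) (mem_univ (v + y • w)) ha hb hab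
    show μ (v + (a • x + b • y) • w) ≤ a • μ (v + x • w) + b • μ (v + y • w)
    rw [h1]
    exact h2
  obtain ⟨b, hb⟩ := hasDerivAt_of_symm_diff (fun s : ℝ => μ (v + s • w)) hφ (by
    simpa [sub_eq_add_neg] using hT)
  have ha : HasDerivAt (fun s : ℝ => μ (v + s • v)) (μ v) 0 := by
    have h1 : HasDerivAt (fun s : ℝ => (1 + s) * μ v) (μ v) 0 := by
      simpa using ((hasDerivAt_id (0:ℝ)).const_add 1).mul_const (μ v)
    refine h1.congr_of_eventuallyEq ?_
    have h2 : ∀ᶠ s : ℝ in 𝓝 0, -1 < s := eventually_gt_nhds (by norm_num)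
    filter_upwards [h2] with s hs
    have h3 : v + s • v = (1 + s) • v := by rw [add_smul, one_smul]
    rw [h3, hμ.homogeneous, abs_of_pos (by linarith)]
  exact hasFDerivAt_of_two_dirs μ hconv v v w hv hw (μ v) b ha hb

end Claimed.Agent.R125
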