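/-
ROW 125 CONDITIONAL CHAIN, leaf C5 (group Convex).  Blueprint: Claimed/Agent/R125/Main.lean.  Definitions: Defs.lean.
Rules for the solver: keep the statements; helper names start with `C5_`; you may use every theorem of the imported
files (some still have sorry); edit only this file.

GROUP SKETCH.
Row 125 chain, file Convex: planar convex analysis.  `μ : Plane → ℝ` satisfies `TimeConstantNorm μ` (a norm on the plane).
No probability here.   (blueprint: Main.lean)
-/
import Claimed.Agent.R125.C1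

set_option autoImplicit false

open MeasureTheory ProbabilityTheory Filter Set
open scoped Topology
open Claims.C0214 Claims.C0214.PlanarFPP Claims.C0214.GammaFPP

namespace Claimed.Agent.R125

variable {Ω : Type} [MeasurableSpace Ω] {P : Measure Ω} {τ : Edge → Ω → ℝ} {ν : Measure ℝ}
variable {w : Edge → ℝ} {μ : Plane → ℝ}

/-! ### leaf C5: gradient inequality, Euler, uniqueness of subgradients at a differentiability point -/

theorem tcn_subgradient (hμ : TimeConstantNorm μ) {v : Plane} {ℓ : Plane →L[ℝ] ℝ}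
    (h : HasFDerivAt μ ℓ v) (u : Plane) : ℓ (u - v) ≤ μ u - μ v := by
  have hc : ConvexOn ℝ univ μ := tcn_convexOn hμ
  -- the restriction to the line through `v` and `u`
  set γ : ℝ → Plane := fun t => v + t • (u - v) with hγ
  have hγd : HasDerivAt γ (u - v) 0 := by
    have h1 : HasDerivAt (fun t : ℝ => t • (u - v)) ((1 : ℝ) • (u - v)) 0 :=
      (hasDerivAt_id (0 : ℝ)).smul_const (u - v)
    simpa [hγ] using h1.const_add v
  have hγ0 : γ 0 = v := by simp [hγ]
  have hγ1 : γ 1 = u := by simp [hγ]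
  have hd : HasDerivAt (μ ∘ γ) (ℓ (u - v)) 0 := by
    have h' : HasFDerivAt μ ℓ (γ 0) := by rw [hγ0]; exact h
    exact h'.comp_hasDerivAt (0 : ℝ) hγd
  have hcg : ConvexOn ℝ univ (μ ∘ γ) := by
    refine ⟨convex_univ, ?_⟩
    intro x _ y _ a b ha hb hab
    have key : γ (a • x + b • y) = a • γ x + b • γ y := by
      simp only [hγ, smul_eq_mul, smul_add, add_smul, mul_smul]
      have : v = a • v + b • v := by rw [← add_smul, hab, one_smul]
      nth_rewrite 1 [this]
      abel
    simp only [Function.comp]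
    rw [key]
    exact hc.2 (mem_univ _) (mem_univ _) ha hb hab
  have hs := hcg.le_slope_of_hasDerivAt (mem_univ (0 : ℝ)) (mem_univ (1 : ℝ)) zero_lt_one hd
  have hsl : slope (μ ∘ γ) 0 1 = μ u - μ v := by
    simp [slope, Function.comp, hγ0, hγ1]
  rwa [hsl] at hs

theorem tcn_euler (hμ : TimeConstantNorm μ) {v : Plane} {ℓ : Plane →L[ℝ] ℝ}
    (h : HasFDerivAt μ ℓ v) : ℓ v = μ v := by
  have h0 : μ 0 = 0 := (hμ.zero_iff 0).2 rfl
  have h1 := tcn_subgradient hμ h ((2 : ℝ) • v)
  have h2 := tcn_subgradient hμ h 0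
  have e1 : (2 : ℝ) • v - v = v := by rw [two_smul]; abel
  rw [e1, hμ.homogeneous] at h1
  rw [zero_sub, map_neg, h0] at h2
  have : |(2 : ℝ)| = 2 := abs_of_pos two_pos
  rw [this] at h1
  linarith

theorem tcn_le (hμ : TimeConstantNorm μ) {v : Plane} {ℓ : Plane →L[ℝ] ℝ}
    (h : HasFDerivAt μ ℓ v) (u : Plane) : ℓ u ≤ μ u := by
  have h1 := tcn_subgradient hμ h u
  have h2 := tcn_euler hμ h
  rw [map_sub] at h1
  linarith

theorem subgradient_unique {f : Plane → ℝ} {v : Plane} {ℓ ℓ' : Plane →L[ℝ] ℝ}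
    (h : HasFDerivAt f ℓ v) (h' : ∀ u, ℓ' (u - v) ≤ f u - f v) : ℓ' = ℓ := by
  have hF : HasFDerivAt (fun u => f u - ℓ' (u - v)) (ℓ - ℓ') v := by
    have h2 : HasFDerivAt (fun u : Plane => ℓ' (u - v)) ℓ' v := by
      have := ℓ'.hasFDerivAt.comp v ((hasFDerivAt_id v).sub_const v)
      simpa [Function.comp_def] using this
    exact h.sub h2
  have hmin : IsLocalMin (fun u => f u - ℓ' (u - v)) v := by
    refine Filter.Eventually.of_forall fun u => ?_
    have := h' u
    simp only [sub_self, map_zero, sub_zero]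
    linarith
  have hz := hmin.hasFDerivAt_eq_zero hF
  exact (sub_eq_zero.1 hz).symm

end Claimed.Agent.R125
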