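/-
ROW 125 CONDITIONAL CHAIN, leaf C6 (group Convex).  Blueprint: Claimed/Agent/R125/Main.lean.  Definitions: Defs.lean.
Rules for the solver: keep the statements; helper names start with `C6_`; you may use every theorem of the imported
files (some still have sorry); edit only this file.

GROUP SKETCH.
Row 125 chain, file Convex: planar convex analysis.  `μ : Plane → ℝ` satisfies `TimeConstantNorm μ` (a norm on the plane).
No probability here.   (blueprint: Main.lean)
-/
import Claimed.Agent.R125.C5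

set_option autoImplicit false

open MeasureTheory ProbabilityTheory Filter Set
open scoped Topology
open Claims.C0214 Claims.C0214.PlanarFPP Claims.C0214.GammaFPP

namespace Claimed.Agent.R125

variable {Ω : Type} [MeasurableSpace Ω] {P : Measure Ω} {τ : Edge → Ω → ℝ} {ν : Measure ℝ}
variable {w : Edge → ℝ} {μ : Plane → ℝ}

/-! ### leaf C6: a differentiable convex function is C¹.  `v_n → v ≠ 0`, `ℓ_n = fderiv μ v_n`: bounded by the Lipschitz constant;
every cluster point `ℓ'` satisfies `ℓ' (u - v) ≤ μ u - μ v` (pass to the limit in `tcn_subgradient`), so `ℓ' = fderiv μ v`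
(`subgradient_unique`); finite dimension => `ℓ_n → fderiv μ v`.  Then `contDiffOn_one_iff_fderiv_of_isOpen` or similar. -/

theorem tcn_continuousOn_fderiv (hμ : TimeConstantNorm μ) (hd : DifferentiableAwayFromOrigin μ) :
    ContinuousOn (fderiv ℝ μ) {0}ᶜ := by
  obtain ⟨C, hC⟩ := tcn_lipschitz hμ
  have hcμ := tcn_continuous hμ
  intro v hv
  have hv0 : v ≠ 0 := hv
  apply ContinuousAt.continuousWithinAt
  have hD : ∀ x : Plane, x ≠ 0 → HasFDerivAt μ (fderiv ℝ μ x) x := fun x hx => by
    obtain ⟨ℓ, hℓ⟩ := hd x hx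
    exact hℓ.differentiableAt.hasFDerivAt
  refine (isCompact_closedBall (0 : Plane →L[ℝ] ℝ) (C : ℝ)).tendsto_nhds_of_unique_mapClusterPt ?_ ?_
  · filter_upwards with x
    simpa using norm_fderiv_le_of_lipschitz ℝ hC
  · intro ℓ' _ hcl
    apply subgradient_unique (hD v hv0)
    intro u
    by_contra hlt
    push Not at hlt
    let Φ : (Plane →L[ℝ] ℝ) × Plane → ℝ := fun p => p.1 (u - p.2) - (μ u - μ p.2)
    have hΦ : Continuous Φ := by
      have h1 : Continuous (fun p : (Plane →L[ℝ] ℝ) × Plane => p.1 (u - p.2)) :=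
        continuous_fst.clm_apply (continuous_const.sub continuous_snd)
      exact h1.sub (continuous_const.sub (hcμ.comp continuous_snd))
    have hpos : 0 < Φ (ℓ', v) := by
      simp only [Φ]; linarith
    have hopen : {p | 0 < Φ p} ∈ 𝓝 (ℓ', v) := (isOpen_lt continuous_const hΦ).mem_nhds hpos
    rw [nhds_prod_eq, Filter.mem_prod_iff] at hopen
    obtain ⟨W, hW, N, hN, hWN⟩ := hopen
    have hfr := hcl.frequently hW
    have hev : ∀ᶠ x in 𝓝 v, x ∈ N ∧ x ≠ 0 :=
      (Filter.eventually_of_mem hN (fun x hx => hx)).and (eventually_ne_nhds hv0)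
    obtain ⟨x, hxW, hxN, hx0⟩ := (hfr.and_eventually hev).exists
    have h1 : 0 < Φ (fderiv ℝ μ x, x) := hWN ⟨hxW, hxN⟩
    have h2 := tcn_subgradient hμ (hD x hx0) u
    simp only [Φ] at h1
    linarith

theorem tcn_contDiffOn (hμ : TimeConstantNorm μ) (hd : DifferentiableAwayFromOrigin μ) :
    ContDiffOn ℝ 1 μ {0}ᶜ := by
  have hopen : IsOpen ({0}ᶜ : Set Plane) := isOpen_compl_singleton
  have h01 : ((0 : WithTop ℕ∞) + 1) = 1 := zero_add 1
  rw [← h01, contDiffOn_succ_iff_fderiv_of_isOpen hopen]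
  refine ⟨?_, ?_, ?_⟩
  · intro x hx
    obtain ⟨ℓ, hℓ⟩ := hd x hx
    exact hℓ.differentiableAt.differentiableWithinAt
  · intro h
    exact absurd h (by simp)
  · exact contDiffOn_zero.mpr (tcn_continuousOn_fderiv hμ hd)

end Claimed.Agent.R125
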