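/-
ROW 125 CONDITIONAL CHAIN, leaf C7 (group Convex).  Blueprint: Claimed/Agent/R125/Main.lean.  Definitions: Defs.lean.
Rules for the solver: keep the statements; helper names start with `C7_`; you may use every theorem of the imported
files (some still have sorry); edit only this file.

GROUP SKETCH.
Row 125 chain, file Convex: planar convex analysis.  `μ : Plane → ℝ` satisfies `TimeConstantNorm μ` (a norm on the plane).
No probability here.   (blueprint: Main.lean)
-/
import Claimed.Agent.R125.C1

set_option autoImplicit false

open MeasureTheory ProbabilityTheory Filter Set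
open scoped Topology
open Claims.C0214 Claims.C0214.PlanarFPP Claims.C0214.GammaFPP

namespace Claimed.Agent.R125

variable {Ω : Type} [MeasurableSpace Ω] {P : Measure Ω} {τ : Edge → Ω → ℝ} {ν : Measure ℝ}
variable {w : Edge → ℝ} {μ : Plane → ℝ}

/-! ### leaf C7: the boundary of the unit ball is the unit sphere -/

theorem tcn_frontier (hμ : TimeConstantNorm μ) : frontier {z : Plane | μ z ≤ 1} = {z | μ z = 1} := by
  have hc := tcn_continuous hμ
  apply Set.Subset.antisymm
  · exact frontier_le_subset_eq hc continuous_const
  · intro z hz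
    have hz1 : μ z = 1 := hz
    rw [frontier, Set.mem_sdiff]
    refine ⟨subset_closure (by simp [hz1]), ?_⟩
    intro hint
    rw [mem_interior_iff_mem_nhds] at hint
    have hcont : Tendsto (fun t : ℝ => t • z) (𝓝 1) (𝓝 z) := by
      have h1 : Continuous (fun t : ℝ => t • z) := continuous_id.smul continuous_const
      simpa using h1.tendsto 1
    have hev2 : ∀ᶠ t : ℝ in 𝓝[>] 1, μ (t • z) ≤ 1 :=
      (hcont.eventually hint).filter_mono nhdsWithin_le_nhds
    have hev3 : ∀ᶠ t : ℝ in 𝓝[>] 1, 1 < t := eventually_mem_nhdsWithin
    obtain ⟨t, ht1, ht2⟩ := (hev2.and hev3).exists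
    rw [hμ.homogeneous, hz1, abs_of_pos (by linarith)] at ht1
    linarith

end Claimed.Agent.R125
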