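/-
ROW 125 CONDITIONAL CHAIN, leaf C8 (group Convex).  Blueprint: Claimed/Agent/R125/Main.lean.  Definitions: Defs.lean.
Rules for the solver: keep the statements; helper names start with `C8_`; you may use every theorem of the imported
files (some still have sorry); edit only this file.

GROUP SKETCH.
Row 125 chain, file Convex: planar convex analysis.  `μ : Plane → ℝ` satisfies `TimeConstantNorm μ` (a norm on the plane).
No probability here.   (blueprint: Main.lean)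
-/
import Claimed.Agent.R125.C6

set_option autoImplicit false

open MeasureTheory ProbabilityTheory Filter Set
open scoped Topology
open Claims.C0214 Claims.C0214.PlanarFPP Claims.C0214.GammaFPP

namespace Claimed.Agent.R125

variable {Ω : Type} [MeasurableSpace Ω] {P : Measure Ω} {τ : Edge → Ω → ℝ} {ν : Measure ℝ}
variable {w : Edge → ℝ} {μ : Plane → ℝ}

/-! ### leaf C8: the chart.  `e = v`, `e' = !₂[- v 1, v 0]`, `d t = e + t • e'` (never `0`), `γ t = (μ (d t))⁻¹ • d t`,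
`U = {z | 0 < ⟪z, e⟫}`, `θ z = ⟪z, e'⟫ / ⟪z, e⟫`.   `γ` is C¹ on all of `ℝ` (C6, `μ (d t) > 0`);
`γ' t = α e' + β d t` with `α = (μ (d t))⁻¹ ≠ 0` and `e', d t` linearly independent, so `γ' t ≠ 0`.
For `z ∈ U` with `μ z = 1`:  `z = c • d (θ z)` with `c = ⟪z,e⟫/‖e‖² > 0`, so `γ (θ z) = z` by homogeneity. -/

/-- the line `t ↦ v + t • v^⊥` -/
noncomputable def C8_d (v : Plane) (t : ℝ) : Plane := v + t • (!₂[- v 1, v 0] : Plane)

theorem C8_d_zero (v : Plane) (t : ℝ) : C8_d v t 0 = v 0 - t * v 1 := by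
  simp [C8_d]; ring

theorem C8_d_one (v : Plane) (t : ℝ) : C8_d v t 1 = v 1 + t * v 0 := by
  simp [C8_d]

theorem C8_sq_pos {v : Plane} (hv : v ≠ 0) : 0 < v 0 * v 0 + v 1 * v 1 := by
  by_contra h
  apply hv
  have h0 : v 0 = 0 := by nlinarith [mul_self_nonneg (v 0), mul_self_nonneg (v 1)]
  have h1 : v 1 = 0 := by nlinarith [mul_self_nonneg (v 0), mul_self_nonneg (v 1)]
  ext i
  fin_cases i
  · simpa using h0
  · simpa using h1

theorem C8_d_ne {v : Plane} (hv : v ≠ 0) (t : ℝ) : C8_d v t ≠ 0 := by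
  intro h
  have h0 : C8_d v t 0 = 0 := by rw [h]; rfl
  have h1 : C8_d v t 1 = 0 := by rw [h]; rfl
  rw [C8_d_zero] at h0
  rw [C8_d_one] at h1
  have h2 := C8_sq_pos hv
  have h3 : v 0 * v 0 + v 1 * v 1 = 0 := by linear_combination v 0 * h0 + v 1 * h1
  exact h2.ne' h3

theorem C8_d_contDiff (v : Plane) : ContDiff ℝ 1 (C8_d v) := by
  unfold C8_d
  exact contDiff_const.add (contDiff_id.smul contDiff_const)

theorem C8_d_hasDerivAt (v : Plane) (t : ℝ) :
    HasDerivAt (C8_d v) (!₂[- v 1, v 0] : Plane) t := by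
  unfold C8_d
  have h1 : HasDerivAt (fun t : ℝ => t • (!₂[- v 1, v 0] : Plane))
      ((1 : ℝ) • (!₂[- v 1, v 0] : Plane)) t := (hasDerivAt_id t).smul_const _
  simpa using h1.const_add v

theorem C8_alg (A B N a b : ℝ) (hA : A ≠ 0) (hN : N ≠ 0) :
    A / N * (a - B / A * b) = (A * a - B * b) / N := by
  field_simp

theorem C8_alg' (A B N a b : ℝ) (hA : A ≠ 0) (hN : N ≠ 0) :
    A / N * (a + B / A * b) = (A * a + B * b) / N := by
  field_simp

theorem tcn_chart (hμ : TimeConstantNorm μ) (hd : DifferentiableAwayFromOrigin μ) (v : Plane)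
    (hv : μ v = 1) : HasC1CurveChart {z : Plane | μ z = 1} v := by
  have hv0 : v ≠ 0 := by
    intro h
    rw [h, (hμ.zero_iff 0).mpr rfl] at hv
    exact zero_ne_one hv
  have hN := C8_sq_pos hv0
  have hdpos : ∀ t, 0 < μ (C8_d v t) := fun t => tcn_pos hμ (C8_d_ne hv0 t)
  have hμd : ContDiff ℝ 1 (fun t => μ (C8_d v t)) := by
    have h1 := (tcn_contDiffOn hμ hd).comp_contDiff (C8_d_contDiff v)
      (fun t => C8_d_ne hv0 t)
    exact h1
  have hinv : ContDiff ℝ 1 (fun t => (μ (C8_d v t))⁻¹) := hμd.inv (fun t => (hdpos t).ne')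
  refine ⟨{z : Plane | 0 < z 0 * v 0 + z 1 * v 1}, ?_, hN, hv,
    fun t => (μ (C8_d v t))⁻¹ • C8_d v t,
    fun z => (z 1 * v 0 - z 0 * v 1) / (z 0 * v 0 + z 1 * v 1), ?_, ?_, ?_, ?_, ?_, ?_⟩
  · apply isOpen_lt continuous_const
    fun_prop
  · exact hinv.smul (C8_d_contDiff v)
  · apply ContinuousOn.div
    · fun_prop
    · fun_prop
    · intro z hz
      exact (ne_of_gt hz)
  · intro t
    constructor
    · show μ _ = 1
      rw [hμ.homogeneous, abs_of_pos (inv_pos.mpr (hdpos t))]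
      exact inv_mul_cancel₀ (hdpos t).ne'
    · show 0 < ((μ (C8_d v t))⁻¹ • C8_d v t) 0 * v 0 + ((μ (C8_d v t))⁻¹ • C8_d v t) 1 * v 1
      have h0 : ((μ (C8_d v t))⁻¹ • C8_d v t) 0 = (μ (C8_d v t))⁻¹ * (v 0 - t * v 1) := by
        simp [C8_d_zero]
      have h1 : ((μ (C8_d v t))⁻¹ • C8_d v t) 1 = (μ (C8_d v t))⁻¹ * (v 1 + t * v 0) := by
        simp [C8_d_one]
      rw [h0, h1]
      have : (μ (C8_d v t))⁻¹ * (v 0 - t * v 1) * v 0 + (μ (C8_d v t))⁻¹ * (v 1 + t * v 0) * v 1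
          = (μ (C8_d v t))⁻¹ * (v 0 * v 0 + v 1 * v 1) := by ring
      rw [this]
      exact mul_pos (inv_pos.mpr (hdpos t)) hN
  · intro t
    have h0 : ((μ (C8_d v t))⁻¹ • C8_d v t) 0 = (μ (C8_d v t))⁻¹ * (v 0 - t * v 1) := by
      simp [C8_d_zero]
    have h1 : ((μ (C8_d v t))⁻¹ • C8_d v t) 1 = (μ (C8_d v t))⁻¹ * (v 1 + t * v 0) := by
      simp [C8_d_one]
    show _ / _ = t
    rw [h0, h1]
    have hi : (μ (C8_d v t))⁻¹ ≠ 0 := (inv_pos.mpr (hdpos t)).ne'
    rw [div_eq_iff]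
    · ring
    · have : (μ (C8_d v t))⁻¹ * (v 0 - t * v 1) * v 0 + (μ (C8_d v t))⁻¹ * (v 1 + t * v 0) * v 1
          = (μ (C8_d v t))⁻¹ * (v 0 * v 0 + v 1 * v 1) := by ring
      rw [this]
      exact mul_ne_zero hi hN.ne'
  · rintro z ⟨hz1, hzU⟩
    have hz1' : μ z = 1 := hz1
    have hzU' : 0 < z 0 * v 0 + z 1 * v 1 := hzU
    set θ := (z 1 * v 0 - z 0 * v 1) / (z 0 * v 0 + z 1 * v 1) with hθ
    set c := (z 0 * v 0 + z 1 * v 1) / (v 0 * v 0 + v 1 * v 1) with hc
    have hcpos : 0 < c := div_pos hzU' hN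
    have hA' : z 0 * v 0 + z 1 * v 1 ≠ 0 := hzU'.ne'
    have hN' : v 0 * v 0 + v 1 * v 1 ≠ 0 := hN.ne'
    have hzc : z = c • C8_d v θ := by
      ext i
      fin_cases i
      · show z 0 = (c • C8_d v θ) 0
        have : (c • C8_d v θ) 0 = c * (v 0 - θ * v 1) := by simp [C8_d_zero]
        rw [this, hc, hθ, C8_alg _ _ _ _ _ hA' hN', eq_div_iff hN']
        ring
      · show z 1 = (c • C8_d v θ) 1
        have : (c • C8_d v θ) 1 = c * (v 1 + θ * v 0) := by simp [C8_d_one]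
        rw [this, hc, hθ, C8_alg' _ _ _ _ _ hA' hN', eq_div_iff hN']
        ring
    have hμc : c * μ (C8_d v θ) = 1 := by
      have := hz1'
      rw [hzc, hμ.homogeneous, abs_of_pos hcpos] at this
      exact this
    have : (μ (C8_d v θ))⁻¹ = c := by
      rw [inv_eq_iff_eq_inv]
      exact (eq_inv_of_mul_eq_one_right hμc)
    show (μ (C8_d v θ))⁻¹ • C8_d v θ = z
    rw [this, ← hzc]
  · intro t
    have hdi : DifferentiableAt ℝ (fun t => (μ (C8_d v t))⁻¹) t :=
      (hinv.differentiable (by norm_num)).differentiableAt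
    have hder := hdi.hasDerivAt.smul (C8_d_hasDerivAt v t)
    refine ⟨_, hder, ?_⟩
    intro hzero
    set β := deriv (fun t => (μ (C8_d v t))⁻¹) t with hβ
    set α := (μ (C8_d v t))⁻¹ with hα
    have hαpos : 0 < α := inv_pos.mpr (hdpos t)
    have e0 : (α • (!₂[- v 1, v 0] : Plane) + β • C8_d v t) 0 = 0 := by rw [hzero]; rfl
    have e1 : (α • (!₂[- v 1, v 0] : Plane) + β • C8_d v t) 1 = 0 := by rw [hzero]; rfl
    have e0' : α * (- v 1) + β * (v 0 - t * v 1) = 0 := by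
      have : (α • (!₂[- v 1, v 0] : Plane) + β • C8_d v t) 0 = α * (- v 1) + β * (v 0 - t * v 1) := by
        simp [C8_d_zero]
      rw [← this]; exact e0
    have e1' : α * (v 0) + β * (v 1 + t * v 0) = 0 := by
      have : (α • (!₂[- v 1, v 0] : Plane) + β • C8_d v t) 1 = α * (v 0) + β * (v 1 + t * v 0) := by
        simp [C8_d_one]
      rw [← this]; exact e1
    have key : α * (v 0 * v 0 + v 1 * v 1) = 0 := by
      have : α * (v 0 * v 0 + v 1 * v 1)
          = (α * (v 0) + β * (v 1 + t * v 0)) * (v 0 - t * v 1)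
            - (α * (- v 1) + β * (v 0 - t * v 1)) * (v 1 + t * v 0) := by ring
      rw [this, e0', e1']; ring
    exact (mul_pos hαpos hN).ne' key

end Claimed.Agent.R125
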