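/-
ROW 125 CONDITIONAL CHAIN, leaf L1 (group Law).  Blueprint: Claimed/Agent/R125/Main.lean.  Definitions: Defs.lean.
Rules for the solver: keep the statements; helper names start with `L1_`; you may use every theorem of the imported
files (some still have sorry); edit only this file.

GROUP SKETCH.
Row 125 chain, file Law: measurability, invariance of the law of an i.i.d. field under re-indexing,
tail bounds for sums of weights, Gamma laws are nice.   (blueprint: Main.lean)
-/
import Claimed.Agent.R125.Path

set_option autoImplicit false

open MeasureTheory ProbabilityTheory Filter Set
open scoped Topology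
open Claims.C0214 Claims.C0214.PlanarFPP Claims.C0214.GammaFPP

namespace Claimed.Agent.R125

variable {Ω : Type} [MeasurableSpace Ω] {P : Measure Ω} {τ : Edge → Ω → ℝ} {ν : Measure ℝ}
variable {w : Edge → ℝ} {μ : Plane → ℝ}

/-! ### leaf L1: measurability on the configuration space `Edge → ℝ` (product sigma-algebra).
`T w p q` is the infimum of the countable family `pathCost w p ds`, `ds` in the subtype of paths from `p` to `q`
(`sInf` of a range = `iInf`; `Measurable.iInf` works in conditionally complete linear orders). -/

theorem measurable_pathCost (p : Vertex) (ds : List Step) :
    Measurable (fun w : Edge → ℝ => pathCost w p ds) := by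
  induction ds generalizing p with
  | nil => simp only [pathCost]; exact measurable_const
  | cons d ds ih =>
    simp only [pathCost]
    exact (measurable_pi_apply _).add (ih _)

instance L1_countable_step : Countable Step := Finite.to_countable

theorem measurable_T (p q : Vertex) : Measurable (fun w : Edge → ℝ => T w p q) := by
  have h : (fun w : Edge → ℝ => T w p q)
      = fun w => ⨅ ds : {ds : List Step // p + displacement ds = q}, pathCost w p ds.1 := by
    funext w
    show sInf _ = sInf _
    congr 1
    ext t
    simp only [Set.mem_ofPred_eq, Set.mem_range, Subtype.exists, exists_prop]
  rw [h]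
  exact Measurable.iInf fun ds => measurable_pathCost p ds.1

theorem measurable_TR (R : ℕ) (p q : Vertex) : Measurable (fun w : Edge → ℝ => TR w R p q) := by
  have h : (fun w : Edge → ℝ => TR w R p q)
      = fun w => ⨅ ds : {ds : List Step // ds.length ≤ R ∧ p + displacement ds = q}, pathCost w p ds.1 := by
    funext w
    show sInf _ = sInf _
    congr 1
    ext t
    simp only [Set.mem_ofPred_eq, Set.mem_range, Subtype.exists, exists_prop, and_assoc]
  rw [h]
  exact Measurable.iInf fun ds => measurable_pathCost p ds.1

theorem measurable_shiftW (z : Vertex) : Measurable (shiftW z) := by
  unfold shiftW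
  exact measurable_pi_lambda _ fun e => measurable_pi_apply _


theorem measurable_env (h : IidEnvironment ν P τ) : Measurable (env τ) := by
  unfold env
  exact measurable_pi_lambda _ fun e => h.measurable e

end Claimed.Agent.R125
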