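/-
ROW 125 CONDITIONAL CHAIN, leaf L2 (group Law).  Blueprint: Claimed/Agent/R125/Main.lean.  Definitions: Defs.lean.
Rules for the solver: keep the statements; helper names start with `L2_`; you may use every theorem of the imported
files (some still have sorry); edit only this file.

GROUP SKETCH.
Row 125 chain, file Law: measurability, invariance of the law of an i.i.d. field under re-indexing,
tail bounds for sums of weights, Gamma laws are nice.   (blueprint: Main.lean)
-/
import Claimed.Agent.R125.L1

set_option autoImplicit false

open MeasureTheory ProbabilityTheory Filter Set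
open scoped Topology
open Claims.C0214 Claims.C0214.PlanarFPP Claims.C0214.GammaFPP

namespace Claimed.Agent.R125

variable {Ω : Type} [MeasurableSpace Ω] {P : Measure Ω} {τ : Edge → Ω → ℝ} {ν : Measure ℝ}
variable {w : Edge → ℝ} {μ : Plane → ℝ}

/-! ### leaf L2: re-indexing.  Both fields are independent with marginals `ν`
(`iIndepFun.precomp`), so both have law `Measure.infinitePi (fun _ => ν)`
(`iIndepFun_iff_map_fun_eq_infinitePi_map`). -/

theorem identDistrib_reindex (h : IidEnvironment ν P τ) (σ : Edge → Edge)
    (hσ : Function.Injective σ) :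
    IdentDistrib (fun ω => fun e => τ (σ e) ω) (env τ) P P := by
  have := h.probability
  have hm1 : Measurable (fun ω => fun e => τ (σ e) ω) :=
    measurable_pi_iff.2 (fun e => h.measurable (σ e))
  have hm2 : Measurable (env τ) := measurable_pi_iff.2 (fun e => h.measurable e)
  refine ⟨hm1.aemeasurable, hm2.aemeasurable, ?_⟩
  have h1 : P.map (fun ω => fun e => τ (σ e) ω)
      = Measure.infinitePi (fun e => P.map (τ (σ e))) :=
    (h.independent.precomp hσ).map_fun_eq_infinitePi_map (fun e => h.measurable (σ e))
  have h2 : P.map (fun ω => fun e => τ e ω)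
      = Measure.infinitePi (fun e => P.map (τ e)) :=
    h.independent.map_fun_eq_infinitePi_map h.measurable
  have h3 : (env τ) = (fun ω => fun e => τ e ω) := rfl
  rw [h3, h1, h2]
  congr 1
  funext e
  rw [h.marginal, h.marginal]

theorem identDistrib_shift (h : IidEnvironment ν P τ) (z : Vertex) :
    IdentDistrib (fun ω => shiftW z (env τ ω)) (env τ) P P := by
  have hσ : Function.Injective (fun e : Edge => ((e.1 + z, e.2) : Edge)) := by
    intro a b hab
    have hab' : ((a.1 + z, a.2) : Edge) = (b.1 + z, b.2) := hab
    have h1 : a.1 + z = b.1 + z := (Prod.mk.inj hab').1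
    have h2 : a.2 = b.2 := (Prod.mk.inj hab').2
    exact Prod.ext (add_right_cancel h1) h2
  exact identDistrib_reindex h _ hσ

theorem integral_shift (h : IidEnvironment ν P τ) (z : Vertex) (F : (Edge → ℝ) → ℝ)
    (hF : Measurable F) :
    ∫ ω, F (shiftW z (env τ ω)) ∂P = ∫ ω, F (env τ ω) ∂P := by
  exact ((identDistrib_shift h z).comp hF).integral_eq

theorem measure_shift (h : IidEnvironment ν P τ) (z : Vertex) (A : Set (Edge → ℝ))
    (hA : MeasurableSet A) :
    P {ω | shiftW z (env τ ω) ∈ A} = P {ω | env τ ω ∈ A} := by
  exact (identDistrib_shift h z).measure_mem_eq hA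

end Claimed.Agent.R125
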