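/-
ROW 125 CONDITIONAL CHAIN, leaf L3 (group Law).  Blueprint: Claimed/Agent/R125/Main.lean.  Definitions: Defs.lean.
Rules for the solver: keep the statements; helper names start with `L3_`; you may use every theorem of the imported
files (some still have sorry); edit only this file.

GROUP SKETCH.
Row 125 chain, file Law: measurability, invariance of the law of an i.i.d. field under re-indexing,
tail bounds for sums of weights, Gamma laws are nice.   (blueprint: Main.lean)
-/
import Claimed.Agent.R125.L1

set_option autoImplicit false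

open MeasureTheory ProbabilityTheory Filter Set
open scoped Topology
open Claims.C0214 Claims.C0214.PlanarFPP Claims.C0214.GammaFPP

namespace Claimed.Agent.R125

variable {Ω : Type} [MeasurableSpace Ω] {P : Measure Ω} {τ : Edge → Ω → ℝ} {ν : Measure ℝ}
variable {w : Edge → ℝ} {μ : Plane → ℝ}

/-! ### leaf L3: almost sure positivity, first moment -/

theorem ae_pos (h : IidEnvironment ν P τ) (hν : NiceLaw ν) : ∀ᵐ ω ∂P, ∀ e, 0 < τ e ω := by
  rw [ae_all_iff]
  intro e
  rw [ae_iff]
  have h1 := hν.pos
  rw [← h.marginal e, Measure.map_apply (h.measurable e) measurableSet_Iic] at h1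
  have h2 : {a | ¬ 0 < τ e a} = τ e ⁻¹' Set.Iic 0 := by
    ext a
    simp
  rw [h2]
  exact h1

theorem ae_NN (h : IidEnvironment ν P τ) (hν : NiceLaw ν) : ∀ᵐ ω ∂P, NN (env τ ω) := by
  filter_upwards [ae_pos h hν] with ω hω e
  exact (hω e).le

theorem L3_ae_pos (hν : NiceLaw ν) : ∀ᵐ x ∂ν, (0 : ℝ) < x := by
  rw [ae_iff]
  have h2 : {a : ℝ | ¬ 0 < a} = Set.Iic 0 := by
    ext a
    simp
  rw [h2]
  exact hν.pos

/-- `0 < x ≤ exp (c x) / c` for `ν`-almost every `x` -/
theorem integrable_id_of_nice (hν : NiceLaw ν) : Integrable (fun x : ℝ => x) ν := by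
  obtain ⟨c, hc, hint⟩ := hν.expMom
  refine Integrable.mono' (hint.div_const c) measurable_id.aestronglyMeasurable ?_
  filter_upwards [L3_ae_pos hν] with x hx
  rw [Real.norm_of_nonneg hx.le, le_div_iff₀ hc]
  have := Real.add_one_le_exp (c * x)
  linarith

theorem m1_nonneg (hν : NiceLaw ν) : 0 ≤ m1 ν := by
  refine integral_nonneg_of_ae ?_
  filter_upwards [L3_ae_pos hν] with x hx
  exact hx.le

theorem integrable_tau (h : IidEnvironment ν P τ) (hν : NiceLaw ν) (e : Edge) :
    Integrable (τ e) P := by
  have h1 := integrable_id_of_nice hν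
  rw [← h.marginal e] at h1
  exact (integrable_map_measure measurable_id.aestronglyMeasurable
    (h.measurable e).aemeasurable).1 h1

theorem integral_tau (h : IidEnvironment ν P τ) (hν : NiceLaw ν) (e : Edge) :
    ∫ ω, τ e ω ∂P = m1 ν := by
  have h1 : m1 ν = ∫ x, x ∂(Measure.map (τ e) P) := by
    rw [h.marginal e]
    rfl
  rw [h1]
  exact (integral_map (f := fun x : ℝ => x) (h.measurable e).aemeasurable
    measurable_id.aestronglyMeasurable).symm

end Claimed.Agent.R125
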