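/-
ROW 125 CONDITIONAL CHAIN, leaf L4 (group Law).  Blueprint: Claimed/Agent/R125/Main.lean.  Definitions: Defs.lean.
Rules for the solver: keep the statements; helper names start with `L4_`; you may use every theorem of the imported
files (some still have sorry); edit only this file.

GROUP SKETCH.
Row 125 chain, file Law: measurability, invariance of the law of an i.i.d. field under re-indexing,
tail bounds for sums of weights, Gamma laws are nice.   (blueprint: Main.lean)
-/
import Claimed.Agent.R125.L3

set_option autoImplicit false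

open MeasureTheory ProbabilityTheory Filter Set
open scoped Topology
open Claims.C0214 Claims.C0214.PlanarFPP Claims.C0214.GammaFPP

namespace Claimed.Agent.R125

variable {Ω : Type} [MeasurableSpace Ω] {P : Measure Ω} {τ : Edge → Ω → ℝ} {ν : Measure ℝ}
variable {w : Edge → ℝ} {μ : Plane → ℝ}

/-! ### leaf L4: Chernoff, upper tail.  `c, M = ∫ exp (c x) dν` from `hν.expMom`;
`P(∑_S τ ≥ K n) ≤ exp(-c K n) M^{|S|}` (`measure_ge_le_exp_mul_mgf`, `iIndepFun.mgf_sum`);
take `K = (1 + log (max M 1)) / c`. -/

theorem L4_integrable_exp (h : IidEnvironment ν P τ) {c : ℝ}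
    (hc : Integrable (fun x : ℝ => Real.exp (c * x)) ν) (e : Edge) :
    Integrable (fun ω => Real.exp (c * τ e ω)) P := by
  have hm : AEStronglyMeasurable (fun x : ℝ => Real.exp (c * x)) (Measure.map (τ e) P) :=
    (by fun_prop : Measurable (fun x : ℝ => Real.exp (c * x))).aestronglyMeasurable
  have := (integrable_map_measure hm (h.measurable e).aemeasurable).1 (by rw [h.marginal e]; exact hc)
  exact this

theorem L4_mgf (h : IidEnvironment ν P τ) (c : ℝ) (e : Edge) :
    mgf (τ e) P c = ∫ x, Real.exp (c * x) ∂ν := by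
  have hm : AEStronglyMeasurable (fun x : ℝ => Real.exp (c * x)) (Measure.map (τ e) P) :=
    (by fun_prop : Measurable (fun x : ℝ => Real.exp (c * x))).aestronglyMeasurable
  have := integral_map (h.measurable e).aemeasurable hm
  rw [h.marginal e] at this
  rw [this]
  rfl

theorem upper_tail (h : IidEnvironment ν P τ) (hν : NiceLaw ν) :
    ∃ K : ℝ, 0 < K ∧ ∀ (S : Finset Edge) (n : ℕ), S.card ≤ n →
      P.real {ω | K * n ≤ ∑ e ∈ S, τ e ω} ≤ Real.exp (-(n : ℝ)) := by
  obtain ⟨c, hc0, hc⟩ := hν.expMom
  have := h.probability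
  set M : ℝ := ∫ x, Real.exp (c * x) ∂ν with hM
  set M' : ℝ := max M 1 with hM'
  have hM'1 : 1 ≤ M' := le_max_right _ _
  have hM'0 : 0 < M' := lt_of_lt_of_le one_pos hM'1
  have hM0 : 0 ≤ M := integral_nonneg fun x => (Real.exp_pos _).le
  have hlog : 0 ≤ Real.log M' := Real.log_nonneg hM'1
  refine ⟨(1 + Real.log M') / c, by positivity, fun S n hS => ?_⟩
  have hint : Integrable (fun ω => Real.exp (c * (∑ e ∈ S, τ e) ω)) P :=
    h.independent.integrable_exp_mul_sum h.measurable (fun e _ => L4_integrable_exp h hc e)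
  have h1 := measure_ge_le_exp_mul_mgf (μ := P) (X := ∑ e ∈ S, τ e) ((1 + Real.log M') / c * n)
    hc0.le hint
  have hset : {ω | (1 + Real.log M') / c * n ≤ ∑ e ∈ S, τ e ω}
      = {ω | (1 + Real.log M') / c * n ≤ (∑ e ∈ S, τ e) ω} := by
    ext ω; simp [Finset.sum_apply]
  rw [hset]
  refine h1.trans ?_
  rw [h.independent.mgf_sum h.measurable S]
  simp only [L4_mgf h c]
  rw [Finset.prod_const, ← hM]
  have h2 : M ^ S.card ≤ M' ^ n :=
    (pow_le_pow_left₀ hM0 (le_max_left _ _) _).trans (pow_le_pow_right₀ hM'1 hS)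
  have h3 : M' ^ n = Real.exp (Real.log M' * n) := by
    rw [mul_comm, Real.exp_nat_mul, Real.exp_log hM'0]
  calc Real.exp (-c * ((1 + Real.log M') / c * n)) * M ^ S.card
      ≤ Real.exp (-c * ((1 + Real.log M') / c * n)) * M' ^ n := by gcongr
    _ = Real.exp (-(n : ℝ)) := by
        rw [h3, ← Real.exp_add]
        congr 1
        field_simp
        ring

end Claimed.Agent.R125
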