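/-
ROW 125 CONDITIONAL CHAIN, leaf L5 (group Law).  Blueprint: Claimed/Agent/R125/Main.lean.  Definitions: Defs.lean.
Rules for the solver: keep the statements; helper names start with `L5_`; you may use every theorem of the imported
files (some still have sorry); edit only this file.

GROUP SKETCH.
Row 125 chain, file Law: measurability, invariance of the law of an i.i.d. field under re-indexing,
tail bounds for sums of weights, Gamma laws are nice.   (blueprint: Main.lean)
-/
import Claimed.Agent.R125.L3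

set_option autoImplicit false

open MeasureTheory ProbabilityTheory Filter Set
open scoped Topology
open Claims.C0214 Claims.C0214.PlanarFPP Claims.C0214.GammaFPP

namespace Claimed.Agent.R125

variable {Ω : Type} [MeasurableSpace Ω] {P : Measure Ω} {τ : Edge → Ω → ℝ} {ν : Measure ℝ}
variable {w : Edge → ℝ} {μ : Plane → ℝ}

/-! ### leaf L5: Chernoff, lower tail.  `c` with `∫ exp(-c x) dν < 1/16` from `hν.laplace`, `a = log 2 / c`:
`P(∑_S τ ≤ a |S|) ≤ exp(c a |S|) (1/16)^{|S|} = (1/8)^{|S|}` (`measure_le_le_exp_mul_mgf`). -/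

/-- `exp (-c x)` is `ν`-integrable for `c ≥ 0` (bounded by `1` off the null set `x ≤ 0`). -/
theorem L5_integrable_nu (hν : NiceLaw ν) {c : ℝ} (hc : 0 ≤ c) :
    Integrable (fun x : ℝ => Real.exp (-c * x)) ν := by
  have := hν.prob
  refine Integrable.mono' (integrable_const (1 : ℝ)) (by fun_prop) ?_
  have h0 : ∀ᵐ x ∂ν, x ∉ Set.Iic (0 : ℝ) := by
    rw [ae_iff]
    have : {x : ℝ | ¬ x ∉ Set.Iic (0 : ℝ)} = Set.Iic 0 := by
      ext x; simp
    rw [this]
    exact hν.pos
  filter_upwards [h0] with x hx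
  have hx' : 0 < x := by simpa using hx
  rw [Real.norm_eq_abs, abs_of_pos (Real.exp_pos _)]
  apply Real.exp_le_one_iff.mpr
  nlinarith

theorem L5_integrable_tau (h : IidEnvironment ν P τ) (hν : NiceLaw ν) {c : ℝ} (hc : 0 ≤ c)
    (e : Edge) : Integrable (fun ω => Real.exp (-c * τ e ω)) P := by
  have h1 := L5_integrable_nu hν hc
  rw [← h.marginal e] at h1
  exact (integrable_map_measure (by fun_prop) (h.measurable e).aemeasurable).mp h1

theorem L5_mgf (h : IidEnvironment ν P τ) (c : ℝ) (e : Edge) :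
    mgf (τ e) P (-c) = ∫ x, Real.exp (-(c * x)) ∂ν := by
  rw [mgf, ← h.marginal e, integral_map (h.measurable e).aemeasurable (by fun_prop)]
  simp

theorem lower_tail (h : IidEnvironment ν P τ) (hν : NiceLaw ν) :
    ∃ a : ℝ, 0 < a ∧ ∀ S : Finset Edge,
      P.real {ω | ∑ e ∈ S, τ e ω ≤ a * S.card} ≤ (1 / 8 : ℝ) ^ S.card := by
  have := h.probability
  obtain ⟨c, hc, hlap⟩ := hν.laplace (1 / 16) (by norm_num)
  refine ⟨Real.log 2 / c, div_pos (Real.log_pos (by norm_num)) hc, fun S => ?_⟩
  have hint : Integrable (fun ω => Real.exp (-c * (∑ e ∈ S, τ e) ω)) P :=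
    h.independent.integrable_exp_mul_sum h.measurable
      (fun e _ => L5_integrable_tau h hν hc.le e)
  have hch := measure_le_le_exp_mul_mgf (μ := P) (X := ∑ e ∈ S, τ e) (t := -c)
    (Real.log 2 / c * S.card) (by linarith) hint
  have hset : {ω | ∑ e ∈ S, τ e ω ≤ Real.log 2 / c * S.card}
      = {ω | (∑ e ∈ S, τ e) ω ≤ Real.log 2 / c * S.card} := by
    ext ω; simp [Finset.sum_apply]
  rw [hset]
  refine hch.trans ?_
  rw [h.independent.mgf_sum h.measurable S]
  have hexp : Real.exp (- -c * (Real.log 2 / c * S.card)) = (2 : ℝ) ^ S.card := by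
    have : - -c * (Real.log 2 / c * S.card) = (S.card : ℝ) * Real.log 2 := by
      field_simp
    rw [this, Real.exp_nat_mul, Real.exp_log (by norm_num)]
  rw [hexp]
  have hprod : ∏ e ∈ S, mgf (τ e) P (-c) ≤ (1 / 16 : ℝ) ^ S.card := by
    rw [← Finset.prod_const]
    refine Finset.prod_le_prod (fun e _ => mgf_nonneg) (fun e _ => ?_)
    rw [L5_mgf h c e]
    exact hlap.le
  calc (2 : ℝ) ^ S.card * ∏ e ∈ S, mgf (τ e) P (-c)
      ≤ (2 : ℝ) ^ S.card * (1 / 16 : ℝ) ^ S.card :=
        mul_le_mul_of_nonneg_left hprod (by positivity)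
    _ = (1 / 8 : ℝ) ^ S.card := by
        rw [← mul_pow]; norm_num

end Claimed.Agent.R125
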