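/-
ROW 125 CONDITIONAL CHAIN, leaf L6 (group Law).  Blueprint: Claimed/Agent/R125/Main.lean.  Definitions: Defs.lean.
Rules for the solver: keep the statements; helper names start with `L6_`; you may use every theorem of the imported
files (some still have sorry); edit only this file.

GROUP SKETCH.
Row 125 chain, file Law: measurability, invariance of the law of an i.i.d. field under re-indexing,
tail bounds for sums of weights, Gamma laws are nice.   (blueprint: Main.lean)
-/
import Claimed.Agent.R125.Defs

set_option autoImplicit false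

open MeasureTheory ProbabilityTheory Filter Set
open scoped Topology
open Claims.C0214 Claims.C0214.PlanarFPP Claims.C0214.GammaFPP

namespace Claimed.Agent.R125

variable {Ω : Type} [MeasurableSpace Ω] {P : Measure Ω} {τ : Edge → Ω → ℝ} {ν : Measure ℝ}
variable {w : Edge → ℝ} {μ : Plane → ℝ}

/-! ### leaf L6: Gamma laws.  For `c < r`:  `exp (c x) * gammaPDFReal a r x = (r/(r-c))^a * gammaPDFReal a (r-c) x`,
hence `∫ exp (c x) d Gamma(a,r) = (r/(r-c))^a`.  Use `c = r/2` for `expMom`, `c → -∞` for `laplace`.
`pos`: the density vanishes on `x < 0` and `{0}` is Lebesgue-null. -/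

theorem L6_key {a r c : ℝ} (hr : 0 < r) (hc : c < r) (x : ℝ) :
    gammaPDFReal a r x * Real.exp (c * x) = (r / (r - c)) ^ a * gammaPDFReal a (r - c) x := by
  have hrc : 0 < r - c := by linarith
  unfold gammaPDFReal
  split_ifs with hx
  · rw [Real.div_rpow hr.le hrc.le]
    have h1 : (r - c) ^ a ≠ 0 := (Real.rpow_pos_of_pos hrc a).ne'
    have h2 : Real.exp (-(r * x)) * Real.exp (c * x) = Real.exp (-((r - c) * x)) := by
      rw [← Real.exp_add]; congr 1; ring
    calc r ^ a / Real.Gamma a * x ^ (a - 1) * Real.exp (-(r * x)) * Real.exp (c * x)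
        = r ^ a / Real.Gamma a * x ^ (a - 1) * (Real.exp (-(r * x)) * Real.exp (c * x)) := by ring
      _ = r ^ a / Real.Gamma a * x ^ (a - 1) * Real.exp (-((r - c) * x)) := by rw [h2]
      _ = r ^ a / (r - c) ^ a *
            ((r - c) ^ a / Real.Gamma a * x ^ (a - 1) * Real.exp (-((r - c) * x))) := by
          field_simp
  · simp

theorem L6_integrable_pdf {a r : ℝ} (ha : 0 < a) (hr : 0 < r) :
    Integrable (gammaPDFReal a r) volume ∧ ∫ x, gammaPDFReal a r x = 1 := by
  have hm : AEMeasurable (gammaPDF a r) volume :=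
    (measurable_gammaPDFReal a r).ennreal_ofReal.aemeasurable
  have h1 : ∫⁻ x, gammaPDF a r x = 1 := lintegral_gammaPDF_eq_one ha hr
  have he : (fun x => (gammaPDF a r x).toReal) = gammaPDFReal a r := by
    funext x
    simp only [gammaPDF]
    exact ENNReal.toReal_ofReal (gammaPDFReal_nonneg ha hr x)
  constructor
  · have := integrable_toReal_of_lintegral_ne_top hm (by rw [h1]; exact ENNReal.one_ne_top)
    rwa [he] at this
  · have h2 := integral_toReal hm (ae_of_all _ (fun x => by simp [gammaPDF]))
    rw [he, h1] at h2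
    simpa using h2

theorem integral_exp_gamma {a r c : ℝ} (ha : 0 < a) (hr : 0 < r) (hc : c < r) :
    Integrable (fun x : ℝ => Real.exp (c * x)) (gammaMeasure a r) ∧
      ∫ x, Real.exp (c * x) ∂(gammaMeasure a r) = (r / (r - c)) ^ a := by
  have hrc : 0 < r - c := by linarith
  have hmeas : Measurable (gammaPDF a r) := (measurable_gammaPDFReal a r).ennreal_ofReal
  have hlt : ∀ᵐ x ∂(volume : Measure ℝ), gammaPDF a r x < ⊤ :=
    ae_of_all _ (fun x => by simp [gammaPDF])
  have he : (fun x : ℝ => (gammaPDF a r x).toReal • Real.exp (c * x)) =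
      fun x => (r / (r - c)) ^ a * gammaPDFReal a (r - c) x := by
    funext x
    simp only [gammaPDF, smul_eq_mul]
    rw [ENNReal.toReal_ofReal (gammaPDFReal_nonneg ha hr x)]
    exact L6_key hr hc x
  obtain ⟨hi, h1⟩ := L6_integrable_pdf ha hrc
  constructor
  · unfold gammaMeasure
    rw [integrable_withDensity_iff_integrable_smul' hmeas hlt, he]
    exact hi.const_mul _
  · unfold gammaMeasure
    rw [integral_withDensity_eq_integral_toReal_smul hmeas hlt, he, integral_const_mul, h1, mul_one]

theorem niceLaw_gamma {a r : ℝ} (ha : 0 < a) (hr : 0 < r) : NiceLaw (gammaMeasure a r) := by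
  refine ⟨isProbabilityMeasure_gammaMeasure ha hr, ?_, ?_, ?_⟩
  · unfold gammaMeasure
    rw [withDensity_apply _ measurableSet_Iic, setLIntegral_congr Iio_ae_eq_Iic.symm]
    exact lintegral_gammaPDF_of_nonpos le_rfl
  · exact ⟨r / 2, by positivity, (integral_exp_gamma ha hr (by linarith)).1⟩
  · intro δ hδ
    have hd : 0 < δ ^ (1 / a) := Real.rpow_pos_of_pos hδ _
    refine ⟨r / δ ^ (1 / a), by positivity, ?_⟩
    set c : ℝ := r / δ ^ (1 / a) with hcdef
    have hcpos : 0 < c := by positivity
    have h := (integral_exp_gamma (c := -c) ha hr (by linarith)).2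
    have he : (fun x : ℝ => Real.exp (-(c * x))) = fun x => Real.exp (-c * x) := by
      funext x; congr 1; ring
    rw [he, h]
    have h1 : r / (r - -c) < δ ^ (1 / a) := by
      rw [div_lt_iff₀ (by linarith)]
      have : δ ^ (1 / a) * c = r := by rw [hcdef]; field_simp
      nlinarith
    have h0 : 0 ≤ r / (r - -c) := by
      apply div_nonneg hr.le; linarith
    calc (r / (r - -c)) ^ a < (δ ^ (1 / a)) ^ a := Real.rpow_lt_rpow h0 h1 ha
      _ = δ := by
          rw [← Real.rpow_mul hδ.le, one_div, inv_mul_cancel₀ ha.ne', Real.rpow_one]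

end Claimed.Agent.R125
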