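/-
ROW 125 CONDITIONAL CHAIN, leaf M1 (group Mean).  Blueprint: Claimed/Agent/R125/Main.lean.  Definitions: Defs.lean.
Rules for the solver: keep the statements; helper names start with `M1_`; you may use every theorem of the imported
files (some still have sorry); edit only this file.

GROUP SKETCH.
Row 125 chain, file Mean: the mean passage time `g`, the time constant `muZ` in lattice directions (Fekete),
its extension `mu` to the plane, all norm properties except positivity.   (blueprint: Main.lean)
-/
import Claimed.Agent.R125.Law

set_option autoImplicit false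

open MeasureTheory ProbabilityTheory Filter Set
open scoped Topology
open Claims.C0214 Claims.C0214.PlanarFPP Claims.C0214.GammaFPP

namespace Claimed.Agent.R125

variable {Ω : Type} [MeasurableSpace Ω] {P : Measure Ω} {τ : Edge → Ω → ℝ} {ν : Measure ℝ}
variable {w : Edge → ℝ} {μ : Plane → ℝ}

/-! ### leaf M1: integrability (a.s. `0 ≤ T ≤ ∑_{LE p q} τ_e`), translation invariance of the mean -/

theorem M1_integrable_sum (h : IidEnvironment ν P τ) (hν : NiceLaw ν) (S : Finset Edge) :
    Integrable (fun ω => ∑ e ∈ S, env τ ω e) P :=
  integrable_finsetSum S (fun e _ => integrable_tau h hν e)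

theorem integrable_T (h : IidEnvironment ν P τ) (hν : NiceLaw ν) (p q : Vertex) :
    Integrable (fun ω => T (env τ ω) p q) P := by
  refine Integrable.mono' (M1_integrable_sum h hν (LE p q))
    ((measurable_T p q).comp (measurable_env h)).aestronglyMeasurable ?_
  filter_upwards [ae_NN h hν] with ω hω
  rw [Real.norm_eq_abs, abs_of_nonneg (T_nonneg hω p q)]
  exact T_le_sum_LE hω p q

theorem integrable_TR (h : IidEnvironment ν P τ) (hν : NiceLaw ν) {R : ℕ} {p q : Vertex}
    (hR : n1 (q - p) ≤ R) : Integrable (fun ω => TR (env τ ω) R p q) P := by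
  refine Integrable.mono' (M1_integrable_sum h hν (LE p q))
    ((measurable_TR R p q).comp (measurable_env h)).aestronglyMeasurable ?_
  filter_upwards [ae_NN h hν] with ω hω
  rw [Real.norm_eq_abs, abs_of_nonneg (TR_nonneg hω R p q)]
  exact TR_le_sum_LE hω hR

theorem integral_T_shift (h : IidEnvironment ν P τ) (p q z : Vertex) :
    ∫ ω, T (env τ ω) (p + z) (q + z) ∂P = ∫ ω, T (env τ ω) p q ∂P := by
  have := integral_shift h z (fun w => T w p q) (measurable_T p q)
  simp only [T_shiftW] at this
  exact this

theorem integral_T_eq_g (h : IidEnvironment ν P τ) (p q : Vertex) :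
    ∫ ω, T (env τ ω) p q ∂P = g P τ (q - p) := by
  have := integral_T_shift h 0 (q - p) p
  rw [zero_add, sub_add_cancel] at this
  rw [this, g]

end Claimed.Agent.R125
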