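/-
ROW 125 CONDITIONAL CHAIN, leaf M2 (group Mean).  Blueprint: Claimed/Agent/R125/Main.lean.  Definitions: Defs.lean.
Rules for the solver: keep the statements; helper names start with `M2_`; you may use every theorem of the imported
files (some still have sorry); edit only this file.

GROUP SKETCH.
Row 125 chain, file Mean: the mean passage time `g`, the time constant `muZ` in lattice directions (Fekete),
its extension `mu` to the plane, all norm properties except positivity.   (blueprint: Main.lean)
-/
import Claimed.Agent.R125.M1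

set_option autoImplicit false

open MeasureTheory ProbabilityTheory Filter Set
open scoped Topology
open Claims.C0214 Claims.C0214.PlanarFPP Claims.C0214.GammaFPP

namespace Claimed.Agent.R125

variable {Ω : Type} [MeasurableSpace Ω] {P : Measure Ω} {τ : Edge → Ω → ℝ} {ν : Measure ℝ}
variable {w : Edge → ℝ} {μ : Plane → ℝ}

/-! ### leaf M2: properties of `g` -/

theorem g_nonneg (h : IidEnvironment ν P τ) (hν : NiceLaw ν) (x : Vertex) : 0 ≤ g P τ x := by
  unfold g
  refine integral_nonneg_of_ae ?_
  filter_upwards [ae_NN h hν] with ω hω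
  exact T_nonneg hω 0 x

theorem g_zero (h : IidEnvironment ν P τ) (hν : NiceLaw ν) : g P τ 0 = 0 := by
  unfold g
  refine integral_eq_zero_of_ae ?_
  filter_upwards [ae_NN h hν] with ω hω
  exact T_self hω 0

theorem g_subadd (h : IidEnvironment ν P τ) (hν : NiceLaw ν) (x y : Vertex) :
    g P τ (x + y) ≤ g P τ x + g P τ y := by
  have h1 : ∫ ω, T (env τ ω) x (x + y) ∂P = g P τ y := by
    rw [integral_T_eq_g h x (x + y), add_sub_cancel_left]
  have h2 : g P τ x + g P τ y
      = ∫ ω, (T (env τ ω) 0 x + T (env τ ω) x (x + y)) ∂P := by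
    rw [integral_add (integrable_T h hν 0 x) (integrable_T h hν x (x + y)), h1]
    rfl
  rw [h2]
  unfold g
  refine integral_mono_ae (integrable_T h hν 0 (x + y))
    ((integrable_T h hν 0 x).add (integrable_T h hν x (x + y))) ?_
  filter_upwards [ae_NN h hν] with ω hω
  exact T_triangle hω 0 x (x + y)

theorem g_neg (h : IidEnvironment ν P τ) (x : Vertex) : g P τ (-x) = g P τ x := by
  have h1 : g P τ (-x) = ∫ ω, T (env τ ω) (-x) 0 ∂P := by
    unfold g
    refine integral_congr_ae (Filter.Eventually.of_forall fun ω => ?_)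
    exact T_symm (env τ ω) 0 (-x)
  rw [h1, integral_T_eq_g h (-x) 0, zero_sub, neg_neg]

theorem g_le (h : IidEnvironment ν P τ) (hν : NiceLaw ν) (x : Vertex) :
    g P τ x ≤ m1 ν * n1 x := by
  have h1 : ∫ ω, (∑ e ∈ LE 0 x, τ e ω) ∂P = m1 ν * n1 x := by
    rw [integral_finsetSum _ (fun e _ => integrable_tau h hν e)]
    simp only [integral_tau h hν, Finset.sum_const, card_LE, sub_zero, nsmul_eq_mul]
    ring
  rw [← h1]
  unfold g
  refine integral_mono_ae (integrable_T h hν 0 x)
    (integrable_finsetSum _ (fun e _ => integrable_tau h hν e)) ?_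
  filter_upwards [ae_NN h hν] with ω hω
  exact T_le_sum_LE hω 0 x

end Claimed.Agent.R125
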