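/-
ROW 125 CONDITIONAL CHAIN, leaf M3 (group Mean).  Blueprint: Claimed/Agent/R125/Main.lean.  Definitions: Defs.lean.
Rules for the solver: keep the statements; helper names start with `M3_`; you may use every theorem of the imported
files (some still have sorry); edit only this file.

GROUP SKETCH.
Row 125 chain, file Mean: the mean passage time `g`, the time constant `muZ` in lattice directions (Fekete),
its extension `mu` to the plane, all norm properties except positivity.   (blueprint: Main.lean)
-/
import Claimed.Agent.R125.M2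

set_option autoImplicit false

open MeasureTheory ProbabilityTheory Filter Set
open scoped Topology
open Claims.C0214 Claims.C0214.PlanarFPP Claims.C0214.GammaFPP

namespace Claimed.Agent.R125

variable {Ω : Type} [MeasurableSpace Ω] {P : Measure Ω} {τ : Edge → Ω → ℝ} {ν : Measure ℝ}
variable {w : Edge → ℝ} {μ : Plane → ℝ}

/-! ### leaf M3: Fekete (`Subadditive.tendsto_lim`, `Subadditive.lim_le_div`; `muZ` is by definition
`Subadditive.lim` of `n ↦ g (n • x)`) -/

theorem M3_subadd (h : IidEnvironment ν P τ) (hν : NiceLaw ν) (x : Vertex) :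
    Subadditive (fun n : ℕ => g P τ (n • x)) := by
  intro m n
  show g P τ ((m + n) • x) ≤ g P τ (m • x) + g P τ (n • x)
  rw [add_smul]
  exact g_subadd h hν _ _

theorem M3_bdd (h : IidEnvironment ν P τ) (hν : NiceLaw ν) (x : Vertex) :
    BddBelow (Set.range fun n : ℕ => g P τ (n • x) / n) := by
  refine ⟨0, ?_⟩
  rintro _ ⟨n, rfl⟩
  exact div_nonneg (g_nonneg h hν _) (Nat.cast_nonneg n)

theorem M3_lim (h : IidEnvironment ν P τ) (hν : NiceLaw ν) (x : Vertex) :
    (M3_subadd h hν x).lim = muZ P τ x := by
  rw [Subadditive.lim]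
  rfl

theorem tendsto_muZ (h : IidEnvironment ν P τ) (hν : NiceLaw ν) (x : Vertex) :
    Tendsto (fun n : ℕ => g P τ (n • x) / n) atTop (𝓝 (muZ P τ x)) := by
  rw [← M3_lim h hν x]
  exact (M3_subadd h hν x).tendsto_lim (M3_bdd h hν x)

theorem muZ_le_div (h : IidEnvironment ν P τ) (hν : NiceLaw ν) (x : Vertex) {n : ℕ} (hn : 1 ≤ n) :
    muZ P τ x ≤ g P τ (n • x) / n := by
  rw [← M3_lim h hν x]
  exact (M3_subadd h hν x).lim_le_div (M3_bdd h hν x) (n := n) (by omega)

end Claimed.Agent.R125
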