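/-
ROW 125 CONDITIONAL CHAIN, leaf M4 (group Mean).  Blueprint: Claimed/Agent/R125/Main.lean.  Definitions: Defs.lean.
Rules for the solver: keep the statements; helper names start with `M4_`; you may use every theorem of the imported
files (some still have sorry); edit only this file.

GROUP SKETCH.
Row 125 chain, file Mean: the mean passage time `g`, the time constant `muZ` in lattice directions (Fekete),
its extension `mu` to the plane, all norm properties except positivity.   (blueprint: Main.lean)
-/
import Claimed.Agent.R125.M3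

set_option autoImplicit false

open MeasureTheory ProbabilityTheory Filter Set
open scoped Topology
open Claims.C0214 Claims.C0214.PlanarFPP Claims.C0214.GammaFPP

namespace Claimed.Agent.R125

variable {Ω : Type} [MeasurableSpace Ω] {P : Measure Ω} {τ : Edge → Ω → ℝ} {ν : Measure ℝ}
variable {w : Edge → ℝ} {μ : Plane → ℝ}

/-! ### leaf M4: properties of `muZ` (pass to the limit in M2) -/

theorem muZ_nonneg (h : IidEnvironment ν P τ) (hν : NiceLaw ν) (x : Vertex) : 0 ≤ muZ P τ x := by
  refine ge_of_tendsto' (tendsto_muZ h hν x) (fun n => ?_)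
  exact div_nonneg (g_nonneg h hν _) (Nat.cast_nonneg n)

theorem muZ_zero (h : IidEnvironment ν P τ) (hν : NiceLaw ν) : muZ P τ 0 = 0 := by
  have h1 := tendsto_muZ h hν (0 : Vertex)
  have h2 : (fun n : ℕ => g P τ (n • (0 : Vertex)) / n) = fun _ => (0 : ℝ) := by
    funext n
    rw [smul_zero, g_zero h hν, zero_div]
  rw [h2] at h1
  exact tendsto_nhds_unique h1 tendsto_const_nhds

theorem muZ_nsmul (h : IidEnvironment ν P τ) (hν : NiceLaw ν) (k : ℕ) (x : Vertex) :
    muZ P τ (k • x) = k * muZ P τ x := by
  rcases Nat.eq_zero_or_pos k with rfl | hk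
  · rw [zero_smul, muZ_zero h hν]; simp
  · have h1 := tendsto_muZ h hν (k • x)
    have h2 := tendsto_muZ h hν x
    have h3 : Tendsto (fun n : ℕ => n * k) atTop atTop :=
      tendsto_id.atTop_mul_const' hk
    have h4 := (h2.comp h3).const_mul (k : ℝ)
    have hk' : (k : ℝ) ≠ 0 := by exact_mod_cast hk.ne'
    have h5 : (fun n : ℕ => g P τ (n • (k • x)) / n) =
        fun n : ℕ => (k : ℝ) * ((fun n : ℕ => g P τ (n • x) / n) ∘ fun n : ℕ => n * k) n := by
      funext n
      simp only [Function.comp]
      rw [smul_smul]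
      rcases Nat.eq_zero_or_pos n with rfl | hn
      · simp
      · have hn' : (n : ℝ) ≠ 0 := by exact_mod_cast hn.ne'
        push_cast
        field_simp
    rw [h5] at h1
    exact tendsto_nhds_unique h1 h4

theorem muZ_subadd (h : IidEnvironment ν P τ) (hν : NiceLaw ν) (x y : Vertex) :
    muZ P τ (x + y) ≤ muZ P τ x + muZ P τ y := by
  refine le_of_tendsto_of_tendsto' (tendsto_muZ h hν (x + y))
    ((tendsto_muZ h hν x).add (tendsto_muZ h hν y)) (fun n => ?_)
  rw [smul_add, ← add_div]
  exact div_le_div_of_nonneg_right (g_subadd h hν _ _) (Nat.cast_nonneg n)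

theorem muZ_neg (h : IidEnvironment ν P τ) (hν : NiceLaw ν) (x : Vertex) :
    muZ P τ (-x) = muZ P τ x := by
  have h1 := tendsto_muZ h hν (-x)
  have h2 : (fun n : ℕ => g P τ (n • (-x)) / n) = fun n : ℕ => g P τ (n • x) / n := by
    funext n
    rw [smul_neg, g_neg h]
  rw [h2] at h1
  exact tendsto_nhds_unique h1 (tendsto_muZ h hν x)

theorem muZ_le (h : IidEnvironment ν P τ) (hν : NiceLaw ν) (x : Vertex) :
    muZ P τ x ≤ m1 ν * n1 x := by
  have h1 := muZ_le_div h hν x (n := 1) le_rfl
  rw [one_smul, Nat.cast_one, div_one] at h1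
  exact h1.trans (g_le h hν x)

theorem muZ_lip (h : IidEnvironment ν P τ) (hν : NiceLaw ν) (x y : Vertex) :
    |muZ P τ x - muZ P τ y| ≤ m1 ν * n1 (x - y) := by
  have h1 : muZ P τ x ≤ muZ P τ (x - y) + muZ P τ y := by
    have := muZ_subadd h hν (x - y) y
    rwa [sub_add_cancel] at this
  have h2 : muZ P τ y ≤ muZ P τ (x - y) + muZ P τ x := by
    have := muZ_subadd h hν (-(x - y)) x
    rw [muZ_neg h hν] at this
    have e : -(x - y) + x = y := by abel
    rwa [e] at this
  have h3 := muZ_le h hν (x - y)
  rw [abs_le]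
  constructor <;> linarith

end Claimed.Agent.R125
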