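/-
ROW 125 CONDITIONAL CHAIN, leaf M5 (group Mean).  Blueprint: Claimed/Agent/R125/Main.lean.  Definitions: Defs.lean.
Rules for the solver: keep the statements; helper names start with `M5_`; you may use every theorem of the imported
files (some still have sorry); edit only this file.

GROUP SKETCH.
Row 125 chain, file Mean: the mean passage time `g`, the time constant `muZ` in lattice directions (Fekete),
its extension `mu` to the plane, all norm properties except positivity.   (blueprint: Main.lean)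
-/
import Claimed.Agent.R125.Defs

set_option autoImplicit false

open MeasureTheory ProbabilityTheory Filter Set
open scoped Topology
open Claims.C0214 Claims.C0214.PlanarFPP Claims.C0214.GammaFPP

namespace Claimed.Agent.R125

variable {Ω : Type} [MeasurableSpace Ω] {P : Measure Ω} {τ : Edge → Ω → ℝ} {ν : Measure ℝ}
variable {w : Edge → ℝ} {μ : Plane → ℝ}

/-! ### leaf M5: floors.  All are coordinatewise facts `|⌊a⌋ - ...| ≤ ...` on `ℝ`. -/

theorem M5_n1_cast (x : Vertex) : (n1 x : ℝ) = |(x.1 : ℝ)| + |(x.2 : ℝ)| := by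
  simp only [n1, Nat.cast_add, Nat.cast_natAbs, Int.cast_abs]

theorem M5_cross (a : ℝ) (n k : ℕ) :
    |((k : ℝ) * (⌊(n : ℝ) * a⌋ : ℝ) - (n : ℝ) * (⌊(k : ℝ) * a⌋ : ℝ))| ≤ n + k := by
  have h1 := Int.floor_le ((n : ℝ) * a)
  have h2 := Int.lt_floor_add_one ((n : ℝ) * a)
  have h3 := Int.floor_le ((k : ℝ) * a)
  have h4 := Int.lt_floor_add_one ((k : ℝ) * a)
  have hn : (0 : ℝ) ≤ n := Nat.cast_nonneg n
  have hk : (0 : ℝ) ≤ k := Nat.cast_nonneg k
  have e1 := mul_le_mul_of_nonneg_left h1 hk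
  have e2 := mul_le_mul_of_nonneg_left h2.le hk
  have e3 := mul_le_mul_of_nonneg_left h3 hn
  have e4 := mul_le_mul_of_nonneg_left h4.le hn
  rw [abs_le]
  constructor <;> linarith

theorem M5_sub (a b : ℝ) : |((⌊a⌋ : ℝ) - (⌊b⌋ : ℝ))| ≤ |a - b| + 1 := by
  have h1 := Int.floor_le a
  have h2 := Int.lt_floor_add_one a
  have h3 := Int.floor_le b
  have h4 := Int.lt_floor_add_one b
  have h5 := le_abs_self (a - b)
  have h6 := neg_abs_le (a - b)
  rw [abs_le]
  constructor <;> linarith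

theorem M5_ge (a : ℝ) : |a| - 1 ≤ |(⌊a⌋ : ℝ)| := by
  have h1 := Int.floor_le a
  have h2 := Int.lt_floor_add_one a
  have h5 := le_abs_self (⌊a⌋ : ℝ)
  have h6 := neg_abs_le (⌊a⌋ : ℝ)
  have : |a| ≤ |(⌊a⌋ : ℝ)| + 1 := by
    rw [abs_le]
    constructor <;> linarith
  linarith

theorem n1_floor_cross (v : Plane) (n k : ℕ) :
    (n1 (k • latticeFloor ((n : ℝ) • v) - n • latticeFloor ((k : ℝ) • v)) : ℝ) ≤ 2 * (n + k) := by
  rw [M5_n1_cast]
  have h0 := M5_cross (v 0) n k
  have h1 := M5_cross (v 1) n k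
  simp only [latticeFloor, Prod.fst_sub, Prod.snd_sub, Prod.smul_fst, Prod.smul_snd]
  simp only [nsmul_eq_mul, PiLp.smul_apply, smul_eq_mul, Int.cast_sub, Int.cast_mul,
    Int.cast_natCast]
  linarith

theorem n1_floor_add (v u : Plane) :
    (n1 (latticeFloor (v + u) - (latticeFloor v + latticeFloor u)) : ℝ) ≤ 2 := by
  have h0 := Int.le_floor_add (v 0) (u 0)
  have h0' := Int.le_floor_add_floor (v 0) (u 0)
  have h1 := Int.le_floor_add (v 1) (u 1)
  have h1' := Int.le_floor_add_floor (v 1) (u 1)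
  have h2 : n1 (latticeFloor (v + u) - (latticeFloor v + latticeFloor u)) ≤ 2 := by
    simp only [n1, latticeFloor, Prod.fst_sub, Prod.snd_sub, Prod.fst_add, Prod.snd_add,
      PiLp.add_apply]
    omega
  exact_mod_cast h2

theorem n1_floor_neg (v : Plane) : (n1 (latticeFloor (-v) + latticeFloor v) : ℝ) ≤ 2 := by
  have a0 := Int.ceil_le_floor_add_one (v 0)
  have b0 := Int.floor_le_ceil (v 0)
  have a1 := Int.ceil_le_floor_add_one (v 1)
  have b1 := Int.floor_le_ceil (v 1)
  have h2 : n1 (latticeFloor (-v) + latticeFloor v) ≤ 2 := by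
    simp only [n1, latticeFloor, Prod.fst_add, Prod.snd_add, PiLp.neg_apply, Int.floor_neg]
    omega
  exact_mod_cast h2

theorem n1_floor_sub (v u : Plane) :
    (n1 (latticeFloor v - latticeFloor u) : ℝ) ≤ |v 0 - u 0| + |v 1 - u 1| + 2 := by
  rw [M5_n1_cast]
  have h0 := M5_sub (v 0) (u 0)
  have h1 := M5_sub (v 1) (u 1)
  simp only [latticeFloor, Prod.fst_sub, Prod.snd_sub, Int.cast_sub]
  linarith

theorem n1_floor_ge (v : Plane) : |v 0| + |v 1| - 2 ≤ (n1 (latticeFloor v) : ℝ) := by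
  rw [M5_n1_cast]
  have h0 := M5_ge (v 0)
  have h1 := M5_ge (v 1)
  simp only [latticeFloor]
  linarith

end Claimed.Agent.R125
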