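/-
ROW 125 CONDITIONAL CHAIN, leaf M6 (group Mean).  Blueprint: Claimed/Agent/R125/Main.lean.  Definitions: Defs.lean.
Rules for the solver: keep the statements; helper names start with `M6_`; you may use every theorem of the imported
files (some still have sorry); edit only this file.

GROUP SKETCH.
Row 125 chain, file Mean: the mean passage time `g`, the time constant `muZ` in lattice directions (Fekete),
its extension `mu` to the plane, all norm properties except positivity.   (blueprint: Main.lean)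
-/
import Claimed.Agent.R125.M4
import Claimed.Agent.R125.M5

set_option autoImplicit false

open MeasureTheory ProbabilityTheory Filter Set
open scoped Topology
open Claims.C0214 Claims.C0214.PlanarFPP Claims.C0214.GammaFPP

namespace Claimed.Agent.R125

variable {Ω : Type} [MeasurableSpace Ω] {P : Measure Ω} {τ : Edge → Ω → ℝ} {ν : Measure ℝ}
variable {w : Edge → ℝ} {μ : Plane → ℝ}

/-! ### leaf M6: the limit defining `mu` exists.  Cauchy:
`muZ ⌊n v⌋ / n = muZ (k • ⌊n v⌋) / (n k)`, so by `muZ_lip`, `n1_floor_cross`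
`|muZ ⌊n v⌋ / n - muZ ⌊k v⌋ / k| ≤ 2 m1 (1/n + 1/k)`. -/

theorem M6_m1_nonneg (h : IidEnvironment ν P τ) (hν : NiceLaw ν) : 0 ≤ m1 ν := by
  have h0 := muZ_lip h hν ((1, 0) : Vertex) 0
  have h1 : n1 (((1, 0) : Vertex) - 0) = 1 := by simp [n1]
  rw [h1] at h0
  have h2 := abs_nonneg (muZ P τ ((1, 0) : Vertex) - muZ P τ 0)
  simp only [Nat.cast_one, mul_one] at h0
  linarith

theorem M6_diff (h : IidEnvironment ν P τ) (hν : NiceLaw ν) (v : Plane) {n k : ℕ} (hn : 1 ≤ n)
    (hk : 1 ≤ k) :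
    |muZ P τ (latticeFloor ((n : ℝ) • v)) / n - muZ P τ (latticeFloor ((k : ℝ) • v)) / k|
      ≤ 2 * m1 ν * (1 / n + 1 / k) := by
  have hn' : (0 : ℝ) < n := by exact_mod_cast hn
  have hk' : (0 : ℝ) < k := by exact_mod_cast hk
  have e : muZ P τ (latticeFloor ((n : ℝ) • v)) / n - muZ P τ (latticeFloor ((k : ℝ) • v)) / k
      = (muZ P τ (k • latticeFloor ((n : ℝ) • v)) - muZ P τ (n • latticeFloor ((k : ℝ) • v)))
          / (n * k) := by
    rw [muZ_nsmul h hν, muZ_nsmul h hν]
    field_simp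
  rw [e, abs_div, abs_of_pos (mul_pos hn' hk'), div_le_iff₀ (mul_pos hn' hk')]
  calc |muZ P τ (k • latticeFloor ((n : ℝ) • v)) - muZ P τ (n • latticeFloor ((k : ℝ) • v))|
      ≤ m1 ν * n1 (k • latticeFloor ((n : ℝ) • v) - n • latticeFloor ((k : ℝ) • v)) :=
        muZ_lip h hν _ _
    _ ≤ m1 ν * (2 * (n + k)) :=
        mul_le_mul_of_nonneg_left (n1_floor_cross v n k) (M6_m1_nonneg h hν)
    _ = 2 * m1 ν * (1 / n + 1 / k) * (n * k) := by
        field_simp
        ring

theorem tendsto_mu (h : IidEnvironment ν P τ) (hν : NiceLaw ν) (v : Plane) :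
    Tendsto (fun n : ℕ => muZ P τ (latticeFloor ((n : ℝ) • v)) / n) atTop (𝓝 (mu P τ v)) := by
  have hm := M6_m1_nonneg h hν
  have hc : CauchySeq (fun n : ℕ => muZ P τ (latticeFloor ((n : ℝ) • v)) / n) := by
    rw [Metric.cauchySeq_iff']
    intro ε hε
    obtain ⟨N, hN⟩ := exists_nat_gt (4 * m1 ν / ε)
    have hN0 : (0 : ℝ) < N := lt_of_le_of_lt (by positivity) hN
    have hN1 : 1 ≤ N := by exact_mod_cast hN0
    refine ⟨N, fun n hn => ?_⟩
    have hn1 : 1 ≤ n := hN1.trans hn
    have hn0 : (0 : ℝ) < n := by exact_mod_cast hn1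
    rw [Real.dist_eq]
    refine lt_of_le_of_lt (M6_diff h hν v hn1 hN1) ?_
    have h1 : (1 : ℝ) / n ≤ 1 / N := one_div_le_one_div_of_le hN0 (by exact_mod_cast hn)
    have h2 : 2 * m1 ν * (1 / n + 1 / N) ≤ 2 * m1 ν * (1 / N + 1 / N) :=
      mul_le_mul_of_nonneg_left (by linarith) (by positivity)
    have h3 : 2 * m1 ν * (1 / (N : ℝ) + 1 / N) = 4 * m1 ν / N := by
      field_simp
      ring
    have h4 : 4 * m1 ν / N < ε := by
      rw [div_lt_iff₀ hN0]
      rw [div_lt_iff₀ hε] at hN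
      linarith
    linarith
  obtain ⟨L, hL⟩ := cauchySeq_tendsto_of_complete hc
  have : mu P τ v = L := by
    unfold mu
    exact hL.limUnder_eq
  rw [this]
  exact hL

end Claimed.Agent.R125
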