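/-
ROW 125 CONDITIONAL CHAIN, leaf M7 (group Mean).  Blueprint: Claimed/Agent/R125/Main.lean.  Definitions: Defs.lean.
Rules for the solver: keep the statements; helper names start with `M7_`; you may use every theorem of the imported
files (some still have sorry); edit only this file.

GROUP SKETCH.
Row 125 chain, file Mean: the mean passage time `g`, the time constant `muZ` in lattice directions (Fekete),
its extension `mu` to the plane, all norm properties except positivity.   (blueprint: Main.lean)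
-/
import Claimed.Agent.R125.M6

set_option autoImplicit false

open MeasureTheory ProbabilityTheory Filter Set
open scoped Topology
open Claims.C0214 Claims.C0214.PlanarFPP Claims.C0214.GammaFPP

namespace Claimed.Agent.R125

variable {Ω : Type} [MeasurableSpace Ω] {P : Measure Ω} {τ : Edge → Ω → ℝ} {ν : Measure ℝ}
variable {w : Edge → ℝ} {μ : Plane → ℝ}

/-! ### leaf M7: norm properties of `mu` (limits of M4 with the floor estimates M5) -/

theorem M7_le_of {a b : ℕ → ℝ} {A B C : ℝ} (ha : Tendsto a atTop (𝓝 A)) (hb : Tendsto b atTop (𝓝 B))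
    (hab : ∀ n : ℕ, a n ≤ b n + C / n) : A ≤ B := by
  have h1 : Tendsto (fun n : ℕ => b n + C / n) atTop (𝓝 (B + 0)) :=
    hb.add (tendsto_const_div_atTop_nhds_zero_nat C)
  rw [add_zero] at h1
  exact le_of_tendsto_of_tendsto' ha h1 hab

theorem M7_m1_nonneg (h : IidEnvironment ν P τ) (hν : NiceLaw ν) : 0 ≤ m1 ν := by
  have h1 := muZ_lip h hν ((1, 0) : Vertex) 0
  have h2 : n1 (((1, 0) : Vertex) - 0) = 1 := by simp [n1]
  rw [h2] at h1
  have h3 := abs_nonneg (muZ P τ ((1, 0) : Vertex) - muZ P τ 0)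
  simp only [Nat.cast_one, mul_one] at h1
  linarith

theorem mu_nonneg (h : IidEnvironment ν P τ) (hν : NiceLaw ν) (v : Plane) : 0 ≤ mu P τ v :=
  ge_of_tendsto' (tendsto_mu h hν v) (fun n => div_nonneg (muZ_nonneg h hν _) (Nat.cast_nonneg n))

theorem mu_zero (h : IidEnvironment ν P τ) (hν : NiceLaw ν) : mu P τ 0 = 0 := by
  have h1 := tendsto_mu h hν (0 : Plane)
  have h2 : (fun n : ℕ => muZ P τ (latticeFloor ((n : ℝ) • (0 : Plane))) / n) = fun _ => (0 : ℝ) := by
    funext n
    have : latticeFloor ((n : ℝ) • (0 : Plane)) = 0 := by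
      simp [latticeFloor]
    rw [this, muZ_zero h hν, zero_div]
  rw [h2] at h1
  exact tendsto_nhds_unique h1 tendsto_const_nhds

theorem mu_triangle (h : IidEnvironment ν P τ) (hν : NiceLaw ν) (v u : Plane) :
    mu P τ (v + u) ≤ mu P τ v + mu P τ u := by
  have hm := M7_m1_nonneg h hν
  refine M7_le_of (C := 2 * m1 ν) (tendsto_mu h hν (v + u))
    ((tendsto_mu h hν v).add (tendsto_mu h hν u)) ?_
  intro n
  have h1 := muZ_lip h hν (latticeFloor ((n : ℝ) • (v + u)))
    (latticeFloor ((n : ℝ) • v) + latticeFloor ((n : ℝ) • u))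
  have h2 := n1_floor_add ((n : ℝ) • v) ((n : ℝ) • u)
  rw [← smul_add] at h2
  have h3 := muZ_subadd h hν (latticeFloor ((n : ℝ) • v)) (latticeFloor ((n : ℝ) • u))
  have h4 := (abs_le.mp h1).2
  have h5 : m1 ν * (n1 (latticeFloor ((n : ℝ) • (v + u)) -
      (latticeFloor ((n : ℝ) • v) + latticeFloor ((n : ℝ) • u))) : ℝ) ≤ m1 ν * 2 :=
    mul_le_mul_of_nonneg_left h2 hm
  have h6 : muZ P τ (latticeFloor ((n : ℝ) • (v + u))) ≤
      muZ P τ (latticeFloor ((n : ℝ) • v)) + muZ P τ (latticeFloor ((n : ℝ) • u)) + 2 * m1 ν := by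
    linarith
  have h7 := div_le_div_of_nonneg_right h6 (Nat.cast_nonneg n : (0 : ℝ) ≤ n)
  rw [add_div, add_div] at h7
  exact h7

theorem M7_mu_neg_le (h : IidEnvironment ν P τ) (hν : NiceLaw ν) (v : Plane) :
    mu P τ (-v) ≤ mu P τ v := by
  have hm := M7_m1_nonneg h hν
  refine M7_le_of (C := 2 * m1 ν) (tendsto_mu h hν (-v)) (tendsto_mu h hν v) ?_
  intro n
  have h1 := muZ_lip h hν (latticeFloor ((n : ℝ) • (-v))) (-latticeFloor ((n : ℝ) • v))
  have h2 := n1_floor_neg ((n : ℝ) • v)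
  rw [← smul_neg] at h2
  rw [sub_neg_eq_add, muZ_neg h hν] at h1
  have h4 := (abs_le.mp h1).2
  have h5 : m1 ν * (n1 (latticeFloor ((n : ℝ) • (-v)) + latticeFloor ((n : ℝ) • v)) : ℝ)
      ≤ m1 ν * 2 := mul_le_mul_of_nonneg_left h2 hm
  have h6 : muZ P τ (latticeFloor ((n : ℝ) • (-v))) ≤
      muZ P τ (latticeFloor ((n : ℝ) • v)) + 2 * m1 ν := by
    linarith
  have h7 := div_le_div_of_nonneg_right h6 (Nat.cast_nonneg n : (0 : ℝ) ≤ n)
  rw [add_div] at h7
  exact h7

theorem mu_neg (h : IidEnvironment ν P τ) (hν : NiceLaw ν) (v : Plane) :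
    mu P τ (-v) = mu P τ v := by
  apply le_antisymm (M7_mu_neg_le h hν v)
  have := M7_mu_neg_le h hν (-v)
  rwa [neg_neg] at this

end Claimed.Agent.R125
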