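/-
ROW 125 CONDITIONAL CHAIN, leaf M8 (group Mean).  Blueprint: Claimed/Agent/R125/Main.lean.  Definitions: Defs.lean.
Rules for the solver: keep the statements; helper names start with `M8_`; you may use every theorem of the imported
files (some still have sorry); edit only this file.

GROUP SKETCH.
Row 125 chain, file Mean: the mean passage time `g`, the time constant `muZ` in lattice directions (Fekete),
its extension `mu` to the plane, all norm properties except positivity.   (blueprint: Main.lean)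
-/
import Claimed.Agent.R125.M7

set_option autoImplicit false

open MeasureTheory ProbabilityTheory Filter Set
open scoped Topology
open Claims.C0214 Claims.C0214.PlanarFPP Claims.C0214.GammaFPP

namespace Claimed.Agent.R125

variable {Ω : Type} [MeasurableSpace Ω] {P : Measure Ω} {τ : Edge → Ω → ℝ} {ν : Measure ℝ}
variable {w : Edge → ℝ} {μ : Plane → ℝ}

/-! ### leaf M8: positive homogeneity.  `k = ⌊n a⌋₊`: `n1 (⌊n a v⌋ - ⌊k v⌋) ≤ |v 0| + |v 1| + 2`, `k / n → a`, `k → ∞`. -/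

theorem M8_m1_nonneg (h : IidEnvironment ν P τ) (hν : NiceLaw ν) : 0 ≤ m1 ν := by
  have h1 := muZ_lip h hν (1, 0) 0
  have h2 : (0:ℝ) ≤ |muZ P τ (1, 0) - muZ P τ 0| := abs_nonneg _
  have h3 : (n1 ((1, 0) - 0 : Vertex) : ℝ) = 1 := by
    simp [n1]
  rw [h3] at h1
  linarith

theorem M8_bound (h : IidEnvironment ν P τ) (hν : NiceLaw ν) {a : ℝ} (ha : 0 < a) (v : Plane) (n : ℕ) :
    |muZ P τ (latticeFloor ((n : ℝ) • (a • v))) - muZ P τ (latticeFloor (((⌊(n:ℝ) * a⌋₊ : ℕ) : ℝ) • v))|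
      ≤ m1 ν * (|v 0| + |v 1| + 2) := by
  have hm := M8_m1_nonneg h hν
  refine (muZ_lip h hν _ _).trans ?_
  refine mul_le_mul_of_nonneg_left ?_ hm
  refine (n1_floor_sub _ _).trans ?_
  have hna : 0 ≤ (n:ℝ) * a := by positivity
  have h1 : ((⌊(n:ℝ) * a⌋₊ : ℕ) : ℝ) ≤ (n:ℝ) * a := Nat.floor_le hna
  have h2 : (n:ℝ) * a < ((⌊(n:ℝ) * a⌋₊ : ℕ) : ℝ) + 1 := Nat.lt_floor_add_one _
  set k : ℝ := ((⌊(n:ℝ) * a⌋₊ : ℕ) : ℝ) with hk
  have key : ∀ i : Fin 2, |((n : ℝ) • (a • v)) i - (k • v) i| ≤ |v i| := by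
    intro i
    have : ((n : ℝ) • (a • v)) i - (k • v) i = ((n:ℝ) * a - k) * v i := by
      simp [smul_eq_mul]; ring
    rw [this, abs_mul]
    have h3 : |(n:ℝ) * a - k| ≤ 1 := by
      rw [abs_le]; constructor <;> linarith
    calc |(n:ℝ) * a - k| * |v i| ≤ 1 * |v i| := mul_le_mul_of_nonneg_right h3 (abs_nonneg _)
      _ = |v i| := one_mul _
  have k0 := key 0
  have k1 := key 1
  linarith

theorem mu_smul_pos (h : IidEnvironment ν P τ) (hν : NiceLaw ν) {a : ℝ} (ha : 0 < a) (v : Plane) :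
    mu P τ (a • v) = a * mu P τ v := by
  have h1 := tendsto_mu h hν (a • v)
  have h2 := tendsto_mu h hν v
  -- k n → ∞
  have hk : Tendsto (fun n : ℕ => ⌊(n:ℝ) * a⌋₊) atTop atTop := by
    refine tendsto_nat_floor_atTop.comp ?_
    exact Tendsto.atTop_mul_const ha tendsto_natCast_atTop_atTop
  have h3 := h2.comp hk
  -- k n / n → a
  have h4 : Tendsto (fun n : ℕ => ((⌊(n:ℝ) * a⌋₊ : ℕ) : ℝ) / n) atTop (𝓝 a) := by
    have := tendsto_nat_floor_mul_div_atTop (R := ℝ) (le_of_lt ha)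
    have h5 := this.comp tendsto_natCast_atTop_atTop
    refine h5.congr ?_
    intro n
    simp [mul_comm]
  have h6 := h3.mul h4
  -- the difference tends to zero
  have h7 : Tendsto (fun n : ℕ => (m1 ν * (|v 0| + |v 1| + 2)) / (n:ℝ)) atTop (𝓝 0) :=
    tendsto_const_div_atTop_nhds_zero_nat _
  have h8 : Tendsto (fun n : ℕ => muZ P τ (latticeFloor ((n : ℝ) • (a • v))) / n
      - (muZ P τ (latticeFloor (((⌊(n:ℝ) * a⌋₊ : ℕ) : ℝ) • v)) / ((⌊(n:ℝ) * a⌋₊ : ℕ) : ℝ))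
          * (((⌊(n:ℝ) * a⌋₊ : ℕ) : ℝ) / n)) atTop (𝓝 0) := by
    refine squeeze_zero_norm' ?_ h7
    have hev : ∀ᶠ n : ℕ in atTop, 1 ≤ ⌊(n:ℝ) * a⌋₊ := hk.eventually_ge_atTop 1
    filter_upwards [hev, eventually_ge_atTop 1] with n hn hn1
    have hkpos : (0:ℝ) < ((⌊(n:ℝ) * a⌋₊ : ℕ) : ℝ) := by exact_mod_cast hn
    have hnpos : (0:ℝ) < (n:ℝ) := by exact_mod_cast hn1
    have e : muZ P τ (latticeFloor ((n : ℝ) • (a • v))) / n
      - (muZ P τ (latticeFloor (((⌊(n:ℝ) * a⌋₊ : ℕ) : ℝ) • v)) / ((⌊(n:ℝ) * a⌋₊ : ℕ) : ℝ))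
          * (((⌊(n:ℝ) * a⌋₊ : ℕ) : ℝ) / n)
        = (muZ P τ (latticeFloor ((n : ℝ) • (a • v)))
            - muZ P τ (latticeFloor (((⌊(n:ℝ) * a⌋₊ : ℕ) : ℝ) • v))) / n := by
      field_simp
    rw [e, Real.norm_eq_abs, abs_div, abs_of_pos hnpos]
    exact div_le_div_of_nonneg_right (M8_bound h hν ha v n) hnpos.le
  have h9 := h8.add h6
  simp only [zero_add] at h9
  have h10 : Tendsto (fun n : ℕ => muZ P τ (latticeFloor ((n : ℝ) • (a • v))) / n) atTop
      (𝓝 (mu P τ v * a)) := by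
    refine h9.congr ?_
    intro n
    simp [Function.comp]
  rw [tendsto_nhds_unique h1 h10, mul_comm]

theorem mu_homogeneous (h : IidEnvironment ν P τ) (hν : NiceLaw ν) (a : ℝ) (v : Plane) :
    mu P τ (a • v) = |a| * mu P τ v := by
  rcases lt_trichotomy a 0 with ha | ha | ha
  · have h1 : a • v = -((-a) • v) := by simp
    rw [h1, mu_neg h hν, mu_smul_pos h hν (neg_pos.mpr ha), abs_of_neg ha]
  · subst ha
    simp [mu_zero h hν]
  · rw [mu_smul_pos h hν ha, abs_of_pos ha]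

end Claimed.Agent.R125
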