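/-
ROW 125 CONDITIONAL CHAIN, leaf M9 (group Mean).  Blueprint: Claimed/Agent/R125/Main.lean.  Definitions: Defs.lean.
Rules for the solver: keep the statements; helper names start with `M9_`; you may use every theorem of the imported
files (some still have sorry); edit only this file.

GROUP SKETCH.
Row 125 chain, file Mean: the mean passage time `g`, the time constant `muZ` in lattice directions (Fekete),
its extension `mu` to the plane, all norm properties except positivity.   (blueprint: Main.lean)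
-/
import Claimed.Agent.R125.M6

set_option autoImplicit false

open MeasureTheory ProbabilityTheory Filter Set
open scoped Topology
open Claims.C0214 Claims.C0214.PlanarFPP Claims.C0214.GammaFPP

namespace Claimed.Agent.R125

variable {Ω : Type} [MeasurableSpace Ω] {P : Measure Ω} {τ : Edge → Ω → ℝ} {ν : Measure ℝ}
variable {w : Edge → ℝ} {μ : Plane → ℝ}

/-! ### leaf M9: transfer of a linear lower bound -/

theorem M9_n1_nsmul (n : ℕ) (x : Vertex) : n1 (n • x) = n * n1 x := by
  unfold n1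
  have h1 : (n • x).1 = (n : ℤ) * x.1 := by simp [Prod.smul_fst]
  have h2 : (n • x).2 = (n : ℤ) * x.2 := by simp [Prod.smul_snd]
  rw [h1, h2, Int.natAbs_mul, Int.natAbs_mul, Int.natAbs_natCast]
  ring

theorem M9_muZ_lower (h : IidEnvironment ν P τ) (hν : NiceLaw ν) {ρ : ℝ}
    (hl : ∀ x : Vertex, ρ * n1 x ≤ g P τ x) (x : Vertex) : ρ * n1 x ≤ muZ P τ x := by
  refine ge_of_tendsto (tendsto_muZ h hν x) ?_
  filter_upwards [eventually_ge_atTop 1] with n hn
  have hn' : (0 : ℝ) < n := by exact_mod_cast hn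
  rw [le_div_iff₀ hn']
  have := hl (n • x)
  rw [M9_n1_nsmul] at this
  push_cast at this
  linarith

theorem mu_lower (h : IidEnvironment ν P τ) (hν : NiceLaw ν) {ρ : ℝ} (hρ : 0 ≤ ρ)
    (hl : ∀ x : Vertex, ρ * n1 x ≤ g P τ x) (v : Plane) :
    ρ * (|v 0| + |v 1|) ≤ mu P τ v := by
  have hlim : Tendsto (fun n : ℕ => ρ * (|v 0| + |v 1|) - ρ * 2 / n) atTop
      (𝓝 (ρ * (|v 0| + |v 1|) - 0)) :=
    tendsto_const_nhds.sub (tendsto_const_div_atTop_nhds_zero_nat _)
  rw [sub_zero] at hlim
  refine le_of_tendsto_of_tendsto hlim (tendsto_mu h hν v) ?_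
  filter_upwards [eventually_ge_atTop 1] with n hn
  have hn' : (0 : ℝ) < n := by exact_mod_cast hn
  have h1 := M9_muZ_lower h hν hl (latticeFloor ((n : ℝ) • v))
  have h2 := n1_floor_ge ((n : ℝ) • v)
  have e0 : ((n : ℝ) • v) 0 = n * v 0 := by simp
  have e1 : ((n : ℝ) • v) 1 = n * v 1 := by simp
  rw [e0, e1, abs_mul, abs_mul, abs_of_pos hn'] at h2
  rw [le_div_iff₀ hn']
  have h3 : ρ * (n * |v 0| + n * |v 1| - 2) ≤ ρ * n1 (latticeFloor ((n : ℝ) • v)) :=
    mul_le_mul_of_nonneg_left h2 hρ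
  have h4 : (ρ * (|v 0| + |v 1|) - ρ * 2 / n) * n = ρ * (n * |v 0| + n * |v 1| - 2) := by
    field_simp
  rw [h4]
  linarith

end Claimed.Agent.R125
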