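/-
ROW 125 CONDITIONAL CHAIN, leaf P1 (group Path).  Blueprint: Claimed/Agent/R125/Main.lean.  Definitions: Defs.lean.
Rules for the solver: keep the statements; helper names start with `P1_`; you may use every theorem of the imported
files (some still have sorry); edit only this file.

GROUP SKETCH.
Row 125 chain, file Path: DETERMINISTIC facts on paths and passage times.  (blueprint: Main.lean)
`w : Edge → ℝ` is a fixed weight configuration.  Every lemma is elementary (inductions on lists).
-/
import Claimed.Agent.R125.Defs

set_option autoImplicit false

open MeasureTheory ProbabilityTheory Filter Set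
open scoped Topology
open Claims.C0214 Claims.C0214.PlanarFPP Claims.C0214.GammaFPP

namespace Claimed.Agent.R125

variable {Ω : Type} [MeasurableSpace Ω] {P : Measure Ω} {τ : Edge → Ω → ℝ} {ν : Measure ℝ}
variable {w : Edge → ℝ} {μ : Plane → ℝ}

/-! ### leaf P1: lists -/

theorem displacement_append (a b : List Step) :
    displacement (a ++ b) = displacement a + displacement b := by
  simp only [displacement, List.map_append, List.sum_append]

theorem P1_displacement_cons (d : Step) (ds : List Step) :
    displacement (d :: ds) = d.delta + displacement ds := by
  simp only [displacement, List.map_cons, List.sum_cons]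

theorem P1_displacement_nil : displacement [] = 0 := by
  simp only [displacement, List.map_nil, List.sum_nil]

theorem pathCost_append (w : Edge → ℝ) (p : Vertex) (a b : List Step) :
    pathCost w p (a ++ b) = pathCost w p a + pathCost w (p + displacement a) b := by
  induction a generalizing p with
  | nil => simp only [List.nil_append, pathCost, P1_displacement_nil, add_zero, zero_add]
  | cons d ds ih =>
    simp only [List.cons_append, pathCost, ih, P1_displacement_cons, add_assoc]

theorem pathCost_nonneg (hw : NN w) (p : Vertex) (ds : List Step) : 0 ≤ pathCost w p ds := by
  induction ds generalizing p with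
  | nil => simp only [pathCost, le_refl]
  | cons d ds ih =>
    simp only [pathCost]
    exact add_nonneg (hw _) (ih _)

theorem pathCost_eq_sum_edges (w : Edge → ℝ) (p : Vertex) (ds : List Step) :
    pathCost w p ds = ((edgesOf p ds).map w).sum := by
  induction ds generalizing p with
  | nil => simp only [pathCost, edgesOf, List.map_nil, List.sum_nil]
  | cons d ds ih =>
    simp only [pathCost, edgesOf, List.map_cons, List.sum_cons, ih]

theorem P1_n1_displacement_le (ds : List Step) : n1 (displacement ds) ≤ ds.length := by
  induction ds with
  | nil => simp [P1_displacement_nil, n1]
  | cons d ds ih =>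
    rw [P1_displacement_cons, List.length_cons]
    simp only [n1] at ih ⊢
    cases d <;> simp only [Step.delta, Prod.fst_add, Prod.snd_add] <;> omega

/-- every step changes the l¹ norm by at most one -/
theorem n1_le_length (p q : Vertex) (ds : List Step) (h : p + displacement ds = q) :
    n1 (q - p) ≤ ds.length := by
  have : q - p = displacement ds := by rw [← h]; abel
  rw [this]
  exact P1_n1_displacement_le ds

theorem pathCost_take_le (hw : NN w) (p : Vertex) (ds : List Step) (n : ℕ) :
    pathCost w p (ds.take n) ≤ pathCost w p ds := by
  conv_rhs => rw [← List.take_append_drop n ds, pathCost_append]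
  have := pathCost_nonneg hw (p + displacement (ds.take n)) (ds.drop n)
  linarith

end Claimed.Agent.R125
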