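/-
ROW 125 CONDITIONAL CHAIN, leaf P10 (group Path).  Blueprint: Claimed/Agent/R125/Main.lean.  Definitions: Defs.lean.
Rules for the solver: keep the statements; helper names start with `P10_`; you may use every theorem of the imported
files (some still have sorry); edit only this file.

GROUP SKETCH.
Row 125 chain, file Path: DETERMINISTIC facts on paths and passage times.  (blueprint: Main.lean)
`w : Edge → ℝ` is a fixed weight configuration.  Every lemma is elementary (inductions on lists).
-/
import Claimed.Agent.R125.P1

set_option autoImplicit false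

open MeasureTheory ProbabilityTheory Filter Set
open scoped Topology
open Claims.C0214 Claims.C0214.PlanarFPP Claims.C0214.GammaFPP

namespace Claimed.Agent.R125

variable {Ω : Type} [MeasurableSpace Ω] {P : Measure Ω} {τ : Edge → Ω → ℝ} {ν : Measure ℝ}
variable {w : Edge → ℝ} {μ : Plane → ℝ}

/-! ### leaf P10: a vertex-simple path is edge-simple; prefixes of simple paths are simple -/

theorem P10_self_mem (p : Vertex) (ds : List Step) : p ∈ vertsOf p ds := by
  cases ds <;> simp [vertsOf]

/-- the other endpoint of an edge -/
def P10_other (e : Edge) : Vertex := e.1 + (if e.2 then ((0, 1) : Vertex) else ((1, 0) : Vertex))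

theorem P10_ends (p : Vertex) (d : Step) :
    ((d.edge p).1 = p ∧ P10_other (d.edge p) = p + d.delta) ∨
      ((d.edge p).1 = p + d.delta ∧ P10_other (d.edge p) = p) := by
  obtain ⟨a, b⟩ := p
  cases d
  · left; simp [Step.edge, Step.delta, P10_other]
  · right; simp [Step.edge, Step.delta, P10_other]
  · left; simp [Step.edge, Step.delta, P10_other]
  · right; simp [Step.edge, Step.delta, P10_other]

theorem P10_mem_ends (q : Vertex) (ds : List Step) (e : Edge) (he : e ∈ edgesOf q ds) :
    e.1 ∈ vertsOf q ds ∧ P10_other e ∈ vertsOf q ds := by
  induction ds generalizing q with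
  | nil => simp [edgesOf] at he
  | cons d ds ih =>
    simp only [edgesOf, List.mem_cons] at he
    simp only [vertsOf, List.mem_cons]
    rcases he with rfl | he
    · rcases P10_ends q d with ⟨h1, h2⟩ | ⟨h1, h2⟩
      · rw [h1, h2]
        exact ⟨Or.inl rfl, Or.inr (P10_self_mem _ _)⟩
      · rw [h1, h2]
        exact ⟨Or.inr (P10_self_mem _ _), Or.inl rfl⟩
    · exact ⟨Or.inr (ih _ he).1, Or.inr (ih _ he).2⟩

theorem edges_nodup_of_verts_nodup (p : Vertex) (ds : List Step) (h : (vertsOf p ds).Nodup) :
    (edgesOf p ds).Nodup := by
  induction ds generalizing p with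
  | nil => simp [edgesOf]
  | cons d ds ih =>
    simp only [vertsOf, List.nodup_cons] at h
    simp only [edgesOf, List.nodup_cons]
    refine ⟨?_, ih _ h.2⟩
    intro hmem
    have := P10_mem_ends _ _ _ hmem
    rcases P10_ends p d with ⟨h1, _⟩ | ⟨_, h2⟩
    · have t1 := this.1
      rw [h1] at t1
      exact h.1 t1
    · have t2 := this.2
      rw [h2] at t2
      exact h.1 t2

theorem verts_nodup_take (p : Vertex) (ds : List Step) (n : ℕ) (h : (vertsOf p ds).Nodup) :
    (vertsOf p (ds.take n)).Nodup := by
  have hsub : ∀ (p : Vertex) (ds : List Step) (n : ℕ), (vertsOf p (ds.take n)).Sublist (vertsOf p ds) := by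
    intro p ds
    induction ds generalizing p with
    | nil => intro n; simp
    | cons d ds ih =>
      intro n
      cases n with
      | zero =>
        simp only [List.take_zero, vertsOf]
        exact List.Sublist.cons_cons _ (List.nil_sublist _)
      | succ n =>
        simp only [List.take_succ_cons, vertsOf]
        exact List.Sublist.cons_cons _ (ih _ n)
  exact (hsub p ds n).nodup h

theorem length_edgesOf (p : Vertex) (ds : List Step) : (edgesOf p ds).length = ds.length := by
  induction ds generalizing p with
  | nil => simp [edgesOf]
  | cons d ds ih => simp [edgesOf, ih]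

end Claimed.Agent.R125
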