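/-
ROW 125 CONDITIONAL CHAIN, leaf P2 (group Path).  Blueprint: Claimed/Agent/R125/Main.lean.  Definitions: Defs.lean.
Rules for the solver: keep the statements; helper names start with `P2_`; you may use every theorem of the imported
files (some still have sorry); edit only this file.

GROUP SKETCH.
Row 125 chain, file Path: DETERMINISTIC facts on paths and passage times.  (blueprint: Main.lean)
`w : Edge → ℝ` is a fixed weight configuration.  Every lemma is elementary (inductions on lists).
-/
import Claimed.Agent.R125.P1

set_option autoImplicit false

open MeasureTheory ProbabilityTheory Filter Set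
open scoped Topology
open Claims.C0214 Claims.C0214.PlanarFPP Claims.C0214.GammaFPP

namespace Claimed.Agent.R125

variable {Ω : Type} [MeasurableSpace Ω] {P : Measure Ω} {τ : Edge → Ω → ℝ} {ν : Measure ℝ}
variable {w : Edge → ℝ} {μ : Plane → ℝ}

/-! ### leaf P2: the L-shaped path.
Induction on `(a - p.1).natAbs` (east or west steps), resp. north / south steps. -/

theorem P2_sum_Ico (f : ℤ → ℝ) (a : ℤ) (n : ℕ) :
    ∑ i ∈ Finset.Ico a (a + n), f i = ∑ k ∈ Finset.range n, f (a + k) := by
  refine Finset.sum_bij' (fun i _ => (i - a).toNat) (fun k _ => a + (k : ℤ)) ?_ ?_ ?_ ?_ ?_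
  · intro i hi
    rw [Finset.mem_Ico] at hi
    rw [Finset.mem_range]
    omega
  · intro k hk
    rw [Finset.mem_range] at hk
    rw [Finset.mem_Ico]
    omega
  · intro i hi
    rw [Finset.mem_Ico] at hi
    show a + ((i - a).toNat : ℤ) = i
    omega
  · intro k hk
    show (a + (k : ℤ) - a).toNat = k
    omega
  · intro i hi
    rw [Finset.mem_Ico] at hi
    have : a + ((i - a).toNat : ℤ) = i := by omega
    rw [this]

theorem P2_east (n : ℕ) : ∀ p : Vertex,
    p + displacement (List.replicate n Step.east) = (p.1 + n, p.2) ∧
    ∀ w : Edge → ℝ, pathCost w p (List.replicate n Step.east) =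
      ∑ k ∈ Finset.range n, w (((p.1 + k, p.2) : Vertex), false) := by
  induction n with
  | zero =>
    intro p
    refine ⟨?_, fun w => ?_⟩
    · simp [displacement]
    · simp [pathCost]
  | succ n ih =>
    intro p
    obtain ⟨h1, h2⟩ := ih (p + Step.east.delta)
    refine ⟨?_, fun w => ?_⟩
    · have e : p + displacement (List.replicate (n + 1) Step.east) =
          (p + Step.east.delta) + displacement (List.replicate n Step.east) := by
        simp [displacement, List.replicate_succ, add_assoc]
      rw [e, h1]
      ext
      · simp [Step.delta]; ring
      · simp [Step.delta]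
    · rw [List.replicate_succ]
      show w (Step.east.edge p) + pathCost w (p + Step.east.delta) (List.replicate n Step.east) = _
      rw [h2 w, Finset.sum_range_succ']
      rw [add_comm]
      congr 1
      · refine Finset.sum_congr rfl fun k _ => ?_
        congr 2
        ext
        · simp [Step.delta]; ring
        · simp [Step.delta]
      · simp [Step.edge]

theorem P2_west (n : ℕ) : ∀ p : Vertex,
    p + displacement (List.replicate n Step.west) = (p.1 - n, p.2) ∧
    ∀ w : Edge → ℝ, pathCost w p (List.replicate n Step.west) =
      ∑ k ∈ Finset.range n, w (((p.1 - n + k, p.2) : Vertex), false) := by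
  induction n with
  | zero =>
    intro p
    refine ⟨?_, fun w => ?_⟩
    · simp [displacement]
    · simp [pathCost]
  | succ n ih =>
    intro p
    obtain ⟨h1, h2⟩ := ih (p + Step.west.delta)
    refine ⟨?_, fun w => ?_⟩
    · have e : p + displacement (List.replicate (n + 1) Step.west) =
          (p + Step.west.delta) + displacement (List.replicate n Step.west) := by
        simp [displacement, List.replicate_succ, add_assoc]
      rw [e, h1]
      ext
      · simp [Step.delta]; ring
      · simp [Step.delta]
    · rw [List.replicate_succ]
      show w (Step.west.edge p) + pathCost w (p + Step.west.delta) (List.replicate n Step.west) = _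
      rw [h2 w, Finset.sum_range_succ]
      rw [add_comm]
      congr 1
      · refine Finset.sum_congr rfl fun k _ => ?_
        congr 2
        ext
        · simp [Step.delta]; ring
        · simp [Step.delta]
      · have e3 : Step.west.edge p = (((p.1 - ((n + 1 : ℕ) : ℤ) + n, p.2) : Vertex), false) := by
          show ((p + (-1, 0) : Vertex), false) = _
          congr 1
          ext
          · simp; ring
          · simp
        rw [e3]

theorem P2_north (n : ℕ) : ∀ p : Vertex,
    p + displacement (List.replicate n Step.north) = (p.1, p.2 + n) ∧
    ∀ w : Edge → ℝ, pathCost w p (List.replicate n Step.north) =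
      ∑ k ∈ Finset.range n, w (((p.1, p.2 + k) : Vertex), true) := by
  induction n with
  | zero =>
    intro p
    refine ⟨?_, fun w => ?_⟩
    · simp [displacement]
    · simp [pathCost]
  | succ n ih =>
    intro p
    obtain ⟨h1, h2⟩ := ih (p + Step.north.delta)
    refine ⟨?_, fun w => ?_⟩
    · have e : p + displacement (List.replicate (n + 1) Step.north) =
          (p + Step.north.delta) + displacement (List.replicate n Step.north) := by
        simp [displacement, List.replicate_succ, add_assoc]
      rw [e, h1]
      ext
      · simp [Step.delta]
      · simp [Step.delta]; ring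
    · rw [List.replicate_succ]
      show w (Step.north.edge p) + pathCost w (p + Step.north.delta) (List.replicate n Step.north) = _
      rw [h2 w, Finset.sum_range_succ']
      rw [add_comm]
      congr 1
      · refine Finset.sum_congr rfl fun k _ => ?_
        congr 2
        ext
        · simp [Step.delta]
        · simp [Step.delta]; ring
      · simp [Step.edge]

theorem P2_south (n : ℕ) : ∀ p : Vertex,
    p + displacement (List.replicate n Step.south) = (p.1, p.2 - n) ∧
    ∀ w : Edge → ℝ, pathCost w p (List.replicate n Step.south) =
      ∑ k ∈ Finset.range n, w (((p.1, p.2 - n + k) : Vertex), true) := by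
  induction n with
  | zero =>
    intro p
    refine ⟨?_, fun w => ?_⟩
    · simp [displacement]
    · simp [pathCost]
  | succ n ih =>
    intro p
    obtain ⟨h1, h2⟩ := ih (p + Step.south.delta)
    refine ⟨?_, fun w => ?_⟩
    · have e : p + displacement (List.replicate (n + 1) Step.south) =
          (p + Step.south.delta) + displacement (List.replicate n Step.south) := by
        simp [displacement, List.replicate_succ, add_assoc]
      rw [e, h1]
      ext
      · simp [Step.delta]
      · simp [Step.delta]; ring
    · rw [List.replicate_succ]
      show w (Step.south.edge p) + pathCost w (p + Step.south.delta) (List.replicate n Step.south) = _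
      rw [h2 w, Finset.sum_range_succ]
      rw [add_comm]
      congr 1
      · refine Finset.sum_congr rfl fun k _ => ?_
        congr 2
        ext
        · simp [Step.delta]
        · simp [Step.delta]; ring
      · have e3 : Step.south.edge p = (((p.1, p.2 - ((n + 1 : ℕ) : ℤ) + n) : Vertex), true) := by
          show ((p + (0, -1) : Vertex), true) = _
          congr 1
          ext
          · simp
          · simp; ring
        rw [e3]

theorem exists_hpath (p : Vertex) (a : ℤ) : ∃ ds : List Step, ds.length = (a - p.1).natAbs ∧
    p + displacement ds = (a, p.2) ∧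
    ∀ w : Edge → ℝ, pathCost w p ds =
      ∑ i ∈ Finset.Ico (min p.1 a) (max p.1 a), w (((i, p.2) : Vertex), false) := by
  rcases le_total p.1 a with h | h
  · obtain ⟨h1, h2⟩ := P2_east (a - p.1).natAbs p
    have e : p.1 + ((a - p.1).natAbs : ℤ) = a := by omega
    refine ⟨List.replicate (a - p.1).natAbs Step.east, List.length_replicate, ?_, fun w => ?_⟩
    · rw [h1, e]
    · rw [h2 w, min_eq_left h, max_eq_right h]
      have := P2_sum_Ico (fun i => w (((i, p.2) : Vertex), false)) p.1 (a - p.1).natAbs
      rw [e] at this
      exact this.symm
  · obtain ⟨h1, h2⟩ := P2_west (a - p.1).natAbs p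
    have e : p.1 - ((a - p.1).natAbs : ℤ) = a := by omega
    have e' : a + ((a - p.1).natAbs : ℤ) = p.1 := by omega
    refine ⟨List.replicate (a - p.1).natAbs Step.west, List.length_replicate, ?_, fun w => ?_⟩
    · rw [h1, e]
    · rw [h2 w, min_eq_right h, max_eq_left h, e]
      have := P2_sum_Ico (fun i => w (((i, p.2) : Vertex), false)) a (a - p.1).natAbs
      rw [e'] at this
      exact this.symm

theorem exists_vpath (p : Vertex) (b : ℤ) : ∃ ds : List Step, ds.length = (b - p.2).natAbs ∧
    p + displacement ds = (p.1, b) ∧
    ∀ w : Edge → ℝ, pathCost w p ds =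
      ∑ j ∈ Finset.Ico (min p.2 b) (max p.2 b), w (((p.1, j) : Vertex), true) := by
  rcases le_total p.2 b with h | h
  · obtain ⟨h1, h2⟩ := P2_north (b - p.2).natAbs p
    have e : p.2 + ((b - p.2).natAbs : ℤ) = b := by omega
    refine ⟨List.replicate (b - p.2).natAbs Step.north, List.length_replicate, ?_, fun w => ?_⟩
    · rw [h1, e]
    · rw [h2 w, min_eq_left h, max_eq_right h]
      have := P2_sum_Ico (fun j => w (((p.1, j) : Vertex), true)) p.2 (b - p.2).natAbs
      rw [e] at this
      exact this.symm
  · obtain ⟨h1, h2⟩ := P2_south (b - p.2).natAbs p
    have e : p.2 - ((b - p.2).natAbs : ℤ) = b := by omega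
    have e' : b + ((b - p.2).natAbs : ℤ) = p.2 := by omega
    refine ⟨List.replicate (b - p.2).natAbs Step.south, List.length_replicate, ?_, fun w => ?_⟩
    · rw [h1, e]
    · rw [h2 w, min_eq_right h, max_eq_left h, e]
      have := P2_sum_Ico (fun j => w (((p.1, j) : Vertex), true)) b (b - p.2).natAbs
      rw [e'] at this
      exact this.symm

end Claimed.Agent.R125
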