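/-
ROW 125 CONDITIONAL CHAIN, leaf P3 (group Path).  Blueprint: Claimed/Agent/R125/Main.lean.  Definitions: Defs.lean.
Rules for the solver: keep the statements; helper names start with `P3_`; you may use every theorem of the imported
files (some still have sorry); edit only this file.

GROUP SKETCH.
Row 125 chain, file Path: DETERMINISTIC facts on paths and passage times.  (blueprint: Main.lean)
`w : Edge → ℝ` is a fixed weight configuration.  Every lemma is elementary (inductions on lists).
-/
import Claimed.Agent.R125.P2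

set_option autoImplicit false

open MeasureTheory ProbabilityTheory Filter Set
open scoped Topology
open Claims.C0214 Claims.C0214.PlanarFPP Claims.C0214.GammaFPP

namespace Claimed.Agent.R125

variable {Ω : Type} [MeasurableSpace Ω] {P : Measure Ω} {τ : Edge → Ω → ℝ} {ν : Measure ℝ}
variable {w : Edge → ℝ} {μ : Plane → ℝ}

/-! ### leaf P3 (uses P1, P2) -/

theorem P3_disjoint (p q : Vertex) : Disjoint
    ((Finset.Ico (min p.1 q.1) (max p.1 q.1)).image (fun i : ℤ => ((((i, p.2) : Vertex), false) : Edge)))
    ((Finset.Ico (min p.2 q.2) (max p.2 q.2)).image (fun j : ℤ => ((((q.1, j) : Vertex), true) : Edge))) := by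
  rw [Finset.disjoint_left]
  intro e h1 h2
  obtain ⟨i, _, rfl⟩ := Finset.mem_image.1 h1
  obtain ⟨j, _, hj⟩ := Finset.mem_image.1 h2
  have := congrArg Prod.snd hj
  simp at this

theorem P3_inj1 (c : ℤ) : Function.Injective (fun i : ℤ => ((((i, c) : Vertex), false) : Edge)) := by
  intro i j h
  exact congrArg (fun e : Edge => e.1.1) h

theorem P3_inj2 (c : ℤ) : Function.Injective (fun j : ℤ => ((((c, j) : Vertex), true) : Edge)) := by
  intro i j h
  exact congrArg (fun e : Edge => e.1.2) h

theorem exists_Lpath (p q : Vertex) : ∃ ds : List Step, ds.length = n1 (q - p) ∧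
    p + displacement ds = q ∧ ∀ w : Edge → ℝ, pathCost w p ds = ∑ e ∈ LE p q, w e := by
  obtain ⟨ds1, hl1, hd1, hc1⟩ := exists_hpath p q.1
  obtain ⟨ds2, hl2, hd2, hc2⟩ := exists_vpath ((q.1, p.2) : Vertex) q.2
  refine ⟨ds1 ++ ds2, ?_, ?_, ?_⟩
  · rw [List.length_append, hl1, hl2]
    rfl
  · rw [displacement_append, ← add_assoc, hd1, hd2]
  · intro w
    rw [pathCost_append, hd1, hc1 w, hc2 w]
    show _ = ∑ e ∈ _ ∪ _, w e
    rw [Finset.sum_union (P3_disjoint p q), Finset.sum_image (fun a _ b _ h => P3_inj1 p.2 h),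
      Finset.sum_image (fun a _ b _ h => P3_inj2 q.1 h)]

theorem card_LE (p q : Vertex) : (LE p q).card = n1 (q - p) := by
  show (_ ∪ _ : Finset Edge).card = _
  rw [Finset.card_union_of_disjoint (P3_disjoint p q), Finset.card_image_of_injective _ (P3_inj1 p.2),
    Finset.card_image_of_injective _ (P3_inj2 q.1), Int.card_Ico, Int.card_Ico]
  show _ = (q.1 - p.1).natAbs + (q.2 - p.2).natAbs
  have h1 : (max p.1 q.1 - min p.1 q.1).toNat = (q.1 - p.1).natAbs := by
    rcases le_total p.1 q.1 with h | h
    · rw [max_eq_right h, min_eq_left h]; omega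
    · rw [max_eq_left h, min_eq_right h]; omega
  have h2 : (max p.2 q.2 - min p.2 q.2).toNat = (q.2 - p.2).natAbs := by
    rcases le_total p.2 q.2 with h | h
    · rw [max_eq_right h, min_eq_left h]; omega
    · rw [max_eq_left h, min_eq_right h]; omega
  rw [h1, h2]

end Claimed.Agent.R125
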