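/-
ROW 125 CONDITIONAL CHAIN, leaf P4 (group Path).  Blueprint: Claimed/Agent/R125/Main.lean.  Definitions: Defs.lean.
Rules for the solver: keep the statements; helper names start with `P4_`; you may use every theorem of the imported
files (some still have sorry); edit only this file.

GROUP SKETCH.
Row 125 chain, file Path: DETERMINISTIC facts on paths and passage times.  (blueprint: Main.lean)
`w : Edge → ℝ` is a fixed weight configuration.  Every lemma is elementary (inductions on lists).
-/
import Claimed.Agent.R125.P3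

set_option autoImplicit false

open MeasureTheory ProbabilityTheory Filter Set
open scoped Topology
open Claims.C0214 Claims.C0214.PlanarFPP Claims.C0214.GammaFPP

namespace Claimed.Agent.R125

variable {Ω : Type} [MeasurableSpace Ω] {P : Measure Ω} {τ : Edge → Ω → ℝ} {ν : Measure ℝ}
variable {w : Edge → ℝ} {μ : Plane → ℝ}

/-! ### leaf P4: basic properties of `T` (sInf of a nonempty set, bounded below by 0) -/

theorem P4_bddBelow (hw : NN w) (p q : Vertex) :
    BddBelow {t | ∃ ds : List Step, p + displacement ds = q ∧ pathCost w p ds = t} := by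
  refine ⟨0, ?_⟩
  rintro t ⟨ds, _, rfl⟩
  exact pathCost_nonneg hw p ds

theorem P4_nonempty (w : Edge → ℝ) (p q : Vertex) :
    {t | ∃ ds : List Step, p + displacement ds = q ∧ pathCost w p ds = t}.Nonempty := by
  obtain ⟨ds, _, h, _⟩ := exists_Lpath p q
  exact ⟨pathCost w p ds, ds, h, rfl⟩

theorem T_nonneg (hw : NN w) (p q : Vertex) : 0 ≤ T w p q := by
  refine le_csInf (P4_nonempty w p q) ?_
  rintro t ⟨ds, _, rfl⟩
  exact pathCost_nonneg hw p ds

theorem T_le_cost (hw : NN w) {p q : Vertex} {ds : List Step} (h : p + displacement ds = q) :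
    T w p q ≤ pathCost w p ds :=
  csInf_le (P4_bddBelow hw p q) ⟨ds, h, rfl⟩

theorem T_self (hw : NN w) (p : Vertex) : T w p p = 0 := by
  refine le_antisymm ?_ (T_nonneg hw p p)
  have h : p + displacement ([] : List Step) = p := by simp [displacement]
  have h2 := T_le_cost hw h
  simpa [pathCost] using h2

theorem exists_cost_lt {p q : Vertex} {a : ℝ} (h : T w p q < a) :
    ∃ ds : List Step, p + displacement ds = q ∧ pathCost w p ds < a := by
  obtain ⟨t, ⟨ds, h1, rfl⟩, h2⟩ := exists_lt_of_csInf_lt (P4_nonempty w p q) h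
  exact ⟨ds, h1, h2⟩

theorem T_triangle (hw : NN w) (p q r : Vertex) : T w p r ≤ T w p q + T w q r := by
  refine le_of_forall_pos_le_add (fun ε hε => ?_)
  obtain ⟨d1, h1, c1⟩ := exists_cost_lt (w := w) (p := p) (q := q) (a := T w p q + ε / 2)
    (by linarith)
  obtain ⟨d2, h2, c2⟩ := exists_cost_lt (w := w) (p := q) (q := r) (a := T w q r + ε / 2)
    (by linarith)
  have h3 : p + displacement (d1 ++ d2) = r := by
    rw [displacement_append, ← add_assoc, h1, h2]
  have h4 := T_le_cost hw h3
  rw [pathCost_append, h1] at h4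
  linarith

theorem T_le_sum_LE (hw : NN w) (p q : Vertex) : T w p q ≤ ∑ e ∈ LE p q, w e := by
  obtain ⟨ds, _, h, hc⟩ := exists_Lpath p q
  rw [← hc w]
  exact T_le_cost hw h

end Claimed.Agent.R125
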