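/-
ROW 125 CONDITIONAL CHAIN, leaf P5 (group Path).  Blueprint: Claimed/Agent/R125/Main.lean.  Definitions: Defs.lean.
Rules for the solver: keep the statements; helper names start with `P5_`; you may use every theorem of the imported
files (some still have sorry); edit only this file.

GROUP SKETCH.
Row 125 chain, file Path: DETERMINISTIC facts on paths and passage times.  (blueprint: Main.lean)
`w : Edge → ℝ` is a fixed weight configuration.  Every lemma is elementary (inductions on lists).
-/
import Claimed.Agent.R125.P1

set_option autoImplicit false

open MeasureTheory ProbabilityTheory Filter Set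
open scoped Topology
open Claims.C0214 Claims.C0214.PlanarFPP Claims.C0214.GammaFPP

namespace Claimed.Agent.R125

variable {Ω : Type} [MeasurableSpace Ω] {P : Measure Ω} {τ : Edge → Ω → ℝ} {ν : Measure ℝ}
variable {w : Edge → ℝ} {μ : Plane → ℝ}

/-! ### leaf P5: symmetry (reverse the list and flip every step: same multiset of edges) -/

/-- opposite step -/
def P5_flip : Step → Step
  | .east => .west
  | .west => .east
  | .north => .south
  | .south => .north

/-- reversed path -/
def P5_rev (ds : List Step) : List Step := (ds.map P5_flip).reverse

theorem P5_rev_cons (d : Step) (ds : List Step) : P5_rev (d :: ds) = P5_rev ds ++ [P5_flip d] := by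
  simp [P5_rev]

theorem P5_flip_delta (d : Step) : (P5_flip d).delta = - d.delta := by
  cases d <;> simp [P5_flip, Step.delta]

theorem P5_flip_edge (p : Vertex) (d : Step) : (P5_flip d).edge (p + d.delta) = d.edge p := by
  cases d <;> simp [P5_flip, Step.delta, Step.edge, add_assoc]

theorem P5_displacement_cons (d : Step) (ds : List Step) :
    displacement (d :: ds) = d.delta + displacement ds := by
  simp [displacement]

theorem P5_displacement_rev (ds : List Step) : displacement (P5_rev ds) = - displacement ds := by
  induction ds with
  | nil => simp [P5_rev, displacement]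
  | cons d ds ih =>
    rw [P5_rev_cons, displacement_append, ih, P5_displacement_cons, P5_displacement_cons,
      P5_flip_delta]
    simp [displacement]

theorem P5_pathCost_rev (w : Edge → ℝ) (ds : List Step) : ∀ p : Vertex,
    pathCost w (p + displacement ds) (P5_rev ds) = pathCost w p ds := by
  induction ds with
  | nil => intro p; simp [P5_rev, pathCost]
  | cons d ds ih =>
    intro p
    rw [P5_rev_cons, pathCost_append, P5_displacement_cons, P5_displacement_rev]
    have h1 : p + (d.delta + displacement ds) = (p + d.delta) + displacement ds := by abel
    have h2 : p + d.delta + displacement ds + -displacement ds = p + d.delta := by abel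
    rw [h1, ih (p + d.delta), h2]
    simp only [pathCost, P5_flip_edge]
    ring

theorem P5_subset (w : Edge → ℝ) (p q : Vertex) :
    {t | ∃ ds : List Step, p + displacement ds = q ∧ pathCost w p ds = t} ⊆
    {t | ∃ ds : List Step, q + displacement ds = p ∧ pathCost w q ds = t} := by
  rintro t ⟨ds, h1, h2⟩
  refine ⟨P5_rev ds, ?_, ?_⟩
  · rw [P5_displacement_rev, ← h1]; abel
  · rw [← h1, P5_pathCost_rev, h2]

theorem T_symm (w : Edge → ℝ) (p q : Vertex) : T w p q = T w q p := by
  unfold T passageTime
  rw [Set.Subset.antisymm (P5_subset w p q) (P5_subset w q p)]

end Claimed.Agent.R125
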