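/-
ROW 125 CONDITIONAL CHAIN, leaf P6 (group Path).  Blueprint: Claimed/Agent/R125/Main.lean.  Definitions: Defs.lean.
Rules for the solver: keep the statements; helper names start with `P6_`; you may use every theorem of the imported
files (some still have sorry); edit only this file.

GROUP SKETCH.
Row 125 chain, file Path: DETERMINISTIC facts on paths and passage times.  (blueprint: Main.lean)
`w : Edge → ℝ` is a fixed weight configuration.  Every lemma is elementary (inductions on lists).
-/
import Claimed.Agent.R125.P1

set_option autoImplicit false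

open MeasureTheory ProbabilityTheory Filter Set
open scoped Topology
open Claims.C0214 Claims.C0214.PlanarFPP Claims.C0214.GammaFPP

namespace Claimed.Agent.R125

variable {Ω : Type} [MeasurableSpace Ω] {P : Measure Ω} {τ : Edge → Ω → ℝ} {ν : Measure ℝ}
variable {w : Edge → ℝ} {μ : Plane → ℝ}

/-! ### leaf P6: translation -/

theorem P6_edge_shift (z p : Vertex) (d : Step) :
    ((d.edge p).1 + z, (d.edge p).2) = d.edge (p + z) := by
  cases d <;> simp only [Step.edge, Prod.mk.injEq, and_true] <;> abel

theorem pathCost_shiftW (w : Edge → ℝ) (z p : Vertex) (ds : List Step) :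
    pathCost (shiftW z w) p ds = pathCost w (p + z) ds := by
  induction ds generalizing p with
  | nil => simp only [pathCost]
  | cons d ds ih =>
    simp only [pathCost, ih]
    have h1 : shiftW z w (d.edge p) = w (d.edge (p + z)) := by
      simp only [shiftW, P6_edge_shift]
    have h2 : p + d.delta + z = p + z + d.delta := by abel
    rw [h1, h2]

theorem P6_endpoint_shift (z p q : Vertex) (ds : List Step) :
    p + displacement ds = q ↔ p + z + displacement ds = q + z := by
  constructor
  · intro h
    rw [← h]; abel
  · intro h
    have h' : p + displacement ds + z = q + z := by rw [← h]; abel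
    exact add_right_cancel h'

theorem T_shiftW (w : Edge → ℝ) (z p q : Vertex) : T (shiftW z w) p q = T w (p + z) (q + z) := by
  simp only [T, passageTime, pathCost_shiftW]
  congr 1
  ext t
  simp only [Set.mem_setOf_eq]
  constructor
  · rintro ⟨ds, h1, h2⟩
    exact ⟨ds, (P6_endpoint_shift z p q ds).mp h1, h2⟩
  · rintro ⟨ds, h1, h2⟩
    exact ⟨ds, (P6_endpoint_shift z p q ds).mpr h1, h2⟩

theorem TR_shiftW (w : Edge → ℝ) (z : Vertex) (R : ℕ) (p q : Vertex) :
    TR (shiftW z w) R p q = TR w R (p + z) (q + z) := by
  simp only [TR, pathCost_shiftW]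
  congr 1
  ext t
  simp only [Set.mem_setOf_eq]
  constructor
  · rintro ⟨ds, h0, h1, h2⟩
    exact ⟨ds, h0, (P6_endpoint_shift z p q ds).mp h1, h2⟩
  · rintro ⟨ds, h0, h1, h2⟩
    exact ⟨ds, h0, (P6_endpoint_shift z p q ds).mpr h1, h2⟩

theorem NN_shiftW (hw : NN w) (z : Vertex) : NN (shiftW z w) := fun e => hw _

end Claimed.Agent.R125
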