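/-
ROW 125 CONDITIONAL CHAIN, leaf P7 (group Path).  Blueprint: Claimed/Agent/R125/Main.lean.  Definitions: Defs.lean.
Rules for the solver: keep the statements; helper names start with `P7_`; you may use every theorem of the imported
files (some still have sorry); edit only this file.

GROUP SKETCH.
Row 125 chain, file Path: DETERMINISTIC facts on paths and passage times.  (blueprint: Main.lean)
`w : Edge → ℝ` is a fixed weight configuration.  Every lemma is elementary (inductions on lists).
-/
import Claimed.Agent.R125.P4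

set_option autoImplicit false

open MeasureTheory ProbabilityTheory Filter Set
open scoped Topology
open Claims.C0214 Claims.C0214.PlanarFPP Claims.C0214.GammaFPP

namespace Claimed.Agent.R125

variable {Ω : Type} [MeasurableSpace Ω] {P : Measure Ω} {τ : Edge → Ω → ℝ} {ν : Measure ℝ}
variable {w : Edge → ℝ} {μ : Plane → ℝ}

/-! ### leaf P7: the restricted passage time -/

theorem TR_nonneg (hw : NN w) (R : ℕ) (p q : Vertex) : 0 ≤ TR w R p q := by
  unfold TR
  refine Real.sInf_nonneg ?_
  rintro t ⟨ds, _, _, rfl⟩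
  exact pathCost_nonneg hw p ds

theorem P7_bdd (hw : NN w) (R : ℕ) (p q : Vertex) :
    BddBelow {t | ∃ ds : List Step, ds.length ≤ R ∧ p + displacement ds = q ∧
      pathCost w p ds = t} := by
  refine ⟨0, ?_⟩
  rintro t ⟨ds, _, _, rfl⟩
  exact pathCost_nonneg hw p ds

theorem P7_TR_le_cost (hw : NN w) {R : ℕ} {p q : Vertex} {ds : List Step} (hl : ds.length ≤ R)
    (h : p + displacement ds = q) : TR w R p q ≤ pathCost w p ds := by
  unfold TR
  exact csInf_le (P7_bdd hw R p q) ⟨ds, hl, h, rfl⟩

theorem T_le_TR (hw : NN w) {R : ℕ} {p q : Vertex} (hR : n1 (q - p) ≤ R) :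
    T w p q ≤ TR w R p q := by
  unfold TR
  obtain ⟨ds, hl, hd, _⟩ := exists_Lpath p q
  refine le_csInf ⟨_, ds, hl.le.trans hR, hd, rfl⟩ ?_
  rintro t ⟨ds', _, hd', rfl⟩
  exact T_le_cost hw hd'

theorem TR_le_sum_LE (hw : NN w) {R : ℕ} {p q : Vertex} (hR : n1 (q - p) ≤ R) :
    TR w R p q ≤ ∑ e ∈ LE p q, w e := by
  obtain ⟨ds, hl, hd, hc⟩ := exists_Lpath p q
  rw [← hc w]
  exact P7_TR_le_cost hw (hl.le.trans hR) hd

/-- for `a > T` some path has cost `< a`; for `R ≥` its length `T ≤ TR ≤ cost < a` -/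
theorem TR_tendsto (hw : NN w) (p q : Vertex) :
    Tendsto (fun R : ℕ => TR w R p q) atTop (𝓝 (T w p q)) := by
  refine tendsto_order.2 ⟨fun a ha => ?_, fun a ha => ?_⟩
  · filter_upwards [eventually_ge_atTop (n1 (q - p))] with R hR
    exact ha.trans_le (T_le_TR hw hR)
  · obtain ⟨ds, hd, hc⟩ := exists_cost_lt ha
    filter_upwards [eventually_ge_atTop ds.length] with R hR
    exact (P7_TR_le_cost hw hR hd).trans_lt hc

end Claimed.Agent.R125
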