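/-
ROW 125 CONDITIONAL CHAIN, leaf P8 (group Path).  Blueprint: Claimed/Agent/R125/Main.lean.  Definitions: Defs.lean.
Rules for the solver: keep the statements; helper names start with `P8_`; you may use every theorem of the imported
files (some still have sorry); edit only this file.

GROUP SKETCH.
Row 125 chain, file Path: DETERMINISTIC facts on paths and passage times.  (blueprint: Main.lean)
`w : Edge → ℝ` is a fixed weight configuration.  Every lemma is elementary (inductions on lists).
-/
import Claimed.Agent.R125.P1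

set_option autoImplicit false

open MeasureTheory ProbabilityTheory Filter Set
open scoped Topology
open Claims.C0214 Claims.C0214.PlanarFPP Claims.C0214.GammaFPP

namespace Claimed.Agent.R125

variable {Ω : Type} [MeasurableSpace Ω] {P : Measure Ω} {τ : Edge → Ω → ℝ} {ν : Measure ℝ}
variable {w : Edge → ℝ} {μ : Plane → ℝ}

/-! ### leaf P8: locality of `TR` (a path of at most `R` steps from `p` uses only edges of `boxE p R`) -/

theorem P8_mem_boxE (p : Vertex) (R : ℕ) (e : Edge) :
    e ∈ boxE p R ↔ (p.1 - R ≤ e.1.1 ∧ e.1.1 ≤ p.1 + R) ∧ (p.2 - R ≤ e.1.2 ∧ e.1.2 ≤ p.2 + R) := by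
  simp only [boxE, Finset.mem_product, Finset.mem_Icc, Finset.mem_univ, and_true]

theorem edgesOf_subset_boxE (p : Vertex) (ds : List Step) (R : ℕ) (h : ds.length ≤ R) :
    ∀ e ∈ edgesOf p ds, e ∈ boxE p R := by
  induction ds generalizing p R with
  | nil =>
    intro e he
    simp [edgesOf] at he
  | cons d ds ih =>
    intro e he
    obtain ⟨R', rfl⟩ : ∃ R', R = R' + 1 :=
      ⟨R - 1, by simp only [List.length_cons] at h; omega⟩
    simp only [edgesOf, List.mem_cons] at he
    rw [P8_mem_boxE]
    push_cast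
    rcases he with rfl | he
    · cases d <;> simp only [Step.edge, Prod.fst_add, Prod.snd_add] <;>
        refine ⟨⟨?_, ?_⟩, ⟨?_, ?_⟩⟩ <;> omega
    · have h' : ds.length ≤ R' := by simp only [List.length_cons] at h; omega
      have h2 := ih (p + d.delta) R' h' e he
      rw [P8_mem_boxE] at h2
      cases d <;> simp only [Step.delta, Prod.fst_add, Prod.snd_add] at h2 <;>
        refine ⟨⟨?_, ?_⟩, ⟨?_, ?_⟩⟩ <;> omega

theorem TR_congr {w w' : Edge → ℝ} {R : ℕ} {p q : Vertex} (h : ∀ e ∈ boxE p R, w e = w' e) :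
    TR w R p q = TR w' R p q := by
  have key : ∀ ds : List Step, ds.length ≤ R → pathCost w p ds = pathCost w' p ds := by
    intro ds hl
    rw [pathCost_eq_sum_edges, pathCost_eq_sum_edges]
    congr 1
    exact List.map_congr_left (fun e he => h e (edgesOf_subset_boxE p ds R hl e he))
  unfold TR
  congr 1
  ext t
  constructor
  · rintro ⟨ds, hl, hq, ht⟩
    exact ⟨ds, hl, hq, by rw [← key ds hl]; exact ht⟩
  · rintro ⟨ds, hl, hq, ht⟩
    exact ⟨ds, hl, hq, by rw [key ds hl]; exact ht⟩

theorem boxE_disjoint {p p' : Vertex} {R : ℕ}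
    (h : 2 * (R : ℤ) < |p.1 - p'.1| ∨ 2 * (R : ℤ) < |p.2 - p'.2|) :
    Disjoint (boxE p R) (boxE p' R) := by
  rw [Finset.disjoint_left]
  intro e he he'
  rw [P8_mem_boxE] at he he'
  rcases h with h | h
  · have h3 : |p.1 - p'.1| ≤ 2 * (R : ℤ) := by
      rw [abs_le]
      constructor <;> omega
    omega
  · have h3 : |p.2 - p'.2| ≤ 2 * (R : ℤ) := by
      rw [abs_le]
      constructor <;> omega
    omega

end Claimed.Agent.R125
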