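/-
ROW 125 CONDITIONAL CHAIN, leaf P9 (group Path).  Blueprint: Claimed/Agent/R125/Main.lean.  Definitions: Defs.lean.
Rules for the solver: keep the statements; helper names start with `P9_`; you may use every theorem of the imported
files (some still have sorry); edit only this file.

GROUP SKETCH.
Row 125 chain, file Path: DETERMINISTIC facts on paths and passage times.  (blueprint: Main.lean)
`w : Edge → ℝ` is a fixed weight configuration.  Every lemma is elementary (inductions on lists).
-/
import Claimed.Agent.R125.P1

set_option autoImplicit false

open MeasureTheory ProbabilityTheory Filter Set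
open scoped Topology
open Claims.C0214 Claims.C0214.PlanarFPP Claims.C0214.GammaFPP

namespace Claimed.Agent.R125

variable {Ω : Type} [MeasurableSpace Ω] {P : Measure Ω} {τ : Edge → Ω → ℝ} {ν : Measure ℝ}
variable {w : Edge → ℝ} {μ : Plane → ℝ}

/-! ### leaf P9: loop erasure.  Strong induction on the length: if a vertex is visited twice, cut the
loop between the two visits (cost does not increase because `NN w`). -/

theorem P9_split (p : Vertex) (ds : List Step) (v : Vertex) (hv : v ∈ vertsOf p ds) :
    ∃ a b : List Step, ds = a ++ b ∧ p + displacement a = v ∧ vertsOf v b <:+ vertsOf p ds := by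
  induction ds generalizing p with
  | nil =>
    simp only [vertsOf, List.mem_singleton] at hv
    subst hv
    exact ⟨[], [], rfl, by simp [displacement], List.suffix_refl _⟩
  | cons d ds ih =>
    simp only [vertsOf, List.mem_cons] at hv
    rcases hv with hv | hv
    · subst hv
      exact ⟨[], d :: ds, rfl, by simp [displacement], List.suffix_refl _⟩
    · obtain ⟨a, b, h1, h2, h3⟩ := ih (p + d.delta) hv
      refine ⟨d :: a, b, by rw [h1, List.cons_append], ?_, ?_⟩
      · rw [P1_displacement_cons, ← add_assoc, h2]
      · simp only [vertsOf]
        exact h3.trans (List.suffix_cons _ _)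

theorem exists_simple_path (hw : NN w) (p q : Vertex) (ds : List Step)
    (h : p + displacement ds = q) :
    ∃ ds' : List Step, p + displacement ds' = q ∧ (vertsOf p ds').Nodup ∧
      pathCost w p ds' ≤ pathCost w p ds := by
  induction ds generalizing p with
  | nil => exact ⟨[], h, by simp [vertsOf], le_refl _⟩
  | cons d ds ih =>
    rw [P1_displacement_cons, ← add_assoc] at h
    obtain ⟨ds', h1, h2, h3⟩ := ih (p + d.delta) h
    by_cases hp : p ∈ vertsOf (p + d.delta) ds'
    · obtain ⟨a, b, e1, e2, e3⟩ := P9_split _ _ _ hp
      refine ⟨b, ?_, e3.sublist.nodup h2, ?_⟩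
      · rw [e1, displacement_append, ← add_assoc, e2] at h1
        exact h1
      · rw [e1, pathCost_append, e2] at h3
        have n1 := pathCost_nonneg hw (p + d.delta) a
        have n2 := hw (d.edge p)
        simp only [pathCost]
        linarith
    · refine ⟨d :: ds', ?_, ?_, ?_⟩
      · rw [P1_displacement_cons, ← add_assoc, h1]
      · simp only [vertsOf, List.nodup_cons]
        exact ⟨hp, h2⟩
      · simp only [pathCost]
        linarith

end Claimed.Agent.R125
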