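/-
ROW 125 CONDITIONAL CHAIN, leaf Q1 (group Peierls).  Blueprint: Claimed/Agent/R125/Main.lean.  Definitions: Defs.lean.
Rules for the solver: keep the statements; helper names start with `Q1_`; you may use every theorem of the imported
files (some still have sorry); edit only this file.

GROUP SKETCH.
Row 125 chain, file Peierls: the time constant is positive, hence `mu` is a norm.   (blueprint: Main.lean)

Let `a` be the constant of `lower_tail`.  Fix `x` with `n = n1 x ≥ 1`.
If `T w 0 x < a n` (with `NN w`) there is a path of cost `< a n` (`exists_cost_lt`), hence a vertex-simple one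
(`exists_simple_path`); it has at least `n` steps (`n1_le_length`); its first `n` steps `ds` form a vertex-simple
path with `n` steps and cost `< a n` (`pathCost_take_le`, `verts_nodup_take`); its `n` edges are distinct
(`edges_nodup_of_verts_nodup`), so `pathCost = ∑ e ∈ (edgesOf 0 ds).toFinset, w e` over a Finset of card `n`.
There are at most `4^n` lists of `n` steps: union bound `P(T(0,x) < a n) ≤ 4^n (1/8)^n ≤ 1/2`.
Markov: `g x ≥ a n P(T ≥ a n) ≥ (a/2) n`.
-/
import Claimed.Agent.R125.Path

set_option autoImplicit false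

open MeasureTheory ProbabilityTheory Filter Set
open scoped Topology
open Claims.C0214 Claims.C0214.PlanarFPP Claims.C0214.GammaFPP

namespace Claimed.Agent.R125

variable {Ω : Type} [MeasurableSpace Ω] {P : Measure Ω} {τ : Edge → Ω → ℝ} {ν : Measure ℝ}
variable {w : Edge → ℝ} {μ : Plane → ℝ}

/-! ### leaf Q1 (deterministic) -/

theorem exists_short_simple {w : Edge → ℝ} (hw : NN w) {x : Vertex} {c : ℝ} (h : T w 0 x < c) :
    ∃ ds : List Step, ds.length = n1 x ∧ (edgesOf 0 ds).Nodup ∧
      ∑ e ∈ (edgesOf 0 ds).toFinset, w e < c := by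
  obtain ⟨d0, hd0, hc0⟩ := exists_cost_lt h
  obtain ⟨d1, hd1, hn1, hc1⟩ := exists_simple_path hw 0 x d0 hd0
  have hlen : n1 x ≤ d1.length := by
    have := n1_le_length 0 x d1 hd1
    simpa using this
  have hnd : (edgesOf 0 (d1.take (n1 x))).Nodup :=
    edges_nodup_of_verts_nodup 0 _ (verts_nodup_take 0 d1 (n1 x) hn1)
  refine ⟨d1.take (n1 x), ?_, hnd, ?_⟩
  · rw [List.length_take, min_eq_left hlen]
  · rw [List.sum_toFinset w hnd, ← pathCost_eq_sum_edges]
    exact lt_of_le_of_lt ((pathCost_take_le hw 0 d1 (n1 x)).trans hc1) hc0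

end Claimed.Agent.R125
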