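/-
ROW 125 CONDITIONAL CHAIN, leaf Q2 (group Peierls).  Blueprint: Claimed/Agent/R125/Main.lean.  Definitions: Defs.lean.
Rules for the solver: keep the statements; helper names start with `Q2_`; you may use every theorem of the imported
files (some still have sorry); edit only this file.

GROUP SKETCH.
Row 125 chain, file Peierls: the time constant is positive, hence `mu` is a norm.   (blueprint: Main.lean)

Let `a` be the constant of `lower_tail`.  Fix `x` with `n = n1 x ≥ 1`.
If `T w 0 x < a n` (with `NN w`) there is a path of cost `< a n` (`exists_cost_lt`), hence a vertex-simple one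
(`exists_simple_path`); it has at least `n` steps (`n1_le_length`); its first `n` steps `ds` form a vertex-simple
path with `n` steps and cost `< a n` (`pathCost_take_le`, `verts_nodup_take`); its `n` edges are distinct
(`edges_nodup_of_verts_nodup`), so `pathCost = ∑ e ∈ (edgesOf 0 ds).toFinset, w e` over a Finset of card `n`.
There are at most `4^n` lists of `n` steps: union bound `P(T(0,x) < a n) ≤ 4^n (1/8)^n ≤ 1/2`.
Markov: `g x ≥ a n P(T ≥ a n) ≥ (a/2) n`.
-/
import Claimed.Agent.R125.Q1
import Claimed.Agent.R125.Law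

set_option autoImplicit false

open MeasureTheory ProbabilityTheory Filter Set
open scoped Topology
open Claims.C0214 Claims.C0214.PlanarFPP Claims.C0214.GammaFPP

namespace Claimed.Agent.R125

variable {Ω : Type} [MeasurableSpace Ω] {P : Measure Ω} {τ : Edge → Ω → ℝ} {ν : Measure ℝ}
variable {w : Edge → ℝ} {μ : Plane → ℝ}

/-! ### leaf Q2 (union bound over `List.Vector Step n`, a Fintype of card `4^n`) -/

theorem Q2_card_step : Fintype.card Step = 4 := rfl

theorem prob_T_small (h : IidEnvironment ν P τ) (hν : NiceLaw ν) :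
    ∃ a : ℝ, 0 < a ∧ ∀ x : Vertex,
      P.real {ω | T (env τ ω) 0 x < a * n1 x} ≤ (1 / 2 : ℝ) ^ n1 x := by
  classical
  have := h.probability
  obtain ⟨a, ha, hlow⟩ := lower_tail h hν
  refine ⟨a, ha, fun x => ?_⟩
  set n := n1 x with hn
  let E : List.Vector Step n → Set Ω := fun v =>
    if (edgesOf 0 v.1).Nodup then
      {ω | ∑ e ∈ (edgesOf 0 v.1).toFinset, τ e ω ≤ a * ((edgesOf 0 v.1).toFinset.card : ℝ)}
    else ∅
  have hE : ∀ v, P.real (E v) ≤ (1 / 8 : ℝ) ^ n := by
    intro v
    by_cases hv : (edgesOf 0 v.1).Nodup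
    · have hc : (edgesOf 0 v.1).toFinset.card = n := by
        rw [List.toFinset_card_of_nodup hv, length_edgesOf, v.2]
      have := hlow (edgesOf 0 v.1).toFinset
      simp only [E, hv, if_true]
      rw [hc] at this ⊢
      exact this
    · simp only [E, hv, if_false, measureReal_empty]
      positivity
  have hsub : {ω | T (env τ ω) 0 x < a * n} ≤ᵐ[P] (⋃ v, E v) := by
    filter_upwards [ae_NN h hν] with ω hω hT
    obtain ⟨ds, hlen, hnd, hsum⟩ := exists_short_simple hω (show T (env τ ω) 0 x < a * n from hT)
    refine mem_iUnion.2 ⟨⟨ds, hlen⟩, ?_⟩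
    have hc : (edgesOf 0 ds).toFinset.card = n := by
      rw [List.toFinset_card_of_nodup hnd, length_edgesOf, hlen]
    simp only [E, hnd, if_true, Set.mem_ofPred_eq, hc]
    exact hsum.le
  calc P.real {ω | T (env τ ω) 0 x < a * n} ≤ P.real (⋃ v, E v) :=
        ENNReal.toReal_mono (measure_ne_top _ _) (measure_mono_ae hsub)
    _ ≤ ∑ v, P.real (E v) := measureReal_iUnion_fintype_le _
    _ ≤ ∑ _v : List.Vector Step n, (1 / 8 : ℝ) ^ n := Finset.sum_le_sum (fun v _ => hE v)
    _ = (1 / 2 : ℝ) ^ n := by
        rw [Finset.sum_const, Finset.card_univ, card_vector, Q2_card_step, nsmul_eq_mul]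
        push_cast
        rw [← mul_pow]
        norm_num

end Claimed.Agent.R125
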