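/-
ROW 125 CONDITIONAL CHAIN, leaf Q3 (group Peierls).  Blueprint: Claimed/Agent/R125/Main.lean.  Definitions: Defs.lean.
Rules for the solver: keep the statements; helper names start with `Q3_`; you may use every theorem of the imported
files (some still have sorry); edit only this file.

GROUP SKETCH.
Row 125 chain, file Peierls: the time constant is positive, hence `mu` is a norm.   (blueprint: Main.lean)

Let `a` be the constant of `lower_tail`.  Fix `x` with `n = n1 x ≥ 1`.
If `T w 0 x < a n` (with `NN w`) there is a path of cost `< a n` (`exists_cost_lt`), hence a vertex-simple one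
(`exists_simple_path`); it has at least `n` steps (`n1_le_length`); its first `n` steps `ds` form a vertex-simple
path with `n` steps and cost `< a n` (`pathCost_take_le`, `verts_nodup_take`); its `n` edges are distinct
(`edges_nodup_of_verts_nodup`), so `pathCost = ∑ e ∈ (edgesOf 0 ds).toFinset, w e` over a Finset of card `n`.
There are at most `4^n` lists of `n` steps: union bound `P(T(0,x) < a n) ≤ 4^n (1/8)^n ≤ 1/2`.
Markov: `g x ≥ a n P(T ≥ a n) ≥ (a/2) n`.
-/
import Claimed.Agent.R125.Q2
import Claimed.Agent.R125.Mean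

set_option autoImplicit false

open MeasureTheory ProbabilityTheory Filter Set
open scoped Topology
open Claims.C0214 Claims.C0214.PlanarFPP Claims.C0214.GammaFPP

namespace Claimed.Agent.R125

variable {Ω : Type} [MeasurableSpace Ω] {P : Measure Ω} {τ : Edge → Ω → ℝ} {ν : Measure ℝ}
variable {w : Edge → ℝ} {μ : Plane → ℝ}

/-! ### leaf Q3 (Markov) -/

theorem g_lower (h : IidEnvironment ν P τ) (hν : NiceLaw ν) :
    ∃ ρ : ℝ, 0 < ρ ∧ ∀ x : Vertex, ρ * n1 x ≤ g P τ x := by
  haveI := h.probability
  obtain ⟨a, ha, hprob⟩ := prob_T_small h hν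
  refine ⟨a / 2, by positivity, fun x => ?_⟩
  by_cases hx : n1 x = 0
  · simp only [hx, Nat.cast_zero, mul_zero]
    exact g_nonneg h hν x
  have hn : 1 ≤ n1 x := Nat.one_le_iff_ne_zero.mpr hx
  set c : ℝ := a * n1 x with hc
  have hcpos : 0 < c := by positivity
  have hint := integrable_T h hν 0 x
  have hmeas : Measurable (fun ω => T (env τ ω) 0 x) := (measurable_T 0 x).comp (measurable_env h)
  have hnn : 0 ≤ᵐ[P] fun ω => T (env τ ω) 0 x := by
    filter_upwards [ae_NN h hν] with ω hω using T_nonneg hω 0 x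
  -- Markov
  have hmk : c * P.real {ω | c ≤ T (env τ ω) 0 x} ≤ ∫ ω, T (env τ ω) 0 x ∂P :=
    mul_meas_ge_le_integral_of_nonneg hnn hint c
  have hsmall : P.real {ω | T (env τ ω) 0 x < c} ≤ 1 / 2 := by
    refine (hprob x).trans ?_
    calc (1 / 2 : ℝ) ^ n1 x ≤ (1 / 2 : ℝ) ^ 1 :=
          pow_le_pow_of_le_one (by norm_num) (by norm_num) hn
      _ = 1 / 2 := by norm_num
  have hcompl : P.real {ω | c ≤ T (env τ ω) 0 x} = 1 - P.real {ω | T (env τ ω) 0 x < c} := by
    have hS : MeasurableSet {ω | T (env τ ω) 0 x < c} := measurableSet_lt hmeas measurable_const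
    have : {ω | c ≤ T (env τ ω) 0 x} = {ω | T (env τ ω) 0 x < c}ᶜ := by
      ext ω; simp
    rw [this, probReal_compl_eq_one_sub hS]
  have : c * (1 / 2) ≤ g P τ x := by
    calc c * (1 / 2) ≤ c * P.real {ω | c ≤ T (env τ ω) 0 x} := by
          apply mul_le_mul_of_nonneg_left _ hcpos.le
          rw [hcompl]; linarith
      _ ≤ g P τ x := hmk
  calc a / 2 * n1 x = c * (1 / 2) := by rw [hc]; ring
    _ ≤ g P τ x := this

end Claimed.Agent.R125
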