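/-
ROW 125 CONDITIONAL CHAIN, leaf Q4 (group Peierls).  Blueprint: Claimed/Agent/R125/Main.lean.  Definitions: Defs.lean.
Rules for the solver: keep the statements; helper names start with `Q4_`; you may use every theorem of the imported
files (some still have sorry); edit only this file.

GROUP SKETCH.
Row 125 chain, file Peierls: the time constant is positive, hence `mu` is a norm.   (blueprint: Main.lean)

Let `a` be the constant of `lower_tail`.  Fix `x` with `n = n1 x ≥ 1`.
If `T w 0 x < a n` (with `NN w`) there is a path of cost `< a n` (`exists_cost_lt`), hence a vertex-simple one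
(`exists_simple_path`); it has at least `n` steps (`n1_le_length`); its first `n` steps `ds` form a vertex-simple
path with `n` steps and cost `< a n` (`pathCost_take_le`, `verts_nodup_take`); its `n` edges are distinct
(`edges_nodup_of_verts_nodup`), so `pathCost = ∑ e ∈ (edgesOf 0 ds).toFinset, w e` over a Finset of card `n`.
There are at most `4^n` lists of `n` steps: union bound `P(T(0,x) < a n) ≤ 4^n (1/8)^n ≤ 1/2`.
Markov: `g x ≥ a n P(T ≥ a n) ≥ (a/2) n`.
-/
import Claimed.Agent.R125.Q3

set_option autoImplicit false

open MeasureTheory ProbabilityTheory Filter Set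
open scoped Topology
open Claims.C0214 Claims.C0214.PlanarFPP Claims.C0214.GammaFPP

namespace Claimed.Agent.R125

variable {Ω : Type} [MeasurableSpace Ω] {P : Measure Ω} {τ : Edge → Ω → ℝ} {ν : Measure ℝ}
variable {w : Edge → ℝ} {μ : Plane → ℝ}

/-! ### leaf Q4 (assembly: M7, M8, M9, Q3) -/

theorem timeConstantNorm_mu (h : IidEnvironment ν P τ) (hν : NiceLaw ν) :
    TimeConstantNorm (mu P τ) := by
  obtain ⟨ρ, hρ, hl⟩ := g_lower h hν
  refine ⟨mu_nonneg h hν, ?_, mu_triangle h hν, mu_homogeneous h hν⟩
  intro v
  constructor
  · intro hv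
    have h1 := mu_lower h hν hρ.le hl v
    rw [hv] at h1
    have h2 : 0 ≤ |v 0| := abs_nonneg _
    have h3 : 0 ≤ |v 1| := abs_nonneg _
    have h4 : |v 0| + |v 1| ≤ 0 := by
      by_contra hc
      rw [not_le] at hc
      have := mul_pos hρ hc
      linarith
    have h5 : v 0 = 0 := abs_eq_zero.mp (by linarith)
    have h6 : v 1 = 0 := abs_eq_zero.mp (by linarith)
    ext i
    fin_cases i
    · simpa using h5
    · simpa using h6
  · rintro rfl
    exact mu_zero h hν

end Claimed.Agent.R125
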