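/-
ROW 125 CONDITIONAL CHAIN, leaf U1 (group Upper).  Blueprint: Claimed/Agent/R125/Main.lean.  Definitions: Defs.lean.
Rules for the solver: keep the statements; helper names start with `U1_`; you may use every theorem of the imported
files (some still have sorry); edit only this file.

GROUP SKETCH.
Row 125 chain, file Upper:  a.s.  `T(0, n x) ≤ (muZ x + ε) n`  for large `n`  (x a lattice point).   (blueprint: Main.lean)

Fix `x ≠ 0`, `m ≥ 1`, `R ≥ n1 (m • x)`.  `Y_i = TR R (i m x) ((i+1) m x)`.
* `T(0, n m x) ≤ ∑_{i<n} Y_i`   (triangle inequality, `T ≤ TR`).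
* `Y_i` is a function of the weights in `boxE (i m x) R`; the boxes of `i, i'` are disjoint if `|i - i'| ≥ K := 2 R + 1`
  (one coordinate of `m x` is nonzero).  All `Y_i` have the same law (translation).  So each residue class mod `K` is a
  pairwise independent identically distributed integrable sequence: strong law `strong_law_ae_real`.
* Cesaro means over residue classes combine: `(1/n) ∑_{i<n} Y_i → E Y_0` a.s.
* `E TR R 0 (m x) → g (m x)` as `R → ∞` (dominated convergence), `g (m x)/m → muZ x` as `m → ∞`.
* Fill in between multiples of `m` with `ball_bound`.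
-/
import Claimed.Agent.R125.Law

set_option autoImplicit false

open MeasureTheory ProbabilityTheory Filter Set
open scoped Topology
open Claims.C0214 Claims.C0214.PlanarFPP Claims.C0214.GammaFPP

namespace Claimed.Agent.R125

variable {Ω : Type} [MeasurableSpace Ω] {P : Measure Ω} {τ : Edge → Ω → ℝ} {ν : Measure ℝ}
variable {w : Edge → ℝ} {μ : Plane → ℝ}

/-! ### leaf U1: independence.  `TR (env τ ω) R p q = F (fun e : boxE p R => τ e ω)` with `F` measurable
(extend by `0` outside the box, `TR_congr`, `measurable_TR`); then `iIndepFun.indepFun_finset`. -/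

open Classical in
/-- extension by zero of a configuration on a finite set of edges -/
noncomputable def U1_ext (S : Finset Edge) (v : S → ℝ) : Edge → ℝ :=
  fun e => if h : e ∈ S then v ⟨e, h⟩ else 0

theorem U1_measurable_ext (S : Finset Edge) : Measurable (U1_ext S) := by
  classical
  refine measurable_pi_lambda _ (fun e => ?_)
  by_cases h : e ∈ S
  · simp only [U1_ext, h, dif_pos]
    exact measurable_pi_apply _
  · simp only [U1_ext, h, dif_neg, not_false_eq_true]
    exact measurable_const

theorem U1_TR_eq (R : ℕ) (p q : Vertex) (ω : Ω) :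
    TR (env τ ω) R p q = TR (U1_ext (boxE p R) (fun i : boxE p R => τ i ω)) R p q := by
  apply TR_congr
  intro e he
  simp only [U1_ext, he, dif_pos, env]

theorem indepFun_TR (h : IidEnvironment ν P τ) {R : ℕ} {p q p' q' : Vertex}
    (hd : Disjoint (boxE p R) (boxE p' R)) :
    IndepFun (fun ω => TR (env τ ω) R p q) (fun ω => TR (env τ ω) R p' q') P := by
  have h0 := iIndepFun.indepFun_finset (boxE p R) (boxE p' R) hd h.independent h.measurable
  have h1 := h0.comp ((measurable_TR R p q).comp (U1_measurable_ext (boxE p R)))
    ((measurable_TR R p' q').comp (U1_measurable_ext (boxE p' R)))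
  have e1 : (fun ω => TR (env τ ω) R p q)
      = ((fun w : Edge → ℝ => TR w R p q) ∘ U1_ext (boxE p R)) ∘
          (fun a (i : boxE p R) => τ i a) := by
    funext ω; exact U1_TR_eq R p q ω
  have e2 : (fun ω => TR (env τ ω) R p' q')
      = ((fun w : Edge → ℝ => TR w R p' q') ∘ U1_ext (boxE p' R)) ∘
          (fun a (i : boxE p' R) => τ i a) := by
    funext ω; exact U1_TR_eq R p' q' ω
  rw [e1, e2]
  exact h1

end Claimed.Agent.R125
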