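/-
ROW 125 CONDITIONAL CHAIN, leaf U3 (group Upper).  Blueprint: Claimed/Agent/R125/Main.lean.  Definitions: Defs.lean.
Rules for the solver: keep the statements; helper names start with `U3_`; you may use every theorem of the imported
files (some still have sorry); edit only this file.

GROUP SKETCH.
Row 125 chain, file Upper:  a.s.  `T(0, n x) ≤ (muZ x + ε) n`  for large `n`  (x a lattice point).   (blueprint: Main.lean)

Fix `x ≠ 0`, `m ≥ 1`, `R ≥ n1 (m • x)`.  `Y_i = TR R (i m x) ((i+1) m x)`.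
* `T(0, n m x) ≤ ∑_{i<n} Y_i`   (triangle inequality, `T ≤ TR`).
* `Y_i` is a function of the weights in `boxE (i m x) R`; the boxes of `i, i'` are disjoint if `|i - i'| ≥ K := 2 R + 1`
  (one coordinate of `m x` is nonzero).  All `Y_i` have the same law (translation).  So each residue class mod `K` is a
  pairwise independent identically distributed integrable sequence: strong law `strong_law_ae_real`.
* Cesaro means over residue classes combine: `(1/n) ∑_{i<n} Y_i → E Y_0` a.s.
* `E TR R 0 (m x) → g (m x)` as `R → ∞` (dominated convergence), `g (m x)/m → muZ x` as `m → ∞`.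
* Fill in between multiples of `m` with `ball_bound`.
-/
import Claimed.Agent.R125.Defs

set_option autoImplicit false

open MeasureTheory ProbabilityTheory Filter Set
open scoped Topology
open Claims.C0214 Claims.C0214.PlanarFPP Claims.C0214.GammaFPP

namespace Claimed.Agent.R125

variable {Ω : Type} [MeasurableSpace Ω] {P : Measure Ω} {τ : Edge → Ω → ℝ} {ν : Measure ℝ}
variable {w : Edge → ℝ} {μ : Plane → ℝ}

/-! ### leaf U3 (deterministic): Cesaro means along residue classes -/

/-- number of `j` with `j * K + r < n` -/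
def U3_J (K r n : ℕ) : ℕ := (n + K - 1 - r) / K

theorem U3_lt_J (K r n j : ℕ) (hK : 1 ≤ K) (hr : r < K) : j < U3_J K r n ↔ j * K + r < n := by
  unfold U3_J
  rw [← Nat.succ_le_iff, Nat.le_div_iff_mul_le (by omega), Nat.succ_mul]
  generalize j * K = a
  omega

theorem U3_J_bounds (K r n : ℕ) (hK : 1 ≤ K) (hr : r < K) :
    U3_J K r n * K ≤ n + K ∧ n ≤ U3_J K r n * K + K := by
  have h1 := Nat.div_add_mod (n + K - 1 - r) K
  have h2 := Nat.mod_lt (n + K - 1 - r) (show K > 0 by omega)
  unfold U3_J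
  rw [mul_comm] at h1
  generalize (n + K - 1 - r) / K * K = a at *
  generalize (n + K - 1 - r) % K = b at *
  omega

theorem U3_sum_split (Y : ℕ → ℝ) (K : ℕ) (hK : 1 ≤ K) (n : ℕ) :
    ∑ i ∈ Finset.range n, Y i
      = ∑ r ∈ Finset.range K, ∑ j ∈ Finset.range (U3_J K r n), Y (j * K + r) := by
  rw [← Finset.sum_fiberwise_of_maps_to (s := Finset.range n) (t := Finset.range K)
    (g := fun i => i % K) (fun i _ => Finset.mem_range.2 (Nat.mod_lt i (by omega)))]
  refine Finset.sum_congr rfl ?_
  intro r hr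
  have hr' : r < K := Finset.mem_range.1 hr
  symm
  refine Finset.sum_nbij' (fun j => j * K + r) (fun i => i / K) ?_ ?_ ?_ ?_ ?_
  · intro j hj
    have hj' := (U3_lt_J K r n j hK hr').1 (Finset.mem_range.1 hj)
    simp only [Finset.mem_filter, Finset.mem_range]
    refine ⟨hj', ?_⟩
    rw [mul_comm, Nat.mul_add_mod, Nat.mod_eq_of_lt hr']
  · intro i hi
    simp only [Finset.mem_filter, Finset.mem_range] at hi
    rw [Finset.mem_range, U3_lt_J K r n _ hK hr']
    have := Nat.div_add_mod i K
    rw [hi.2, mul_comm] at this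
    omega
  · intro j _
    show (j * K + r) / K = j
    rw [mul_comm, Nat.mul_add_div (by omega), Nat.div_eq_of_lt hr', add_zero]
  · intro i hi
    simp only [Finset.mem_filter, Finset.mem_range] at hi
    have := Nat.div_add_mod i K
    rw [hi.2, mul_comm] at this
    exact this
  · intro j _
    rfl

theorem U3_J_tendsto (K r : ℕ) (hK : 1 ≤ K) (hr : r < K) :
    Tendsto (fun n => U3_J K r n) atTop atTop := by
  refine tendsto_atTop_atTop.2 ?_
  intro b
  refine ⟨(b + 1) * K, ?_⟩
  intro n hn
  have h1 := (U3_J_bounds K r n hK hr).2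
  have h2 : (b + 1) * K ≤ (U3_J K r n + 1) * K := by
    rw [Nat.add_mul (U3_J K r n), one_mul]; omega
  have h3 := Nat.le_of_mul_le_mul_right h2 (by omega)
  omega

theorem U3_ratio_tendsto (K r : ℕ) (hK : 1 ≤ K) (hr : r < K) :
    Tendsto (fun n : ℕ => (U3_J K r n : ℝ) / n) atTop (𝓝 (1 / (K : ℝ))) := by
  have hK0 : (0 : ℝ) < K := by exact_mod_cast (show 0 < K by omega)
  rw [tendsto_iff_dist_tendsto_zero]
  refine squeeze_zero' (Eventually.of_forall fun n => dist_nonneg) ?_
    tendsto_one_div_atTop_nhds_zero_nat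
  filter_upwards [eventually_gt_atTop 0] with n hn
  have hn0 : (0 : ℝ) < n := by exact_mod_cast hn
  obtain ⟨h1, h2⟩ := U3_J_bounds K r n hK hr
  have h1' : (U3_J K r n : ℝ) * K ≤ n + K := by exact_mod_cast h1
  have h2' : (n : ℝ) ≤ U3_J K r n * K + K := by exact_mod_cast h2
  rw [Real.dist_eq]
  have h3 : (U3_J K r n : ℝ) / n - 1 / K = ((U3_J K r n : ℝ) * K - n) / (n * K) := by
    field_simp
  rw [h3, abs_div, abs_of_pos (mul_pos hn0 hK0), div_le_div_iff₀ (mul_pos hn0 hK0) hn0]
  have h4 : |(U3_J K r n : ℝ) * K - n| ≤ K := by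
    rw [abs_le]; constructor <;> linarith
  calc |(U3_J K r n : ℝ) * K - n| * n ≤ K * n := by
        exact mul_le_mul_of_nonneg_right h4 hn0.le
    _ = 1 * (n * K) := by ring

theorem cesaro_residues (Y : ℕ → ℝ) (K : ℕ) (hK : 1 ≤ K) (y : ℝ)
    (h : ∀ r < K, Tendsto (fun J : ℕ => (∑ j ∈ Finset.range J, Y (j * K + r)) / J) atTop (𝓝 y)) :
    Tendsto (fun n : ℕ => (∑ i ∈ Finset.range n, Y i) / n) atTop (𝓝 y) := by
  have hK0 : (0 : ℝ) < K := by exact_mod_cast (show 0 < K by omega)
  have key : ∀ n : ℕ, (∑ i ∈ Finset.range n, Y i) / n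
      = ∑ r ∈ Finset.range K,
          ((∑ j ∈ Finset.range (U3_J K r n), Y (j * K + r)) / (U3_J K r n : ℝ))
            * ((U3_J K r n : ℝ) / n) := by
    intro n
    rw [U3_sum_split Y K hK n, Finset.sum_div]
    refine Finset.sum_congr rfl ?_
    intro r _
    by_cases hJ : U3_J K r n = 0
    · simp [hJ]
    · have hJ' : (U3_J K r n : ℝ) ≠ 0 := by exact_mod_cast hJ
      field_simp
  have lim : Tendsto (fun n : ℕ => ∑ r ∈ Finset.range K,
          ((∑ j ∈ Finset.range (U3_J K r n), Y (j * K + r)) / (U3_J K r n : ℝ))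
            * ((U3_J K r n : ℝ) / n)) atTop (𝓝 (∑ _r ∈ Finset.range K, y * (1 / (K : ℝ)))) := by
    refine tendsto_finsetSum _ ?_
    intro r hr
    have hr' : r < K := Finset.mem_range.1 hr
    exact ((h r hr').comp (U3_J_tendsto K r hK hr')).mul (U3_ratio_tendsto K r hK hr')
  have hy : (∑ _r ∈ Finset.range K, y * (1 / (K : ℝ))) = y := by
    rw [Finset.sum_const, Finset.card_range, nsmul_eq_mul]
    field_simp
  rw [hy] at lim
  exact lim.congr (fun n => (key n).symm)

end Claimed.Agent.R125
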