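/-
ROW 125 CONDITIONAL CHAIN, leaf U4 (group Upper).  Blueprint: Claimed/Agent/R125/Main.lean.  Definitions: Defs.lean.
Rules for the solver: keep the statements; helper names start with `U4_`; you may use every theorem of the imported
files (some still have sorry); edit only this file.

GROUP SKETCH.
Row 125 chain, file Upper:  a.s.  `T(0, n x) ≤ (muZ x + ε) n`  for large `n`  (x a lattice point).   (blueprint: Main.lean)

Fix `x ≠ 0`, `m ≥ 1`, `R ≥ n1 (m • x)`.  `Y_i = TR R (i m x) ((i+1) m x)`.
* `T(0, n m x) ≤ ∑_{i<n} Y_i`   (triangle inequality, `T ≤ TR`).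
* `Y_i` is a function of the weights in `boxE (i m x) R`; the boxes of `i, i'` are disjoint if `|i - i'| ≥ K := 2 R + 1`
  (one coordinate of `m x` is nonzero).  All `Y_i` have the same law (translation).  So each residue class mod `K` is a
  pairwise independent identically distributed integrable sequence: strong law `strong_law_ae_real`.
* Cesaro means over residue classes combine: `(1/n) ∑_{i<n} Y_i → E Y_0` a.s.
* `E TR R 0 (m x) → g (m x)` as `R → ∞` (dominated convergence), `g (m x)/m → muZ x` as `m → ∞`.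
* Fill in between multiples of `m` with `ball_bound`.
-/
import Claimed.Agent.R125.U1
import Claimed.Agent.R125.U2
import Claimed.Agent.R125.U3
import Claimed.Agent.R125.Mean

set_option autoImplicit false

open MeasureTheory ProbabilityTheory Filter Set
open scoped Topology
open Claims.C0214 Claims.C0214.PlanarFPP Claims.C0214.GammaFPP

namespace Claimed.Agent.R125

variable {Ω : Type} [MeasurableSpace Ω] {P : Measure Ω} {τ : Edge → Ω → ℝ} {ν : Measure ℝ}
variable {w : Edge → ℝ} {μ : Plane → ℝ}

/-! ### leaf U4: strong law for the block variables (U1, U2, U3, `boxE_disjoint`, `integrable_TR`) -/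

theorem U4_succ_smul (i m : ℕ) (x : Vertex) : ((i + 1) * m) • x = m • x + (i * m) • x := by
  rw [add_mul, one_mul, add_smul, add_comm]

theorem U4_ident (h : IidEnvironment ν P τ) (R i m : ℕ) (x : Vertex) :
    IdentDistrib (fun ω => TR (env τ ω) R ((i * m) • x) (((i + 1) * m) • x))
      (fun ω => TR (env τ ω) R 0 (m • x)) P P := by
  have := identDistrib_TR h R 0 (m • x) ((i * m) • x)
  rw [zero_add, ← U4_succ_smul] at this
  exact this

theorem U4_disj {x : Vertex} (hx : x ≠ 0) {m R : ℕ} (hm : 1 ≤ m) {i i' : ℕ}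
    (hii : (2 * R + 1 : ℤ) ≤ |(i : ℤ) - i'|) :
    Disjoint (boxE ((i * m) • x) R) (boxE ((i' * m) • x) R) := by
  apply boxE_disjoint
  have key : ∀ c : ℤ, c ≠ 0 → 2 * (R : ℤ) < |((i * m : ℕ) : ℤ) * c - ((i' * m : ℕ) : ℤ) * c| := by
    intro c hc
    have e : ((i * m : ℕ) : ℤ) * c - ((i' * m : ℕ) : ℤ) * c = ((i : ℤ) - i') * ((m : ℤ) * c) := by
      push_cast; ring
    rw [e, abs_mul, abs_mul]
    have h1 : (1 : ℤ) ≤ |(m : ℤ)| := by
      rw [abs_of_nonneg (by positivity)]; exact_mod_cast hm
    have h2 : (1 : ℤ) ≤ |c| := Int.one_le_abs hc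
    have h3 : (1 : ℤ) ≤ |(m : ℤ)| * |c| := by nlinarith
    have h4 : (0 : ℤ) ≤ |(i : ℤ) - i'| := abs_nonneg _
    nlinarith
  by_cases h1 : x.1 = 0
  · have h2 : x.2 ≠ 0 := by
      intro h2; exact hx (Prod.ext h1 h2)
    right
    have := key x.2 h2
    simpa [Prod.smul_snd, nsmul_eq_mul] using this
  · left
    have := key x.1 h1
    simpa [Prod.smul_fst, nsmul_eq_mul] using this

theorem slln_TR (h : IidEnvironment ν P τ) (hν : NiceLaw ν) {x : Vertex} (hx : x ≠ 0) {m R : ℕ}
    (hm : 1 ≤ m) (hR : n1 (m • x) ≤ R) :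
    ∀ᵐ ω ∂P, Tendsto (fun n : ℕ =>
        (∑ i ∈ Finset.range n, TR (env τ ω) R ((i * m) • x) (((i + 1) * m) • x)) / n) atTop
      (𝓝 (∫ ω, TR (env τ ω) R 0 (m • x) ∂P)) := by
  set K : ℕ := 2 * R + 1 with hK
  have hres : ∀ r : ℕ, ∀ᵐ ω ∂P, Tendsto (fun J : ℕ =>
      (∑ j ∈ Finset.range J,
        TR (env τ ω) R (((j * K + r) * m) • x) ((((j * K + r) + 1) * m) • x)) / J) atTop
      (𝓝 (∫ ω, TR (env τ ω) R 0 (m • x) ∂P)) := by
    intro r
    have hint : Integrable
        (fun ω => TR (env τ ω) R (((0 * K + r) * m) • x) ((((0 * K + r) + 1) * m) • x)) P := by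
      apply integrable_TR h hν
      rw [U4_succ_smul, add_sub_cancel_right]
      exact hR
    have hind : Pairwise (Function.onFun (· ⟂ᵢ[P] ·) (fun (j : ℕ) (ω : Ω) =>
        TR (env τ ω) R (((j * K + r) * m) • x) ((((j * K + r) + 1) * m) • x))) := by
      intro j j' hjj
      apply indepFun_TR h
      apply U4_disj hx hm
      have e : ((j * K + r : ℕ) : ℤ) - ((j' * K + r : ℕ) : ℤ) = ((j : ℤ) - j') * (K : ℤ) := by
        push_cast; ring
      rw [e, abs_mul]
      have h1 : (1 : ℤ) ≤ |(j : ℤ) - j'| := by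
        apply Int.one_le_abs
        intro h0
        apply hjj
        have : (j : ℤ) = j' := by linarith
        exact_mod_cast this
      have h2 : |(K : ℤ)| = 2 * R + 1 := by
        rw [abs_of_nonneg (by positivity), hK]; push_cast; ring
      rw [h2]
      nlinarith
    have hid : ∀ j : ℕ, IdentDistrib
        (fun ω => TR (env τ ω) R (((j * K + r) * m) • x) ((((j * K + r) + 1) * m) • x))
        (fun ω => TR (env τ ω) R (((0 * K + r) * m) • x) ((((0 * K + r) + 1) * m) • x)) P P :=
      fun j => (U4_ident h R _ m x).trans (U4_ident h R _ m x).symm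
    have hs := strong_law_ae_real (fun (j : ℕ) (ω : Ω) =>
        TR (env τ ω) R (((j * K + r) * m) • x) ((((j * K + r) + 1) * m) • x)) hint hind hid
    have hE : ∫ ω, TR (env τ ω) R (((0 * K + r) * m) • x) ((((0 * K + r) + 1) * m) • x) ∂P
        = ∫ ω, TR (env τ ω) R 0 (m • x) ∂P := (U4_ident h R _ m x).integral_eq
    rw [← hE]
    exact hs
  have hall := ae_all_iff.2 hres
  filter_upwards [hall] with ω hω
  exact cesaro_residues (fun i => TR (env τ ω) R ((i * m) • x) (((i + 1) * m) • x)) K
    (by omega) _ (fun r _ => hω r)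

end Claimed.Agent.R125
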