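/-
ROW 125 CONDITIONAL CHAIN, leaf U5 (group Upper).  Blueprint: Claimed/Agent/R125/Main.lean.  Definitions: Defs.lean.
Rules for the solver: keep the statements; helper names start with `U5_`; you may use every theorem of the imported
files (some still have sorry); edit only this file.

GROUP SKETCH.
Row 125 chain, file Upper:  a.s.  `T(0, n x) ≤ (muZ x + ε) n`  for large `n`  (x a lattice point).   (blueprint: Main.lean)

Fix `x ≠ 0`, `m ≥ 1`, `R ≥ n1 (m • x)`.  `Y_i = TR R (i m x) ((i+1) m x)`.
* `T(0, n m x) ≤ ∑_{i<n} Y_i`   (triangle inequality, `T ≤ TR`).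
* `Y_i` is a function of the weights in `boxE (i m x) R`; the boxes of `i, i'` are disjoint if `|i - i'| ≥ K := 2 R + 1`
  (one coordinate of `m x` is nonzero).  All `Y_i` have the same law (translation).  So each residue class mod `K` is a
  pairwise independent identically distributed integrable sequence: strong law `strong_law_ae_real`.
* Cesaro means over residue classes combine: `(1/n) ∑_{i<n} Y_i → E Y_0` a.s.
* `E TR R 0 (m x) → g (m x)` as `R → ∞` (dominated convergence), `g (m x)/m → muZ x` as `m → ∞`.
* Fill in between multiples of `m` with `ball_bound`.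
-/
import Claimed.Agent.R125.Path

set_option autoImplicit false

open MeasureTheory ProbabilityTheory Filter Set
open scoped Topology
open Claims.C0214 Claims.C0214.PlanarFPP Claims.C0214.GammaFPP

namespace Claimed.Agent.R125

variable {Ω : Type} [MeasurableSpace Ω] {P : Measure Ω} {τ : Edge → Ω → ℝ} {ν : Measure ℝ}
variable {w : Edge → ℝ} {μ : Plane → ℝ}

/-! ### leaf U5 (deterministic) -/

theorem T_le_sum_TR {w : Edge → ℝ} (hw : NN w) (x : Vertex) {m R : ℕ} (hR : n1 (m • x) ≤ R) (n : ℕ) :
    T w 0 ((n * m) • x) ≤ ∑ i ∈ Finset.range n, TR w R ((i * m) • x) (((i + 1) * m) • x) := by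
  induction n with
  | zero =>
    simp only [Nat.zero_mul, zero_smul, Finset.range_zero, Finset.sum_empty]
    exact (T_self hw 0).le
  | succ k ih =>
    rw [Finset.sum_range_succ]
    have h1 := T_triangle hw 0 ((k * m) • x) (((k + 1) * m) • x)
    have h2 : ((k + 1) * m) • x - (k * m) • x = m • x := by
      rw [add_mul, one_mul, add_smul]
      abel
    have h3 : T w ((k * m) • x) (((k + 1) * m) • x) ≤ TR w R ((k * m) • x) (((k + 1) * m) • x) :=
      T_le_TR hw (by rw [h2]; exact hR)
    linarith

end Claimed.Agent.R125
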