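/-
ROW 125 CONDITIONAL CHAIN, leaf U6 (group Upper).  Blueprint: Claimed/Agent/R125/Main.lean.  Definitions: Defs.lean.
Rules for the solver: keep the statements; helper names start with `U6_`; you may use every theorem of the imported
files (some still have sorry); edit only this file.

GROUP SKETCH.
Row 125 chain, file Upper:  a.s.  `T(0, n x) ≤ (muZ x + ε) n`  for large `n`  (x a lattice point).   (blueprint: Main.lean)

Fix `x ≠ 0`, `m ≥ 1`, `R ≥ n1 (m • x)`.  `Y_i = TR R (i m x) ((i+1) m x)`.
* `T(0, n m x) ≤ ∑_{i<n} Y_i`   (triangle inequality, `T ≤ TR`).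
* `Y_i` is a function of the weights in `boxE (i m x) R`; the boxes of `i, i'` are disjoint if `|i - i'| ≥ K := 2 R + 1`
  (one coordinate of `m x` is nonzero).  All `Y_i` have the same law (translation).  So each residue class mod `K` is a
  pairwise independent identically distributed integrable sequence: strong law `strong_law_ae_real`.
* Cesaro means over residue classes combine: `(1/n) ∑_{i<n} Y_i → E Y_0` a.s.
* `E TR R 0 (m x) → g (m x)` as `R → ∞` (dominated convergence), `g (m x)/m → muZ x` as `m → ∞`.
* Fill in between multiples of `m` with `ball_bound`.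
-/
import Claimed.Agent.R125.Mean

set_option autoImplicit false

open MeasureTheory ProbabilityTheory Filter Set
open scoped Topology
open Claims.C0214 Claims.C0214.PlanarFPP Claims.C0214.GammaFPP

namespace Claimed.Agent.R125

variable {Ω : Type} [MeasurableSpace Ω] {P : Measure Ω} {τ : Edge → Ω → ℝ} {ν : Measure ℝ}
variable {w : Edge → ℝ} {μ : Plane → ℝ}

/-! ### leaf U6: dominated convergence (`TR_tendsto`, `TR_le_sum_LE`) -/

theorem tendsto_integral_TR (h : IidEnvironment ν P τ) (hν : NiceLaw ν) (y : Vertex) :
    Tendsto (fun R : ℕ => ∫ ω, TR (env τ ω) R 0 y ∂P) atTop (𝓝 (g P τ y)) := by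
  unfold g
  refine tendsto_integral_filter_of_dominated_convergence (fun ω => ∑ e ∈ LE 0 y, τ e ω) ?_ ?_ ?_ ?_
  · exact Eventually.of_forall fun R =>
      ((measurable_TR R 0 y).comp (measurable_env h)).aestronglyMeasurable
  · filter_upwards [eventually_ge_atTop (n1 (y - 0))] with R hR
    filter_upwards [ae_NN h hν] with ω hω
    rw [Real.norm_of_nonneg (TR_nonneg hω R 0 y)]
    exact TR_le_sum_LE hω hR
  · exact integrable_finsetSum _ fun e _ => integrable_tau h hν e
  · filter_upwards [ae_NN h hν] with ω hω
    exact TR_tendsto hω 0 y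

end Claimed.Agent.R125
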