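/-
ROW 125 CONDITIONAL CHAIN, leaf U7 (group Upper).  Blueprint: Claimed/Agent/R125/Main.lean.  Definitions: Defs.lean.
Rules for the solver: keep the statements; helper names start with `U7_`; you may use every theorem of the imported
files (some still have sorry); edit only this file.

GROUP SKETCH.
Row 125 chain, file Upper:  a.s.  `T(0, n x) ≤ (muZ x + ε) n`  for large `n`  (x a lattice point).   (blueprint: Main.lean)

Fix `x ≠ 0`, `m ≥ 1`, `R ≥ n1 (m • x)`.  `Y_i = TR R (i m x) ((i+1) m x)`.
* `T(0, n m x) ≤ ∑_{i<n} Y_i`   (triangle inequality, `T ≤ TR`).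
* `Y_i` is a function of the weights in `boxE (i m x) R`; the boxes of `i, i'` are disjoint if `|i - i'| ≥ K := 2 R + 1`
  (one coordinate of `m x` is nonzero).  All `Y_i` have the same law (translation).  So each residue class mod `K` is a
  pairwise independent identically distributed integrable sequence: strong law `strong_law_ae_real`.
* Cesaro means over residue classes combine: `(1/n) ∑_{i<n} Y_i → E Y_0` a.s.
* `E TR R 0 (m x) → g (m x)` as `R → ∞` (dominated convergence), `g (m x)/m → muZ x` as `m → ∞`.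
* Fill in between multiples of `m` with `ball_bound`.
-/
import Claimed.Agent.R125.U4
import Claimed.Agent.R125.U5
import Claimed.Agent.R125.U6

set_option autoImplicit false

open MeasureTheory ProbabilityTheory Filter Set
open scoped Topology
open Claims.C0214 Claims.C0214.PlanarFPP Claims.C0214.GammaFPP

namespace Claimed.Agent.R125

variable {Ω : Type} [MeasurableSpace Ω] {P : Measure Ω} {τ : Edge → Ω → ℝ} {ν : Measure ℝ}
variable {w : Edge → ℝ} {μ : Plane → ℝ}

/-! ### leaf U7: along multiples of a suitable `m` -/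

theorem upper_multiples (h : IidEnvironment ν P τ) (hν : NiceLaw ν) (x : Vertex) {ε : ℝ} (hε : 0 < ε) :
    ∃ m : ℕ, 1 ≤ m ∧ ∀ᵐ ω ∂P, ∀ᶠ n : ℕ in atTop,
      T (env τ ω) 0 ((n * m) • x) ≤ (muZ P τ x + ε) * (n * m) := by
  by_cases hx : x = 0
  · subst hx
    refine ⟨1, le_refl _, ?_⟩
    filter_upwards [ae_NN h hν] with ω hω
    refine Filter.Eventually.of_forall fun n => ?_
    rw [smul_zero, T_self hω, muZ_zero h hν]
    positivity
  · -- choose `m`
    have h1 : ∀ᶠ m : ℕ in atTop, g P τ (m • x) / m < muZ P τ x + ε :=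
      (tendsto_muZ h hν x).eventually (gt_mem_nhds (by linarith))
    obtain ⟨m, hm2, hm1⟩ := (h1.and (eventually_ge_atTop 1)).exists
    have hmpos : (0 : ℝ) < m := by exact_mod_cast hm1
    have hm3 : g P τ (m • x) < (muZ P τ x + ε) * m := by
      rwa [div_lt_iff₀ hmpos] at hm2
    -- choose `R`
    have h2 : ∀ᶠ R : ℕ in atTop, ∫ ω, TR (env τ ω) R 0 (m • x) ∂P < (muZ P τ x + ε) * m :=
      (tendsto_integral_TR h hν (m • x)).eventually (gt_mem_nhds hm3)
    obtain ⟨R, hR2, hR1⟩ := (h2.and (eventually_ge_atTop (n1 (m • x)))).exists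
    refine ⟨m, hm1, ?_⟩
    filter_upwards [ae_NN h hν, slln_TR h hν hx hm1 hR1] with ω hω hlim
    filter_upwards [hlim.eventually (gt_mem_nhds hR2), eventually_ge_atTop 1] with n hn hn1
    have hnpos : (0 : ℝ) < n := by exact_mod_cast hn1
    rw [div_lt_iff₀ hnpos] at hn
    have h3 := T_le_sum_TR hω x hR1 n
    calc T (env τ ω) 0 ((n * m) • x) ≤ _ := h3
      _ ≤ (muZ P τ x + ε) * m * n := hn.le
      _ = (muZ P τ x + ε) * (n * m) := by ring

end Claimed.Agent.R125
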