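/-
ROW 125 CONDITIONAL CHAIN, leaf U8 (group Upper).  Blueprint: Claimed/Agent/R125/Main.lean.  Definitions: Defs.lean.
Rules for the solver: keep the statements; helper names start with `U8_`; you may use every theorem of the imported
files (some still have sorry); edit only this file.

GROUP SKETCH.
Row 125 chain, file Upper:  a.s.  `T(0, n x) ≤ (muZ x + ε) n`  for large `n`  (x a lattice point).   (blueprint: Main.lean)

Fix `x ≠ 0`, `m ≥ 1`, `R ≥ n1 (m • x)`.  `Y_i = TR R (i m x) ((i+1) m x)`.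
* `T(0, n m x) ≤ ∑_{i<n} Y_i`   (triangle inequality, `T ≤ TR`).
* `Y_i` is a function of the weights in `boxE (i m x) R`; the boxes of `i, i'` are disjoint if `|i - i'| ≥ K := 2 R + 1`
  (one coordinate of `m x` is nonzero).  All `Y_i` have the same law (translation).  So each residue class mod `K` is a
  pairwise independent identically distributed integrable sequence: strong law `strong_law_ae_real`.
* Cesaro means over residue classes combine: `(1/n) ∑_{i<n} Y_i → E Y_0` a.s.
* `E TR R 0 (m x) → g (m x)` as `R → ∞` (dominated convergence), `g (m x)/m → muZ x` as `m → ∞`.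
* Fill in between multiples of `m` with `ball_bound`.
-/
import Claimed.Agent.R125.U7
import Claimed.Agent.R125.Ball

set_option autoImplicit false

open MeasureTheory ProbabilityTheory Filter Set
open scoped Topology
open Claims.C0214 Claims.C0214.PlanarFPP Claims.C0214.GammaFPP

namespace Claimed.Agent.R125

variable {Ω : Type} [MeasurableSpace Ω] {P : Measure Ω} {τ : Edge → Ω → ℝ} {ν : Measure ℝ}
variable {w : Edge → ℝ} {μ : Plane → ℝ}

/-! ### leaf U8: all `n` (write `n = j m + i`, `i < m`; `T(0,n x) ≤ T(0, j m x) + T(j m x, n x)`,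
`n1 (n x - j m x) ≤ m n1 x ≤ δ j` for large `j`; `ball_bound` with `y j = (j m) x`) -/

theorem U8_n1_nsmul (k : ℕ) (x : Vertex) : n1 (k • x) = k * n1 x := by
  unfold n1
  rw [Prod.smul_fst, Prod.smul_snd]
  simp only [nsmul_eq_mul, Int.natAbs_mul, Int.natAbs_natCast]
  ring

theorem U8_sub (n m : ℕ) (x : Vertex) : n • x - (n / m * m) • x = (n % m) • x := by
  have h : n = n / m * m + n % m := (Nat.div_add_mod' n m).symm
  conv_lhs => rw [h, add_nsmul]
  have h2 : (n / m * m + n % m) / m * m = n / m * m := by rw [← h]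
  rw [h2]
  abel

theorem upper (h : IidEnvironment ν P τ) (hν : NiceLaw ν) (x : Vertex) {ε : ℝ} (hε : 0 < ε) :
    ∀ᵐ ω ∂P, ∀ᶠ n : ℕ in atTop, T (env τ ω) 0 (n • x) ≤ (muZ P τ x + ε) * n := by
  obtain ⟨m, hm, hU⟩ := upper_multiples h hν x (half_pos hε)
  obtain ⟨C, hC, hB⟩ := ball_bound h hν
  have hδ : 0 < ε / (2 * C) := by positivity
  have hB' := hB (fun j => (j * m) • x) (ε / (2 * C)) hδ
  have hμ := muZ_nonneg h hν x
  filter_upwards [hU, hB', ae_NN h hν] with ω h1 h2 hNN
  have h3 : ∀ᶠ j : ℕ in atTop, ((m * n1 x : ℕ) : ℝ) ≤ ε / (2 * C) * j := by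
    have ht : Tendsto (fun j : ℕ => ε / (2 * C) * (j : ℝ)) atTop atTop :=
      Tendsto.const_mul_atTop hδ tendsto_natCast_atTop_atTop
    exact ht.eventually_ge_atTop _
  have hdiv : Tendsto (fun n : ℕ => n / m) atTop atTop := Nat.tendsto_div_const_atTop (by omega)
  filter_upwards [hdiv.eventually (h1.and (h2.and h3))] with n hn
  obtain ⟨e1, e2, e3⟩ := hn
  have hjm : n / m * m ≤ n := Nat.div_mul_le_self n m
  have hjn : n / m ≤ n := Nat.div_le_self n m
  have hjm' : (((n / m : ℕ) : ℝ) * (m : ℝ)) ≤ (n : ℝ) := by exact_mod_cast hjm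
  have hjn' : ((n / m : ℕ) : ℝ) ≤ (n : ℝ) := by exact_mod_cast hjn
  have hn1 : (n1 (n • x - (n / m * m) • x) : ℝ) ≤ ε / (2 * C) * ((n / m : ℕ) : ℝ) := by
    refine le_trans ?_ e3
    rw [U8_sub, U8_n1_nsmul]
    have : n % m * n1 x ≤ m * n1 x := Nat.mul_le_mul_right _ (Nat.mod_lt n (by omega)).le
    exact_mod_cast this
  have e4 := e2 (n • x) hn1
  have e5 := T_triangle hNN 0 ((n / m * m) • x) (n • x)
  have e6 : (muZ P τ x + ε / 2) * (((n / m : ℕ) : ℝ) * (m : ℝ)) ≤ (muZ P τ x + ε / 2) * n :=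
    mul_le_mul_of_nonneg_left hjm' (by positivity)
  have e7 : C * (ε / (2 * C)) * ((n / m : ℕ) : ℝ) ≤ ε / 2 * n := by
    have : C * (ε / (2 * C)) = ε / 2 := by field_simp
    rw [this]
    exact mul_le_mul_of_nonneg_left hjn' (by positivity)
  calc T (env τ ω) 0 (n • x)
      ≤ T (env τ ω) 0 ((n / m * m) • x) + T (env τ ω) ((n / m * m) • x) (n • x) := e5
    _ ≤ (muZ P τ x + ε / 2) * (((n / m : ℕ) : ℝ) * (m : ℝ)) + C * (ε / (2 * C)) * ((n / m : ℕ) : ℝ) :=
        add_le_add e1 e4
    _ ≤ (muZ P τ x + ε / 2) * n + ε / 2 * n := add_le_add e6 e7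
    _ = (muZ P τ x + ε) * n := by ring

end Claimed.Agent.R125
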