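/-
ROW 125 CONDITIONAL CHAIN, leaf W1 (group Lower).  Blueprint: Claimed/Agent/R125/Main.lean.  Definitions: Defs.lean.
Rules for the solver: keep the statements; helper names start with `W1_`; you may use every theorem of the imported
files (some still have sorry); edit only this file.

GROUP SKETCH.
Row 125 chain, file Lower:  a.s.  `(muZ x - ε) n ≤ T(0, n x)`  for large `n`.   (blueprint: Main.lean)
No ergodic theorem is needed: Steele's covering argument, integrated.

Fix `x`, `0 ≤ a < muZ x < b`.  `Aev x a w` = "liminf T(0,n x)/n < a";  it is invariant under `shiftW (k • x)`.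
`ell w = a` on `Aev`, `= b` off `Aev`.   A starting point `k` is BAD (for `M`) if `T(k x,(k+n) x) > ell n` for all `1 ≤ n ≤ M`.
Greedy covering of `[0,N)`: from a good `k` jump `n ≤ M` steps at cost `≤ ell n`, from a bad `k` (or from `k ≥ N - M`) one step:
   `T(0,N x) ≤ ell N + ∑_{k<N} PhiM(shiftW (k x) w) + ∑_{N-M ≤ k < N} T(k x,(k+1) x)`.
Integrate (translation invariance):   `g(N x) ≤ N (a p + b (1-p)) + N E PhiM + M g x`,   `p = P(Aev)`.
`E PhiM → 0` as `M → ∞` (dominated convergence: a.s. some `n ≥ 1` has `T(0,n x) ≤ ell n`: on `Aev` by definition, off `Aev` by `upper`).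
`muZ x ≤ g(N x)/N`;  `N → ∞`, `M → ∞`, `b ↓ muZ x`:   `muZ x ≤ a p + muZ x (1 - p)`, so `p = 0`.
-/
import Claimed.Agent.R125.Defs

set_option autoImplicit false

open MeasureTheory ProbabilityTheory Filter Set
open scoped Topology
open Claims.C0214 Claims.C0214.PlanarFPP Claims.C0214.GammaFPP

namespace Claimed.Agent.R125

variable {Ω : Type} [MeasurableSpace Ω] {P : Measure Ω} {τ : Edge → Ω → ℝ} {ν : Measure ℝ}
variable {w : Edge → ℝ} {μ : Plane → ℝ}

/-! ### leaf W1 (abstract covering lemma).  Prove by strong induction on `N - s` the statement for `A s N`: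
`A s N ≤ l (N - s) + ∑_{k ∈ Ico s N, bad k} A k (k+1) + ∑_{k ∈ Ico (max s (N - M)) N} A k (k+1)`. -/

theorem W1_cover_aux (A : ℕ → ℕ → ℝ) (hA0 : ∀ k n, 0 ≤ A k n) (hAd : ∀ k, A k k = 0)
    (hsub : ∀ k m n, k ≤ m → m ≤ n → A k n ≤ A k m + A m n) (l : ℝ) (hl : 0 ≤ l) (M N : ℕ)
    (B : ℕ → ℝ)
    (hB0 : ∀ k, 0 ≤ B k)
    (hB : ∀ k, (∀ n ∈ Finset.Icc 1 M, l * n < A k (k + n)) → B k = A k (k + 1)) :
    ∀ j s : ℕ, s + j = N →
      A s N ≤ l * j + ∑ k ∈ Finset.Ico s N, B k
        + ∑ k ∈ Finset.Ico (max s (N - M)) N, A k (k + 1) := by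
  intro j
  induction j using Nat.strong_induction_on with
  | _ j ih =>
    intro s hs
    rcases Nat.eq_zero_or_pos j with hj | hj
    · subst hj
      have : s = N := by omega
      subst this
      rw [hAd]
      have h1 : 0 ≤ ∑ k ∈ Finset.Ico s s, B k := Finset.sum_nonneg fun k _ => hB0 k
      have h2 : 0 ≤ ∑ k ∈ Finset.Ico (max s (s - M)) s, A k (k + 1) :=
        Finset.sum_nonneg fun k _ => hA0 _ _
      simp only [Nat.cast_zero, mul_zero, zero_add]
      linarith
    · have hsN : s < N := by omega
      -- one-step decomposition of the B-sum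
      have hBsplit : ∑ k ∈ Finset.Ico s N, B k = B s + ∑ k ∈ Finset.Ico (s + 1) N, B k :=
        Finset.sum_eq_sum_Ico_succ_bot hsN _
      have hcast : (j : ℝ) = ((j - 1 : ℕ) : ℝ) + 1 := by
        have : j = (j - 1) + 1 := by omega
        conv_lhs => rw [this]
        push_cast
        ring
      by_cases hcase : N - M ≤ s
      · -- tail zone: one step, paid by the last sum
        have ih1 := ih (j - 1) (by omega) (s + 1) (by omega)
        have hm1 : max s (N - M) = s := max_eq_left hcase
        have hm2 : max (s + 1) (N - M) = s + 1 := max_eq_left (by omega)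
        rw [hm2] at ih1
        rw [hm1, hBsplit, Finset.sum_eq_sum_Ico_succ_bot hsN (fun k => A k (k + 1)), hcast]
        have h3 := hsub s (s + 1) N (by omega) (by omega)
        have h4 := hB0 s
        nlinarith
      · have hsM : s + M < N := by omega
        have hm1 : max s (N - M) = N - M := max_eq_right (by omega)
        by_cases hbad : ∀ n ∈ Finset.Icc 1 M, l * n < A s (s + n)
        · have ih1 := ih (j - 1) (by omega) (s + 1) (by omega)
          have hm2 : max (s + 1) (N - M) = N - M := max_eq_right (by omega)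
          rw [hm2] at ih1
          have hBs : B s = A s (s + 1) := hB s hbad
          rw [hm1, hBsplit, hBs, hcast]
          have h3 := hsub s (s + 1) N (by omega) (by omega)
          nlinarith
        · push Not at hbad
          obtain ⟨n, hn, hln⟩ := hbad
          rw [Finset.mem_Icc] at hn
          have ih1 := ih (j - n) (by omega) (s + n) (by omega)
          have h3 := hsub s (s + n) N (by omega) (by omega)
          have hsub1 : ∑ k ∈ Finset.Ico (s + n) N, B k ≤ ∑ k ∈ Finset.Ico s N, B k := by
            apply Finset.sum_le_sum_of_subset_of_nonneg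
            · intro k hk
              rw [Finset.mem_Ico] at hk ⊢
              omega
            · intro k _ _
              exact hB0 k
          have hsub2 : ∑ k ∈ Finset.Ico (max (s + n) (N - M)) N, A k (k + 1)
              ≤ ∑ k ∈ Finset.Ico (N - M) N, A k (k + 1) := by
            apply Finset.sum_le_sum_of_subset_of_nonneg
            · intro k hk
              rw [Finset.mem_Ico] at hk ⊢
              have := le_max_right (s + n) (N - M)
              omega
            · intro k _ _
              exact hA0 _ _
          have hcast2 : (j : ℝ) = ((j - n : ℕ) : ℝ) + n := by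
            have : j = (j - n) + n := by omega
            conv_lhs => rw [this]
            push_cast
            ring
          rw [hm1, hcast2]
          nlinarith

open Classical in
theorem cover (A : ℕ → ℕ → ℝ) (hA0 : ∀ k n, 0 ≤ A k n) (hAd : ∀ k, A k k = 0)
    (hsub : ∀ k m n, k ≤ m → m ≤ n → A k n ≤ A k m + A m n) (l : ℝ) (hl : 0 ≤ l) (M N : ℕ) :
    A 0 N ≤ l * N
      + ∑ k ∈ Finset.range N, (if ∀ n ∈ Finset.Icc 1 M, l * n < A k (k + n) then A k (k + 1) else 0)
      + ∑ k ∈ Finset.Ico (N - M) N, A k (k + 1) := by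
  have h := W1_cover_aux A hA0 hAd hsub l hl M N
    (fun k => if ∀ n ∈ Finset.Icc 1 M, l * n < A k (k + n) then A k (k + 1) else 0)
    (fun k => by
      split_ifs
      · exact hA0 _ _
      · exact le_rfl)
    (fun k hk => if_pos hk) N 0 (by omega)
  rw [Nat.zero_max] at h
  rw [Finset.range_eq_Ico]
  exact h

end Claimed.Agent.R125
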