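/-
ROW 125 CONDITIONAL CHAIN, leaf W2 (group Lower).  Blueprint: Claimed/Agent/R125/Main.lean.  Definitions: Defs.lean.
Rules for the solver: keep the statements; helper names start with `W2_`; you may use every theorem of the imported
files (some still have sorry); edit only this file.

GROUP SKETCH.
Row 125 chain, file Lower:  a.s.  `(muZ x - ε) n ≤ T(0, n x)`  for large `n`.   (blueprint: Main.lean)
No ergodic theorem is needed: Steele's covering argument, integrated.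

Fix `x`, `0 ≤ a < muZ x < b`.  `Aev x a w` = "liminf T(0,n x)/n < a";  it is invariant under `shiftW (k • x)`.
`ell w = a` on `Aev`, `= b` off `Aev`.   A starting point `k` is BAD (for `M`) if `T(k x,(k+n) x) > ell n` for all `1 ≤ n ≤ M`.
Greedy covering of `[0,N)`: from a good `k` jump `n ≤ M` steps at cost `≤ ell n`, from a bad `k` (or from `k ≥ N - M`) one step:
   `T(0,N x) ≤ ell N + ∑_{k<N} PhiM(shiftW (k x) w) + ∑_{N-M ≤ k < N} T(k x,(k+1) x)`.
Integrate (translation invariance):   `g(N x) ≤ N (a p + b (1-p)) + N E PhiM + M g x`,   `p = P(Aev)`.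
`E PhiM → 0` as `M → ∞` (dominated convergence: a.s. some `n ≥ 1` has `T(0,n x) ≤ ell n`: on `Aev` by definition, off `Aev` by `upper`).
`muZ x ≤ g(N x)/N`;  `N → ∞`, `M → ∞`, `b ↓ muZ x`:   `muZ x ≤ a p + muZ x (1 - p)`, so `p = 0`.
-/
import Claimed.Agent.R125.Path

set_option autoImplicit false

open MeasureTheory ProbabilityTheory Filter Set
open scoped Topology
open Claims.C0214 Claims.C0214.PlanarFPP Claims.C0214.GammaFPP

namespace Claimed.Agent.R125

variable {Ω : Type} [MeasurableSpace Ω] {P : Measure Ω} {τ : Edge → Ω → ℝ} {ν : Measure ℝ}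
variable {w : Edge → ℝ} {μ : Plane → ℝ}

/-! ### leaf W2: invariance.  `|T(k x,(k+n) x) - T(0,(k+n) x)| ≤ T(0,k x)`, a constant; a threshold `a - 1/(j+1)` for one
family gives the threshold `a - 1/(j+2)` for the other one, for large `n`. -/

theorem W2_gap (a : ℝ) (j : ℕ) :
    0 < (a - 1 / (((j + 1 : ℕ) : ℝ) + 1)) - (a - 1 / ((j : ℝ) + 1)) := by
  have h1 : (0 : ℝ) < (j : ℝ) + 1 := by positivity
  have h2 : (j : ℝ) + 1 < ((j + 1 : ℕ) : ℝ) + 1 := by push_cast; linarith
  have h3 : 1 / (((j + 1 : ℕ) : ℝ) + 1) < 1 / ((j : ℝ) + 1) := one_div_lt_one_div_of_lt h1 h2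
  linarith

theorem W2_T_shift (w : Edge → ℝ) (x : Vertex) (k n : ℕ) :
    T (shiftW (k • x) w) 0 (n • x) = T w (k • x) ((n + k) • x) := by
  rw [T_shiftW, zero_add, add_smul]

theorem W2_large (δ K : ℝ) (hδ : 0 < δ) : ∃ N : ℕ, ∀ n : ℕ, N ≤ n → K ≤ δ * n := by
  obtain ⟨N, hN⟩ := exists_nat_ge (K / δ)
  refine ⟨N, fun n hn => ?_⟩
  have h1 : (N : ℝ) ≤ n := by exact_mod_cast hn
  have h2 : K / δ ≤ n := hN.trans h1
  rw [div_le_iff₀ hδ] at h2
  linarith

theorem Aev_shift {w : Edge → ℝ} (hw : NN w) (x : Vertex) (a : ℝ) (k : ℕ) :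
    Aev x a (shiftW (k • x) w) ↔ Aev x a w := by
  have hc : 0 ≤ T w 0 (k • x) := T_nonneg hw _ _
  constructor
  · rintro ⟨j, hj⟩
    refine ⟨j + 1, ?_⟩
    rw [Filter.frequently_atTop] at hj ⊢
    intro N0
    obtain ⟨N1, hN1⟩ := W2_large _ (T w 0 (k • x) - (a - 1 / (((j + 1 : ℕ) : ℝ) + 1)) * k)
      (W2_gap a j)
    obtain ⟨n, hn, hT⟩ := hj (max N0 N1)
    refine ⟨n + k, by have := le_max_left N0 N1; omega, ?_⟩
    rw [W2_T_shift] at hT
    have h1 := T_triangle hw 0 (k • x) ((n + k) • x)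
    have h2 := hN1 n ((le_max_right N0 N1).trans hn)
    push_cast at h2 ⊢
    nlinarith
  · rintro ⟨j, hj⟩
    refine ⟨j + 1, ?_⟩
    rw [Filter.frequently_atTop] at hj ⊢
    intro N0
    obtain ⟨N1, hN1⟩ := W2_large _ (T w 0 (k • x) + (a - 1 / ((j : ℝ) + 1)) * k)
      (W2_gap a j)
    obtain ⟨m, hm, hT⟩ := hj (max N0 N1 + k)
    obtain ⟨n, rfl⟩ : ∃ n, m = n + k := ⟨m - k, by omega⟩
    refine ⟨n, by have := le_max_left N0 N1; omega, ?_⟩
    rw [W2_T_shift]
    have h1 := T_triangle hw (k • x) 0 ((n + k) • x)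
    rw [T_symm w (k • x) 0] at h1
    have h2 := hN1 n (by have := le_max_right N0 N1; omega)
    push_cast at h2 hT ⊢
    nlinarith

theorem ell_shift {w : Edge → ℝ} (hw : NN w) (x : Vertex) (a b : ℝ) (k : ℕ) :
    ell x a b (shiftW (k • x) w) = ell x a b w := by
  unfold ell
  by_cases h : Aev x a w
  · rw [if_pos h, if_pos ((Aev_shift hw x a k).2 h)]
  · rw [if_neg h, if_neg (fun h' => h ((Aev_shift hw x a k).1 h'))]

end Claimed.Agent.R125
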