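/-
ROW 125 CONDITIONAL CHAIN, leaf W3 (group Lower).  Blueprint: Claimed/Agent/R125/Main.lean.  Definitions: Defs.lean.
Rules for the solver: keep the statements; helper names start with `W3_`; you may use every theorem of the imported
files (some still have sorry); edit only this file.

GROUP SKETCH.
Row 125 chain, file Lower:  a.s.  `(muZ x - ε) n ≤ T(0, n x)`  for large `n`.   (blueprint: Main.lean)
No ergodic theorem is needed: Steele's covering argument, integrated.

Fix `x`, `0 ≤ a < muZ x < b`.  `Aev x a w` = "liminf T(0,n x)/n < a";  it is invariant under `shiftW (k • x)`.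
`ell w = a` on `Aev`, `= b` off `Aev`.   A starting point `k` is BAD (for `M`) if `T(k x,(k+n) x) > ell n` for all `1 ≤ n ≤ M`.
Greedy covering of `[0,N)`: from a good `k` jump `n ≤ M` steps at cost `≤ ell n`, from a bad `k` (or from `k ≥ N - M`) one step:
   `T(0,N x) ≤ ell N + ∑_{k<N} PhiM(shiftW (k x) w) + ∑_{N-M ≤ k < N} T(k x,(k+1) x)`.
Integrate (translation invariance):   `g(N x) ≤ N (a p + b (1-p)) + N E PhiM + M g x`,   `p = P(Aev)`.
`E PhiM → 0` as `M → ∞` (dominated convergence: a.s. some `n ≥ 1` has `T(0,n x) ≤ ell n`: on `Aev` by definition, off `Aev` by `upper`).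
`muZ x ≤ g(N x)/N`;  `N → ∞`, `M → ∞`, `b ↓ muZ x`:   `muZ x ≤ a p + muZ x (1 - p)`, so `p = 0`.
-/
import Claimed.Agent.R125.Law

set_option autoImplicit false

open MeasureTheory ProbabilityTheory Filter Set
open scoped Topology
open Claims.C0214 Claims.C0214.PlanarFPP Claims.C0214.GammaFPP

namespace Claimed.Agent.R125

variable {Ω : Type} [MeasurableSpace Ω] {P : Measure Ω} {τ : Edge → Ω → ℝ} {ν : Measure ℝ}
variable {w : Edge → ℝ} {μ : Plane → ℝ}

/-! ### leaf W3: measurability -/

theorem measurableSet_Aev (x : Vertex) (a : ℝ) : MeasurableSet {w : Edge → ℝ | Aev x a w} := by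
  have h : {w : Edge → ℝ | Aev x a w} =
      ⋃ j : ℕ, ⋂ N : ℕ, ⋃ n : ℕ, ⋃ (_ : N ≤ n),
        {w : Edge → ℝ | T w 0 (n • x) ≤ (a - 1 / ((j : ℝ) + 1)) * n} := by
    ext w
    simp only [Aev, Filter.frequently_atTop, Set.mem_ofPred_eq, Set.mem_iUnion, Set.mem_iInter,
      exists_prop]
  rw [h]
  refine MeasurableSet.iUnion fun j => MeasurableSet.iInter fun N => MeasurableSet.iUnion fun n =>
    MeasurableSet.iUnion fun _ => ?_
  exact measurableSet_le (measurable_T 0 (n • x)) measurable_const

theorem measurable_ell (x : Vertex) (a b : ℝ) : Measurable (ell x a b) := by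
  unfold ell
  exact Measurable.ite (measurableSet_Aev x a) measurable_const measurable_const

theorem measurable_PhiM (x : Vertex) (a b : ℝ) (M : ℕ) : Measurable (PhiM x a b M) := by
  unfold PhiM
  refine Measurable.ite ?_ (measurable_T 0 x) measurable_const
  have h : {w : Edge → ℝ | ∀ n ∈ Finset.Icc 1 M, ell x a b w * n < T w 0 (n • x)} =
      ⋂ n ∈ Finset.Icc 1 M, {w : Edge → ℝ | ell x a b w * n < T w 0 (n • x)} := by
    ext w
    simp only [Set.mem_ofPred_eq, Set.mem_iInter]
  rw [h]
  refine Finset.measurableSet_biInter _ fun n _ => ?_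
  exact measurableSet_lt ((measurable_ell x a b).mul_const _) (measurable_T 0 (n • x))

end Claimed.Agent.R125
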