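/-
ROW 125 CONDITIONAL CHAIN, leaf W4 (group Lower).  Blueprint: Claimed/Agent/R125/Main.lean.  Definitions: Defs.lean.
Rules for the solver: keep the statements; helper names start with `W4_`; you may use every theorem of the imported
files (some still have sorry); edit only this file.

GROUP SKETCH.
Row 125 chain, file Lower:  a.s.  `(muZ x - ε) n ≤ T(0, n x)`  for large `n`.   (blueprint: Main.lean)
No ergodic theorem is needed: Steele's covering argument, integrated.

Fix `x`, `0 ≤ a < muZ x < b`.  `Aev x a w` = "liminf T(0,n x)/n < a";  it is invariant under `shiftW (k • x)`.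
`ell w = a` on `Aev`, `= b` off `Aev`.   A starting point `k` is BAD (for `M`) if `T(k x,(k+n) x) > ell n` for all `1 ≤ n ≤ M`.
Greedy covering of `[0,N)`: from a good `k` jump `n ≤ M` steps at cost `≤ ell n`, from a bad `k` (or from `k ≥ N - M`) one step:
   `T(0,N x) ≤ ell N + ∑_{k<N} PhiM(shiftW (k x) w) + ∑_{N-M ≤ k < N} T(k x,(k+1) x)`.
Integrate (translation invariance):   `g(N x) ≤ N (a p + b (1-p)) + N E PhiM + M g x`,   `p = P(Aev)`.
`E PhiM → 0` as `M → ∞` (dominated convergence: a.s. some `n ≥ 1` has `T(0,n x) ≤ ell n`: on `Aev` by definition, off `Aev` by `upper`).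
`muZ x ≤ g(N x)/N`;  `N → ∞`, `M → ∞`, `b ↓ muZ x`:   `muZ x ≤ a p + muZ x (1 - p)`, so `p = 0`.
-/
import Claimed.Agent.R125.W1
import Claimed.Agent.R125.W2

set_option autoImplicit false

open MeasureTheory ProbabilityTheory Filter Set
open scoped Topology
open Claims.C0214 Claims.C0214.PlanarFPP Claims.C0214.GammaFPP

namespace Claimed.Agent.R125

variable {Ω : Type} [MeasurableSpace Ω] {P : Measure Ω} {τ : Edge → Ω → ℝ} {ν : Measure ℝ}
variable {w : Edge → ℝ} {μ : Plane → ℝ}

/-! ### leaf W4: the covering inequality for passage times (`cover` with `A k n = T w (k • x) (n • x)`, `l = ell x a b w`;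
`T_shiftW`, `ell_shift`) -/

theorem W4_T0 (w : Edge → ℝ) (x : Vertex) (k n : ℕ) :
    T (shiftW (k • x) w) 0 (n • x) = T w (k • x) ((k + n) • x) := by
  rw [T_shiftW, zero_add, add_smul, add_comm]

theorem W4_T1 (w : Edge → ℝ) (x : Vertex) (k : ℕ) :
    T (shiftW (k • x) w) 0 x = T w (k • x) ((k + 1) • x) := by
  have := W4_T0 w x k 1
  rwa [one_smul] at this

theorem W4_ell_nonneg (x : Vertex) {a b : ℝ} (ha : 0 ≤ a) (hb : 0 ≤ b) (w : Edge → ℝ) :
    0 ≤ ell x a b w := by
  unfold ell
  split_ifs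
  · exact ha
  · exact hb

theorem cover_T {w : Edge → ℝ} (hw : NN w) (x : Vertex) {a b : ℝ} (ha : 0 ≤ a) (hb : 0 ≤ b) (M N : ℕ) :
    T w 0 (N • x) ≤ ell x a b w * N + ∑ k ∈ Finset.range N, PhiM x a b M (shiftW (k • x) w)
      + ∑ k ∈ Finset.Ico (N - M) N, T w (k • x) ((k + 1) • x) := by
  classical
  have h := cover (fun k n => T w (k • x) (n • x)) (fun k n => T_nonneg hw _ _)
    (fun k => T_self hw _) (fun k m n _ _ => T_triangle hw _ _ _) (ell x a b w)
    (W4_ell_nonneg x ha hb w) M N
  simp only [zero_smul] at h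
  have e : ∀ k ∈ Finset.range N, PhiM x a b M (shiftW (k • x) w)
      = (if ∀ n ∈ Finset.Icc 1 M, ell x a b w * n < T w (k • x) ((k + n) • x)
          then T w (k • x) ((k + 1) • x) else 0) := by
    intro k _
    unfold PhiM
    rw [ell_shift hw, W4_T1]
    simp only [W4_T0]
  rw [Finset.sum_congr rfl e]
  convert h using 4
  congr

end Claimed.Agent.R125
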