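/-
ROW 125 CONDITIONAL CHAIN, leaf W5 (group Lower).  Blueprint: Claimed/Agent/R125/Main.lean.  Definitions: Defs.lean.
Rules for the solver: keep the statements; helper names start with `W5_`; you may use every theorem of the imported
files (some still have sorry); edit only this file.

GROUP SKETCH.
Row 125 chain, file Lower:  a.s.  `(muZ x - ε) n ≤ T(0, n x)`  for large `n`.   (blueprint: Main.lean)
No ergodic theorem is needed: Steele's covering argument, integrated.

Fix `x`, `0 ≤ a < muZ x < b`.  `Aev x a w` = "liminf T(0,n x)/n < a";  it is invariant under `shiftW (k • x)`.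
`ell w = a` on `Aev`, `= b` off `Aev`.   A starting point `k` is BAD (for `M`) if `T(k x,(k+n) x) > ell n` for all `1 ≤ n ≤ M`.
Greedy covering of `[0,N)`: from a good `k` jump `n ≤ M` steps at cost `≤ ell n`, from a bad `k` (or from `k ≥ N - M`) one step:
   `T(0,N x) ≤ ell N + ∑_{k<N} PhiM(shiftW (k x) w) + ∑_{N-M ≤ k < N} T(k x,(k+1) x)`.
Integrate (translation invariance):   `g(N x) ≤ N (a p + b (1-p)) + N E PhiM + M g x`,   `p = P(Aev)`.
`E PhiM → 0` as `M → ∞` (dominated convergence: a.s. some `n ≥ 1` has `T(0,n x) ≤ ell n`: on `Aev` by definition, off `Aev` by `upper`).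
`muZ x ≤ g(N x)/N`;  `N → ∞`, `M → ∞`, `b ↓ muZ x`:   `muZ x ≤ a p + muZ x (1 - p)`, so `p = 0`.
-/
import Claimed.Agent.R125.W3
import Claimed.Agent.R125.W4
import Claimed.Agent.R125.Mean

set_option autoImplicit false

open MeasureTheory ProbabilityTheory Filter Set
open scoped Topology
open Claims.C0214 Claims.C0214.PlanarFPP Claims.C0214.GammaFPP

namespace Claimed.Agent.R125

variable {Ω : Type} [MeasurableSpace Ω] {P : Measure Ω} {τ : Edge → Ω → ℝ} {ν : Measure ℝ}
variable {w : Edge → ℝ} {μ : Plane → ℝ}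

/-! ### leaf W5: integrate W4 (`integral_shift`, `integral_T_eq_g`; `0 ≤ PhiM ≤ T w 0 x` for integrability) -/

theorem W5_PhiM_bound {w : Edge → ℝ} (hw : NN w) (x : Vertex) (a b : ℝ) (M : ℕ) :
    0 ≤ PhiM x a b M w ∧ PhiM x a b M w ≤ T w 0 x := by
  unfold PhiM
  have := T_nonneg hw 0 x
  split_ifs
  · exact ⟨this, le_refl _⟩
  · exact ⟨le_refl _, this⟩

theorem integrable_PhiM (h : IidEnvironment ν P τ) (hν : NiceLaw ν) (x : Vertex) (a b : ℝ) (M : ℕ) :
    Integrable (fun ω => PhiM x a b M (env τ ω)) P := by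
  refine Integrable.mono' (integrable_T h hν 0 x)
    (((measurable_PhiM x a b M).comp (measurable_env h)).aestronglyMeasurable) ?_
  filter_upwards [ae_NN h hν] with ω hω
  have := W5_PhiM_bound hω x a b M
  rw [Real.norm_eq_abs, abs_of_nonneg this.1]
  exact this.2

theorem W5_integrable_PhiM_shift (h : IidEnvironment ν P τ) (hν : NiceLaw ν) (x z : Vertex)
    (a b : ℝ) (M : ℕ) : Integrable (fun ω => PhiM x a b M (shiftW z (env τ ω))) P := by
  have hid := (identDistrib_shift h z).comp (measurable_PhiM x a b M)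
  exact (hid.integrable_iff).mpr (integrable_PhiM h hν x a b M)

theorem W5_integral_ell (h : IidEnvironment ν P τ) (x : Vertex) (a b : ℝ) :
    Integrable (fun ω => ell x a b (env τ ω)) P ∧
      ∫ ω, ell x a b (env τ ω) ∂P = a * P.real {ω | Aev x a (env τ ω)}
        + b * (1 - P.real {ω | Aev x a (env τ ω)}) := by
  have := h.probability
  have hS : MeasurableSet {ω | Aev x a (env τ ω)} := measurable_env h (measurableSet_Aev x a)
  have heq : (fun ω => ell x a b (env τ ω)) = fun ω =>
      Set.indicator {ω | Aev x a (env τ ω)} (fun _ => a) ω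
        + Set.indicator {ω | Aev x a (env τ ω)}ᶜ (fun _ => b) ω := by
    funext ω
    unfold ell
    by_cases hω : Aev x a (env τ ω)
    · simp [hω]
    · simp [hω]
  have hi1 : Integrable (Set.indicator {ω | Aev x a (env τ ω)} (fun _ => a)) P :=
    (integrable_const a).indicator hS
  have hi2 : Integrable (Set.indicator {ω | Aev x a (env τ ω)}ᶜ (fun _ => b)) P :=
    (integrable_const b).indicator hS.compl
  rw [heq]
  refine ⟨hi1.add hi2, ?_⟩
  rw [integral_add hi1 hi2, integral_indicator_const _ hS, integral_indicator_const _ hS.compl,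
    probReal_compl_eq_one_sub hS]
  simp only [smul_eq_mul]
  ring

theorem integral_cover (h : IidEnvironment ν P τ) (hν : NiceLaw ν) (x : Vertex) {a b : ℝ}
    (ha : 0 ≤ a) (hb : 0 ≤ b) (M N : ℕ) :
    g P τ (N • x) ≤
      N * (a * P.real {ω | Aev x a (env τ ω)} + b * (1 - P.real {ω | Aev x a (env τ ω)}))
      + N * ∫ ω, PhiM x a b M (env τ ω) ∂P + M * g P τ x := by
  have := h.probability
  obtain ⟨hiell, hell⟩ := W5_integral_ell h x a b
  have hi1 : Integrable (fun ω => ell x a b (env τ ω) * N) P := hiell.mul_const _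
  have hi2 : Integrable
      (fun ω => ∑ k ∈ Finset.range N, PhiM x a b M (shiftW (k • x) (env τ ω))) P :=
    integrable_finsetSum _ (fun k _ => W5_integrable_PhiM_shift h hν x (k • x) a b M)
  have hi3 : Integrable
      (fun ω => ∑ k ∈ Finset.Ico (N - M) N, T (env τ ω) (k • x) ((k + 1) • x)) P :=
    integrable_finsetSum _ (fun k _ => integrable_T h hν _ _)
  have hle : g P τ (N • x) ≤ ∫ ω, (ell x a b (env τ ω) * N
      + ∑ k ∈ Finset.range N, PhiM x a b M (shiftW (k • x) (env τ ω))
      + ∑ k ∈ Finset.Ico (N - M) N, T (env τ ω) (k • x) ((k + 1) • x)) ∂P := by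
    unfold g
    refine integral_mono_ae (integrable_T h hν 0 (N • x)) ((hi1.add hi2).add hi3) ?_
    filter_upwards [ae_NN h hν] with ω hω
    exact cover_T hω x ha hb M N
  have s1 : ∫ ω, (ell x a b (env τ ω) * N
      + ∑ k ∈ Finset.range N, PhiM x a b M (shiftW (k • x) (env τ ω))
      + ∑ k ∈ Finset.Ico (N - M) N, T (env τ ω) (k • x) ((k + 1) • x)) ∂P
      = ∫ ω, ell x a b (env τ ω) * N ∂P
        + ∫ ω, ∑ k ∈ Finset.range N, PhiM x a b M (shiftW (k • x) (env τ ω)) ∂P
        + ∫ ω, ∑ k ∈ Finset.Ico (N - M) N, T (env τ ω) (k • x) ((k + 1) • x) ∂P := by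
    rw [← integral_add hi1 hi2]
    exact integral_add (hi1.add hi2) hi3
  have e1 : ∫ ω, ell x a b (env τ ω) * N ∂P
      = N * (a * P.real {ω | Aev x a (env τ ω)} + b * (1 - P.real {ω | Aev x a (env τ ω)})) := by
    rw [integral_mul_const, hell]
    ring
  have e2 : ∫ ω, ∑ k ∈ Finset.range N, PhiM x a b M (shiftW (k • x) (env τ ω)) ∂P
      = N * ∫ ω, PhiM x a b M (env τ ω) ∂P := by
    rw [integral_finsetSum _ (fun k _ => W5_integrable_PhiM_shift h hν x (k • x) a b M)]
    rw [Finset.sum_congr rfl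
      (fun k _ => integral_shift h (k • x) (PhiM x a b M) (measurable_PhiM x a b M))]
    simp
  have e3 : ∫ ω, ∑ k ∈ Finset.Ico (N - M) N, T (env τ ω) (k • x) ((k + 1) • x) ∂P
      ≤ M * g P τ x := by
    rw [integral_finsetSum _ (fun k _ => integrable_T h hν _ _)]
    have hk : ∀ k ∈ Finset.Ico (N - M) N,
        ∫ ω, T (env τ ω) (k • x) ((k + 1) • x) ∂P = g P τ x := by
      intro k _
      rw [integral_T_eq_g h]
      congr 1
      rw [add_nsmul, one_nsmul]
      abel
    rw [Finset.sum_congr rfl hk, Finset.sum_const, Nat.card_Ico, nsmul_eq_mul]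
    apply mul_le_mul_of_nonneg_right _ (g_nonneg h hν x)
    exact_mod_cast (by omega : N - (N - M) ≤ M)
  rw [s1, e1, e2] at hle
  linarith

end Claimed.Agent.R125
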