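/-
ROW 125 CONDITIONAL CHAIN, leaf W6 (group Lower).  Blueprint: Claimed/Agent/R125/Main.lean.  Definitions: Defs.lean.
Rules for the solver: keep the statements; helper names start with `W6_`; you may use every theorem of the imported
files (some still have sorry); edit only this file.

GROUP SKETCH.
Row 125 chain, file Lower:  a.s.  `(muZ x - ε) n ≤ T(0, n x)`  for large `n`.   (blueprint: Main.lean)
No ergodic theorem is needed: Steele's covering argument, integrated.

Fix `x`, `0 ≤ a < muZ x < b`.  `Aev x a w` = "liminf T(0,n x)/n < a";  it is invariant under `shiftW (k • x)`.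
`ell w = a` on `Aev`, `= b` off `Aev`.   A starting point `k` is BAD (for `M`) if `T(k x,(k+n) x) > ell n` for all `1 ≤ n ≤ M`.
Greedy covering of `[0,N)`: from a good `k` jump `n ≤ M` steps at cost `≤ ell n`, from a bad `k` (or from `k ≥ N - M`) one step:
   `T(0,N x) ≤ ell N + ∑_{k<N} PhiM(shiftW (k x) w) + ∑_{N-M ≤ k < N} T(k x,(k+1) x)`.
Integrate (translation invariance):   `g(N x) ≤ N (a p + b (1-p)) + N E PhiM + M g x`,   `p = P(Aev)`.
`E PhiM → 0` as `M → ∞` (dominated convergence: a.s. some `n ≥ 1` has `T(0,n x) ≤ ell n`: on `Aev` by definition, off `Aev` by `upper`).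
`muZ x ≤ g(N x)/N`;  `N → ∞`, `M → ∞`, `b ↓ muZ x`:   `muZ x ≤ a p + muZ x (1 - p)`, so `p = 0`.
-/
import Claimed.Agent.R125.W5
import Claimed.Agent.R125.Upper

set_option autoImplicit false

open MeasureTheory ProbabilityTheory Filter Set
open scoped Topology
open Claims.C0214 Claims.C0214.PlanarFPP Claims.C0214.GammaFPP

namespace Claimed.Agent.R125

variable {Ω : Type} [MeasurableSpace Ω] {P : Measure Ω} {τ : Edge → Ω → ℝ} {ν : Measure ℝ}
variable {w : Edge → ℝ} {μ : Plane → ℝ}

/-! ### leaf W6: dominated convergence -/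

theorem tendsto_integral_PhiM (h : IidEnvironment ν P τ) (hν : NiceLaw ν) (x : Vertex) {a b : ℝ}
    (hb : muZ P τ x < b) :
    Tendsto (fun M : ℕ => ∫ ω, PhiM x a b M (env τ ω) ∂P) atTop (𝓝 0) := by
  have hlim : Tendsto (fun M : ℕ => ∫ ω, PhiM x a b M (env τ ω) ∂P) atTop
      (𝓝 (∫ _ω, (0 : ℝ) ∂P)) := by
    refine tendsto_integral_of_dominated_convergence (fun ω => T (env τ ω) 0 x)
      (fun M => (integrable_PhiM h hν x a b M).aestronglyMeasurable)
      (integrable_T h hν 0 x) ?_ ?_
    · intro M
      filter_upwards [ae_NN h hν] with ω hNN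
      have h0 := T_nonneg hNN 0 x
      unfold PhiM
      split_ifs
      · rw [Real.norm_of_nonneg h0]
      · simpa using h0
    · have hε : 0 < b - muZ P τ x := by linarith
      filter_upwards [upper h hν x hε] with ω hU
      have hex : ∃ n : ℕ, 1 ≤ n ∧
          T (env τ ω) 0 (n • x) ≤ ell x a b (env τ ω) * n := by
        by_cases hA : Aev x a (env τ ω)
        · obtain ⟨j, hj⟩ := hA
          obtain ⟨n, hn1, hn2⟩ := (hj.and_eventually (eventually_ge_atTop 1)).exists
          refine ⟨n, hn2, ?_⟩
          have hA' : Aev x a (env τ ω) := ⟨j, hj⟩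
          have hell : ell x a b (env τ ω) = a := by
            unfold ell
            rw [if_pos hA']
          rw [hell]
          refine hn1.trans ?_
          have hpos : (0 : ℝ) ≤ 1 / ((j : ℝ) + 1) := by positivity
          have hn0 : (0 : ℝ) ≤ (n : ℝ) := Nat.cast_nonneg n
          nlinarith
        · obtain ⟨n, hn1, hn2⟩ := (hU.and (eventually_ge_atTop 1)).exists
          refine ⟨n, hn2, ?_⟩
          have hell : ell x a b (env τ ω) = b := by
            unfold ell
            rw [if_neg hA]
          rw [hell]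
          have : muZ P τ x + (b - muZ P τ x) = b := by ring
          rwa [this] at hn1
      obtain ⟨n, hn1, hn2⟩ := hex
      refine tendsto_const_nhds.congr' ?_
      filter_upwards [eventually_ge_atTop n] with M hM
      unfold PhiM
      rw [if_neg]
      intro hall
      exact absurd (hall n (Finset.mem_Icc.2 ⟨hn1, hM⟩)) (not_lt.2 hn2)
  simpa using hlim

end Claimed.Agent.R125
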