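/-
ROW 125 CONDITIONAL CHAIN, leaf W7 (group Lower).  Blueprint: Claimed/Agent/R125/Main.lean.  Definitions: Defs.lean.
Rules for the solver: keep the statements; helper names start with `W7_`; you may use every theorem of the imported
files (some still have sorry); edit only this file.

GROUP SKETCH.
Row 125 chain, file Lower:  a.s.  `(muZ x - ε) n ≤ T(0, n x)`  for large `n`.   (blueprint: Main.lean)
No ergodic theorem is needed: Steele's covering argument, integrated.

Fix `x`, `0 ≤ a < muZ x < b`.  `Aev x a w` = "liminf T(0,n x)/n < a";  it is invariant under `shiftW (k • x)`.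
`ell w = a` on `Aev`, `= b` off `Aev`.   A starting point `k` is BAD (for `M`) if `T(k x,(k+n) x) > ell n` for all `1 ≤ n ≤ M`.
Greedy covering of `[0,N)`: from a good `k` jump `n ≤ M` steps at cost `≤ ell n`, from a bad `k` (or from `k ≥ N - M`) one step:
   `T(0,N x) ≤ ell N + ∑_{k<N} PhiM(shiftW (k x) w) + ∑_{N-M ≤ k < N} T(k x,(k+1) x)`.
Integrate (translation invariance):   `g(N x) ≤ N (a p + b (1-p)) + N E PhiM + M g x`,   `p = P(Aev)`.
`E PhiM → 0` as `M → ∞` (dominated convergence: a.s. some `n ≥ 1` has `T(0,n x) ≤ ell n`: on `Aev` by definition, off `Aev` by `upper`).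
`muZ x ≤ g(N x)/N`;  `N → ∞`, `M → ∞`, `b ↓ muZ x`:   `muZ x ≤ a p + muZ x (1 - p)`, so `p = 0`.
-/
import Claimed.Agent.R125.W6

set_option autoImplicit false

open MeasureTheory ProbabilityTheory Filter Set
open scoped Topology
open Claims.C0214 Claims.C0214.PlanarFPP Claims.C0214.GammaFPP

namespace Claimed.Agent.R125

variable {Ω : Type} [MeasurableSpace Ω] {P : Measure Ω} {τ : Edge → Ω → ℝ} {ν : Measure ℝ}
variable {w : Edge → ℝ} {μ : Plane → ℝ}

/-! ### leaf W7: conclusion -/

theorem prob_Aev_zero (h : IidEnvironment ν P τ) (hν : NiceLaw ν) (x : Vertex) {a : ℝ}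
    (ha : 0 ≤ a) (ha' : a < muZ P τ x) : P {ω | Aev x a (env τ ω)} = 0 := by
  have := h.probability
  set p : ℝ := P.real {ω | Aev x a (env τ ω)} with hp
  have hp0 : 0 ≤ p := measureReal_nonneg
  have hp1 : p ≤ 1 := measureReal_le_one
  have hμ0 := muZ_nonneg h hν x
  -- step 1
  have s1 : ∀ b : ℝ, muZ P τ x < b → ∀ M : ℕ,
      muZ P τ x ≤ (a * p + b * (1 - p)) + ∫ ω, PhiM x a b M (env τ ω) ∂P := by
    intro b hb M
    have hb0 : 0 ≤ b := hμ0.trans hb.le
    have hlim : Tendsto (fun N : ℕ => (a * p + b * (1 - p)) + ∫ ω, PhiM x a b M (env τ ω) ∂P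
        + (M * g P τ x) / (N : ℝ)) atTop
        (𝓝 ((a * p + b * (1 - p)) + ∫ ω, PhiM x a b M (env τ ω) ∂P + 0)) :=
      tendsto_const_nhds.add (tendsto_const_div_atTop_nhds_zero_nat _)
    rw [add_zero] at hlim
    refine ge_of_tendsto hlim ?_
    filter_upwards [eventually_ge_atTop 1] with N hN
    have hN0 : (0 : ℝ) < N := by exact_mod_cast hN
    have h1 := muZ_le_div h hν x hN
    have h2 := integral_cover h hν x ha hb0 M N
    refine h1.trans ?_
    rw [div_le_iff₀ hN0]
    have e : ((a * p + b * (1 - p)) + ∫ ω, PhiM x a b M (env τ ω) ∂P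
        + (M * g P τ x) / (N : ℝ)) * N
        = N * (a * p + b * (1 - p)) + N * ∫ ω, PhiM x a b M (env τ ω) ∂P + M * g P τ x := by
      field_simp
    rw [e]
    exact h2
  -- step 2
  have s2 : ∀ b : ℝ, muZ P τ x < b → muZ P τ x ≤ a * p + b * (1 - p) := by
    intro b hb
    have hlim := (tendsto_integral_PhiM h hν x (a := a) hb).const_add (a * p + b * (1 - p))
    rw [add_zero] at hlim
    exact ge_of_tendsto' hlim (s1 b hb)
  -- step 3
  have s3 : muZ P τ x ≤ a * p + muZ P τ x * (1 - p) := by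
    apply le_of_forall_pos_le_add
    intro ε hε
    have := s2 (muZ P τ x + ε) (by linarith)
    nlinarith
  have hp' : p = 0 := by
    by_contra hne
    have hpp : 0 < p := lt_of_le_of_ne hp0 (Ne.symm hne)
    nlinarith
  exact (measureReal_eq_zero_iff (measure_ne_top _ _)).1 hp'

theorem lower (h : IidEnvironment ν P τ) (hν : NiceLaw ν) (x : Vertex) {ε : ℝ} (hε : 0 < ε) :
    ∀ᵐ ω ∂P, ∀ᶠ n : ℕ in atTop, (muZ P τ x - ε) * n ≤ T (env τ ω) 0 (n • x) := by
  by_cases hc : muZ P τ x - ε ≤ 0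
  · filter_upwards [ae_NN h hν] with ω hω
    refine Eventually.of_forall (fun n => ?_)
    have h1 := T_nonneg hω 0 (n • x)
    have h2 : (0 : ℝ) ≤ n := Nat.cast_nonneg n
    nlinarith
  · push Not at hc
    have hz := prob_Aev_zero h hν x (a := muZ P τ x - ε / 2) (by linarith) (by linarith)
    have hae : ∀ᵐ ω ∂P, ¬ Aev x (muZ P τ x - ε / 2) (env τ ω) := by
      rw [ae_iff]
      simpa using hz
    obtain ⟨j, hj⟩ := exists_nat_one_div_lt (half_pos hε)
    filter_upwards [hae] with ω hω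
    have h1 : ¬ ∃ᶠ n : ℕ in atTop,
        T (env τ ω) 0 (n • x) ≤ (muZ P τ x - ε / 2 - 1 / ((j : ℝ) + 1)) * n :=
      fun hf => hω ⟨j, hf⟩
    rw [not_frequently] at h1
    filter_upwards [h1] with n hn
    push Not at hn
    have h2 : (0 : ℝ) ≤ n := Nat.cast_nonneg n
    refine le_trans ?_ hn.le
    apply mul_le_mul_of_nonneg_right _ h2
    linarith

end Claimed.Agent.R125
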