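/-
ROW 125 CONDITIONAL CHAIN, leaf W8 (group Lower).  Blueprint: Claimed/Agent/R125/Main.lean.  Definitions: Defs.lean.
Rules for the solver: keep the statements; helper names start with `W8_`; you may use every theorem of the imported
files (some still have sorry); edit only this file.

GROUP SKETCH.
Row 125 chain, file Lower:  a.s.  `(muZ x - ε) n ≤ T(0, n x)`  for large `n`.   (blueprint: Main.lean)
No ergodic theorem is needed: Steele's covering argument, integrated.

Fix `x`, `0 ≤ a < muZ x < b`.  `Aev x a w` = "liminf T(0,n x)/n < a";  it is invariant under `shiftW (k • x)`.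
`ell w = a` on `Aev`, `= b` off `Aev`.   A starting point `k` is BAD (for `M`) if `T(k x,(k+n) x) > ell n` for all `1 ≤ n ≤ M`.
Greedy covering of `[0,N)`: from a good `k` jump `n ≤ M` steps at cost `≤ ell n`, from a bad `k` (or from `k ≥ N - M`) one step:
   `T(0,N x) ≤ ell N + ∑_{k<N} PhiM(shiftW (k x) w) + ∑_{N-M ≤ k < N} T(k x,(k+1) x)`.
Integrate (translation invariance):   `g(N x) ≤ N (a p + b (1-p)) + N E PhiM + M g x`,   `p = P(Aev)`.
`E PhiM → 0` as `M → ∞` (dominated convergence: a.s. some `n ≥ 1` has `T(0,n x) ≤ ell n`: on `Aev` by definition, off `Aev` by `upper`).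
`muZ x ≤ g(N x)/N`;  `N → ∞`, `M → ∞`, `b ↓ muZ x`:   `muZ x ≤ a p + muZ x (1 - p)`, so `p = 0`.
-/
import Claimed.Agent.R125.W7

set_option autoImplicit false

open MeasureTheory ProbabilityTheory Filter Set
open scoped Topology
open Claims.C0214 Claims.C0214.PlanarFPP Claims.C0214.GammaFPP

namespace Claimed.Agent.R125

variable {Ω : Type} [MeasurableSpace Ω] {P : Measure Ω} {τ : Edge → Ω → ℝ} {ν : Measure ℝ}
variable {w : Edge → ℝ} {μ : Plane → ℝ}

/-! ### leaf W8 -/

theorem tendsto_T_div (h : IidEnvironment ν P τ) (hν : NiceLaw ν) (x : Vertex) :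
    ∀ᵐ ω ∂P, Tendsto (fun n : ℕ => T (env τ ω) 0 (n • x) / n) atTop (𝓝 (muZ P τ x)) := by
  have hU : ∀ j : ℕ, ∀ᵐ ω ∂P, ∀ᶠ n : ℕ in atTop,
      T (env τ ω) 0 (n • x) ≤ (muZ P τ x + 1 / ((j : ℝ) + 1)) * n :=
    fun j => upper h hν x (by positivity)
  have hL : ∀ j : ℕ, ∀ᵐ ω ∂P, ∀ᶠ n : ℕ in atTop,
      (muZ P τ x - 1 / ((j : ℝ) + 1)) * n ≤ T (env τ ω) 0 (n • x) :=
    fun j => lower h hν x (by positivity)
  rw [← ae_all_iff] at hU hL
  filter_upwards [hU, hL] with ω hU hL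
  rw [Metric.tendsto_atTop']
  intro ε hε
  obtain ⟨j, hj⟩ := exists_nat_one_div_lt hε
  have h3 := ((hU j).and (hL j)).and (eventually_gt_atTop 0)
  obtain ⟨N, hN⟩ := eventually_atTop.1 h3
  refine ⟨N, fun n hn => ?_⟩
  obtain ⟨⟨h1, h2⟩, hpos⟩ := hN n hn.le
  have hn0 : (0 : ℝ) < n := by exact_mod_cast hpos
  rw [Real.dist_eq, abs_lt]
  constructor
  · have : muZ P τ x - 1 / ((j : ℝ) + 1) ≤ T (env τ ω) 0 (n • x) / n := by
      rw [le_div_iff₀ hn0]; exact h2
    linarith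
  · have : T (env τ ω) 0 (n • x) / n ≤ muZ P τ x + 1 / ((j : ℝ) + 1) := by
      rw [div_le_iff₀ hn0]; exact h1
    linarith

end Claimed.Agent.R125
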