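/-
ROW 125 CONDITIONAL CHAIN, leaf Y1 (group Ray).  Blueprint: Claimed/Agent/R125/Main.lean.  Definitions: Defs.lean.
Rules for the solver: keep the statements; helper names start with `Y1_`; you may use every theorem of the imported
files (some still have sorry); edit only this file.

GROUP SKETCH.
Row 125 chain, file Ray:  `IsTimeConstant P τ (mu P τ)`: a.s. convergence along every real ray, real time.   (blueprint: Main.lean)

Fix `v`, `m ≥ 1`, `x = ⌊m v⌋`.  For real `t ≥ 0` put `n = ⌊t / m⌋₊`, `z = ⌊t v⌋`.  Then (`floor_dist`)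
  `n1 (z - n x) ≤ 2 n + m (|v 0| + |v 1|) + 2 ≤ 3 n`  for large `t`.
`ball_bound` (`y n = n x`, `δ = 3`):  `|T(0,z) - T(0,n x)| ≤ T(n x, z) ≤ 3 C n`;   `tendsto_T_div`:  `T(0,n x)/n → muZ x`;   `n / t → 1/m`.
So a.s. `|T(0,⌊t v⌋)/t - muZ ⌊m v⌋ / m| ≤ 4 C / m` for large `t` (`ray_m`).  Intersect over `m`, use `tendsto_mu`.
-/
import Claimed.Agent.R125.Defs

set_option autoImplicit false

open MeasureTheory ProbabilityTheory Filter Set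
open scoped Topology
open Claims.C0214 Claims.C0214.PlanarFPP Claims.C0214.GammaFPP

namespace Claimed.Agent.R125

variable {Ω : Type} [MeasurableSpace Ω] {P : Measure Ω} {τ : Edge → Ω → ℝ} {ν : Measure ℝ}
variable {w : Edge → ℝ} {μ : Plane → ℝ}

/-! ### leaf Y1 (deterministic, coordinatewise) -/

theorem Y1_coord (a : ℝ) (m : ℕ) (hm : 1 ≤ m) (t : ℝ) (ht : 0 ≤ t) :
    |((⌊t * a⌋ - (⌊t / m⌋₊ : ℤ) * ⌊(m : ℝ) * a⌋ : ℤ) : ℝ)| ≤ ⌊t / m⌋₊ + m * |a| + 1 := by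
  have hm0 : (0 : ℝ) < m := by exact_mod_cast hm
  set n : ℕ := ⌊t / m⌋₊ with hn
  have hq : 0 ≤ t / m := div_nonneg ht hm0.le
  have h1 : (n : ℝ) ≤ t / m := Nat.floor_le hq
  have h2 : t / m < n + 1 := Nat.lt_floor_add_one _
  have h1' : (n : ℝ) * m ≤ t := by rwa [le_div_iff₀ hm0] at h1
  have h2' : t < ((n : ℝ) + 1) * m := by rwa [div_lt_iff₀ hm0] at h2
  have hn0 : (0 : ℝ) ≤ n := Nat.cast_nonneg n
  have f1 : (⌊t * a⌋ : ℝ) ≤ t * a := Int.floor_le _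
  have f2 : t * a < ⌊t * a⌋ + 1 := Int.lt_floor_add_one _
  have f3 : (⌊(m : ℝ) * a⌋ : ℝ) ≤ m * a := Int.floor_le _
  have f4 : (m : ℝ) * a < ⌊(m : ℝ) * a⌋ + 1 := Int.lt_floor_add_one _
  have g3 : (n : ℝ) * ⌊(m : ℝ) * a⌋ ≤ n * (m * a) := mul_le_mul_of_nonneg_left f3 hn0
  have g4 : (n : ℝ) * (m * a) ≤ n * (⌊(m : ℝ) * a⌋ + 1) := mul_le_mul_of_nonneg_left f4.le hn0
  have hr0 : 0 ≤ t - n * m := by linarith
  have hr1 : t - n * m ≤ m := by nlinarith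
  have hra : |(t - n * m) * a| ≤ m * |a| := by
    rw [abs_mul, abs_of_nonneg hr0]
    exact mul_le_mul_of_nonneg_right hr1 (abs_nonneg a)
  obtain ⟨hra1, hra2⟩ := abs_le.mp hra
  push_cast
  rw [abs_le]
  constructor
  · nlinarith
  · nlinarith

theorem floor_dist (v : Plane) (m : ℕ) (hm : 1 ≤ m) (t : ℝ) (ht : 0 ≤ t) :
    (n1 (latticeFloor (t • v) - ⌊t / m⌋₊ • latticeFloor ((m : ℝ) • v)) : ℝ) ≤
      2 * ⌊t / m⌋₊ + m * (|v 0| + |v 1|) + 2 := by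
  have h0 := Y1_coord (v 0) m hm t ht
  have h1 := Y1_coord (v 1) m hm t ht
  have e0 : (latticeFloor (t • v) - ⌊t / m⌋₊ • latticeFloor ((m : ℝ) • v)).1
      = ⌊t * v 0⌋ - (⌊t / m⌋₊ : ℤ) * ⌊(m : ℝ) * v 0⌋ := by
    simp [latticeFloor]
  have e1 : (latticeFloor (t • v) - ⌊t / m⌋₊ • latticeFloor ((m : ℝ) • v)).2
      = ⌊t * v 1⌋ - (⌊t / m⌋₊ : ℤ) * ⌊(m : ℝ) * v 1⌋ := by
    simp [latticeFloor]
  unfold n1
  rw [e0, e1]
  push_cast [Nat.cast_natAbs, Int.cast_abs] at h0 h1 ⊢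
  linarith

end Claimed.Agent.R125
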