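/-
ROW 125 CONDITIONAL CHAIN, leaf Y2 (group Ray).  Blueprint: Claimed/Agent/R125/Main.lean.  Definitions: Defs.lean.
Rules for the solver: keep the statements; helper names start with `Y2_`; you may use every theorem of the imported
files (some still have sorry); edit only this file.

GROUP SKETCH.
Row 125 chain, file Ray:  `IsTimeConstant P τ (mu P τ)`: a.s. convergence along every real ray, real time.   (blueprint: Main.lean)

Fix `v`, `m ≥ 1`, `x = ⌊m v⌋`.  For real `t ≥ 0` put `n = ⌊t / m⌋₊`, `z = ⌊t v⌋`.  Then (`floor_dist`)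
  `n1 (z - n x) ≤ 2 n + m (|v 0| + |v 1|) + 2 ≤ 3 n`  for large `t`.
`ball_bound` (`y n = n x`, `δ = 3`):  `|T(0,z) - T(0,n x)| ≤ T(n x, z) ≤ 3 C n`;   `tendsto_T_div`:  `T(0,n x)/n → muZ x`;   `n / t → 1/m`.
So a.s. `|T(0,⌊t v⌋)/t - muZ ⌊m v⌋ / m| ≤ 4 C / m` for large `t` (`ray_m`).  Intersect over `m`, use `tendsto_mu`.
-/
import Claimed.Agent.R125.Y1
import Claimed.Agent.R125.Path

set_option autoImplicit false

open MeasureTheory ProbabilityTheory Filter Set
open scoped Topology
open Claims.C0214 Claims.C0214.PlanarFPP Claims.C0214.GammaFPP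

namespace Claimed.Agent.R125

variable {Ω : Type} [MeasurableSpace Ω] {P : Measure Ω} {τ : Edge → Ω → ℝ} {ν : Measure ℝ}
variable {w : Edge → ℝ} {μ : Plane → ℝ}

/-! ### leaf Y2 (deterministic): from the three a.s. facts to the estimate along the ray -/

theorem ray_det {w : Edge → ℝ} (hw : NN w) (v : Plane) (m : ℕ) (hm : 1 ≤ m) (C c : ℝ) (hC : 0 < C)
    (hball : ∀ᶠ n : ℕ in atTop, ∀ z : Vertex,
      (n1 (z - n • latticeFloor ((m : ℝ) • v)) : ℝ) ≤ 3 * n →
        T w (n • latticeFloor ((m : ℝ) • v)) z ≤ C * 3 * n)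
    (hconv : Tendsto (fun n : ℕ => T w 0 (n • latticeFloor ((m : ℝ) • v)) / n) atTop (𝓝 c)) :
    ∀ᶠ t : ℝ in atTop, |T w 0 (latticeFloor (t • v)) / t - c / m| ≤ 4 * C / m := by
  have hmR : (0 : ℝ) < m := by exact_mod_cast hm
  have hfl : Tendsto (fun t : ℝ => ⌊t / m⌋₊) atTop atTop :=
    tendsto_nat_floor_atTop.comp (tendsto_id.atTop_div_const hmR)
  have E2 := hfl.eventually hball
  have E3 := hfl.eventually (hconv.eventually (Metric.closedBall_mem_nhds c (half_pos hC)))
  have E4 := hfl.eventually (eventually_ge_atTop (⌈(m : ℝ) * (|v 0| + |v 1|) + 2⌉₊ + 1))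
  filter_upwards [eventually_gt_atTop (0 : ℝ), E2, E3, E4,
    eventually_ge_atTop (2 * m * |c| / C)] with t ht h2 h3 h4 h5
  set n : ℕ := ⌊t / m⌋₊ with hn
  set x : Vertex := latticeFloor ((m : ℝ) • v) with hx
  set z : Vertex := latticeFloor (t • v) with hz
  set A : ℝ := T w 0 z with hA
  set B : ℝ := T w 0 (n • x) with hB
  have hs0 : 0 ≤ t / m := by positivity
  have hn_le : (n : ℝ) ≤ t / m := Nat.floor_le hs0
  have hn_gt : t / m < (n : ℝ) + 1 := Nat.lt_floor_add_one _
  have hnbig : (m : ℝ) * (|v 0| + |v 1|) + 2 ≤ (n : ℝ) := by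
    have h41 : (⌈(m : ℝ) * (|v 0| + |v 1|) + 2⌉₊ : ℝ) ≤ (n : ℝ) := by
      have : ⌈(m : ℝ) * (|v 0| + |v 1|) + 2⌉₊ ≤ n := by omega
      exact_mod_cast this
    exact (Nat.le_ceil _).trans h41
  have hnpos : (0 : ℝ) < (n : ℝ) := by
    have : 1 ≤ n := by omega
    exact_mod_cast this
  have hdist : (n1 (z - n • x) : ℝ) ≤ 3 * n := by
    have := floor_dist v m hm t ht.le
    linarith
  have hT := h2 z hdist
  have hAB : |A - B| ≤ C * 3 * n := by
    rw [abs_le]
    constructor
    · have := T_triangle hw 0 z (n • x)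
      rw [T_symm w z (n • x)] at this
      linarith
    · have := T_triangle hw 0 (n • x) z
      linarith
  have hBc : |B - c * n| ≤ C / 2 * n := by
    have h31 : |B / n - c| ≤ C / 2 := by
      have := h3
      rw [Real.dist_eq] at this
      exact this
    have e : B - c * n = (B / n - c) * n := by field_simp
    rw [e, abs_mul, abs_of_pos hnpos]
    exact mul_le_mul_of_nonneg_right h31 hnpos.le
  have hnm : |(n : ℝ) - t / m| ≤ 1 := by
    rw [abs_le]; constructor <;> linarith
  have hc : |c| ≤ C / 2 * (t / m) := by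
    rw [div_le_iff₀ hC] at h5
    have e : C / 2 * (t / m) = (t * C) / (2 * m) := by field_simp
    rw [e, le_div_iff₀ (by positivity)]
    linarith
  have key : A / t - c / m = ((A - B) + (B - c * n) + c * ((n : ℝ) - t / m)) / t := by
    field_simp
    ring
  rw [key, abs_div, abs_of_pos ht, div_le_iff₀ ht]
  have e4 : 4 * C / m * t = 4 * C * (t / m) := by field_simp
  rw [e4]
  have hcn : |c * ((n : ℝ) - t / m)| ≤ |c| := by
    rw [abs_mul]
    exact mul_le_of_le_one_right (abs_nonneg c) hnm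
  have htri : |(A - B) + (B - c * n) + c * ((n : ℝ) - t / m)|
      ≤ |A - B| + |B - c * n| + |c * ((n : ℝ) - t / m)| := abs_add_three _ _ _
  have hCn : C * (n : ℝ) ≤ C * (t / m) := mul_le_mul_of_nonneg_left hn_le hC.le
  linarith

end Claimed.Agent.R125
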