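/-
ROW 125 CONDITIONAL CHAIN, leaf Y3 (group Ray).  Blueprint: Claimed/Agent/R125/Main.lean.  Definitions: Defs.lean.
Rules for the solver: keep the statements; helper names start with `Y3_`; you may use every theorem of the imported
files (some still have sorry); edit only this file.

GROUP SKETCH.
Row 125 chain, file Ray:  `IsTimeConstant P τ (mu P τ)`: a.s. convergence along every real ray, real time.   (blueprint: Main.lean)

Fix `v`, `m ≥ 1`, `x = ⌊m v⌋`.  For real `t ≥ 0` put `n = ⌊t / m⌋₊`, `z = ⌊t v⌋`.  Then (`floor_dist`)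
  `n1 (z - n x) ≤ 2 n + m (|v 0| + |v 1|) + 2 ≤ 3 n`  for large `t`.
`ball_bound` (`y n = n x`, `δ = 3`):  `|T(0,z) - T(0,n x)| ≤ T(n x, z) ≤ 3 C n`;   `tendsto_T_div`:  `T(0,n x)/n → muZ x`;   `n / t → 1/m`.
So a.s. `|T(0,⌊t v⌋)/t - muZ ⌊m v⌋ / m| ≤ 4 C / m` for large `t` (`ray_m`).  Intersect over `m`, use `tendsto_mu`.
-/
import Claimed.Agent.R125.Y2
import Claimed.Agent.R125.Ball
import Claimed.Agent.R125.Lower

set_option autoImplicit false

open MeasureTheory ProbabilityTheory Filter Set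
open scoped Topology
open Claims.C0214 Claims.C0214.PlanarFPP Claims.C0214.GammaFPP

namespace Claimed.Agent.R125

variable {Ω : Type} [MeasurableSpace Ω] {P : Measure Ω} {τ : Edge → Ω → ℝ} {ν : Measure ℝ}
variable {w : Edge → ℝ} {μ : Plane → ℝ}

/-! ### leaf Y3 -/

theorem ray_m (h : IidEnvironment ν P τ) (hν : NiceLaw ν) :
    ∃ C : ℝ, 0 < C ∧ ∀ (v : Plane) (m : ℕ), 1 ≤ m → ∀ᵐ ω ∂P, ∀ᶠ t : ℝ in atTop,
      |T (env τ ω) 0 (latticeFloor (t • v)) / t - muZ P τ (latticeFloor ((m : ℝ) • v)) / m| ≤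
        4 * C / m := by
  obtain ⟨C, hC, hb⟩ := ball_bound h hν
  refine ⟨C, hC, fun v m hm => ?_⟩
  filter_upwards [ae_NN h hν, hb (fun n => n • latticeFloor ((m : ℝ) • v)) 3 (by norm_num),
    tendsto_T_div h hν (latticeFloor ((m : ℝ) • v))] with ω h1 h2 h3
  exact ray_det h1 v m hm C _ hC h2 h3

end Claimed.Agent.R125
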