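/-
ROW 125 CONDITIONAL CHAIN, leaf Y4 (group Ray).  Blueprint: Claimed/Agent/R125/Main.lean.  Definitions: Defs.lean.
Rules for the solver: keep the statements; helper names start with `Y4_`; you may use every theorem of the imported
files (some still have sorry); edit only this file.

GROUP SKETCH.
Row 125 chain, file Ray:  `IsTimeConstant P τ (mu P τ)`: a.s. convergence along every real ray, real time.   (blueprint: Main.lean)

Fix `v`, `m ≥ 1`, `x = ⌊m v⌋`.  For real `t ≥ 0` put `n = ⌊t / m⌋₊`, `z = ⌊t v⌋`.  Then (`floor_dist`)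
  `n1 (z - n x) ≤ 2 n + m (|v 0| + |v 1|) + 2 ≤ 3 n`  for large `t`.
`ball_bound` (`y n = n x`, `δ = 3`):  `|T(0,z) - T(0,n x)| ≤ T(n x, z) ≤ 3 C n`;   `tendsto_T_div`:  `T(0,n x)/n → muZ x`;   `n / t → 1/m`.
So a.s. `|T(0,⌊t v⌋)/t - muZ ⌊m v⌋ / m| ≤ 4 C / m` for large `t` (`ray_m`).  Intersect over `m`, use `tendsto_mu`.
-/
import Claimed.Agent.R125.Y3
import Claimed.Agent.R125.Mean

set_option autoImplicit false

open MeasureTheory ProbabilityTheory Filter Set
open scoped Topology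
open Claims.C0214 Claims.C0214.PlanarFPP Claims.C0214.GammaFPP

namespace Claimed.Agent.R125

variable {Ω : Type} [MeasurableSpace Ω] {P : Measure Ω} {τ : Edge → Ω → ℝ} {ν : Measure ℝ}
variable {w : Edge → ℝ} {μ : Plane → ℝ}

/-! ### leaf Y4 -/

theorem isTimeConstant_mu (h : IidEnvironment ν P τ) (hν : NiceLaw ν) :
    IsTimeConstant P τ (mu P τ) := by
  obtain ⟨C, hC, hray⟩ := ray_m h hν
  intro v
  have hall : ∀ᵐ ω ∂P, ∀ m : ℕ, 1 ≤ m → ∀ᶠ t : ℝ in atTop,
      |T (env τ ω) 0 (latticeFloor (t • v)) / t - muZ P τ (latticeFloor ((m : ℝ) • v)) / m| ≤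
        4 * C / m := by
    rw [ae_all_iff]
    intro m
    by_cases hm : 1 ≤ m
    · filter_upwards [hray v m hm] with ω hω _ using hω
    · exact Filter.Eventually.of_forall fun ω h' => absurd h' hm
  have hmu := tendsto_mu h hν v
  have hC0 : Tendsto (fun m : ℕ => 4 * C / (m : ℝ)) atTop (𝓝 0) :=
    tendsto_const_div_atTop_nhds_zero_nat (4 * C)
  filter_upwards [hall] with ω hω
  rw [Metric.tendsto_nhds]
  intro ε hε
  have h1 : ∀ᶠ m : ℕ in atTop,
      dist (muZ P τ (latticeFloor ((m : ℝ) • v)) / m) (mu P τ v) < ε / 2 :=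
    (Metric.tendsto_nhds.1 hmu) (ε / 2) (by positivity)
  have h2 : ∀ᶠ m : ℕ in atTop, dist (4 * C / (m : ℝ)) 0 < ε / 2 :=
    (Metric.tendsto_nhds.1 hC0) (ε / 2) (by positivity)
  obtain ⟨m, hm1, hm2, hm3⟩ := (h1.and (h2.and (eventually_ge_atTop 1))).exists
  filter_upwards [hω m hm3] with t ht
  have ht' : |passageTime (fun e => τ e ω) (0, 0) (latticeFloor (t • v)) / t
      - muZ P τ (latticeFloor ((m : ℝ) • v)) / m| ≤ 4 * C / m := ht
  rw [Real.dist_eq] at hm1 hm2 ⊢
  rw [sub_zero] at hm2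
  have h3 := le_abs_self (4 * C / (m : ℝ))
  calc |passageTime (fun e => τ e ω) (0, 0) (latticeFloor (t • v)) / t - mu P τ v|
      ≤ |passageTime (fun e => τ e ω) (0, 0) (latticeFloor (t • v)) / t
          - muZ P τ (latticeFloor ((m : ℝ) • v)) / m|
        + |muZ P τ (latticeFloor ((m : ℝ) • v)) / m - mu P τ v| := abs_sub_le _ _ _
    _ < ε := by linarith

end Claimed.Agent.R125
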